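import Crest.Agent.R197.Defs

/-! Row 197: cohomological dimension at most two, and a nonzero `H²`. -/

set_option autoImplicit false

noncomputable section

namespace Crest.Agent.R197

open CategoryTheory

theorem h2Stmt : H2Stmt := by
  intro G _ g h f f' hc hne
  refine ⟨Rep.trivial ℤ G ℤ, fun hz => hne ?_⟩
  let c : groupCohomology.cocycles₂ (Rep.trivial ℤ G ℤ) :=
    ⟨fun p : G × G => ((f p.1).toAdd * (f' p.2).toAdd : ℤ), by
      rw [groupCohomology.mem_cocycles₂_iff]
      intro a b d
      simp only [map_mul, toAdd_mul, Representation.trivial_apply]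
      ring⟩
  have h0 : groupCohomology.H2π (Rep.trivial ℤ G ℤ) c = 0 := by
    have := ModuleCat.subsingleton_of_isZero hz
    exact Subsingleton.elim _ _
  rw [groupCohomology.H2π_eq_zero_iff] at h0
  obtain ⟨b, hb⟩ := h0
  have h1 := congrFun hb (g, h)
  have h2 := congrFun hb (h, g)
  rw [groupCohomology.d₁₂_hom_apply] at h1 h2
  simp only [Representation.trivial_apply] at h1 h2
  have h3 : (c (g, h) : ℤ) = (f g).toAdd * (f' h).toAdd := rfl
  have h4 : (c (h, g) : ℤ) = (f h).toAdd * (f' g).toAdd := rfl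
  rw [← h3, ← h4, ← h1, ← h2, hc.eq]
  abel

namespace Cd

section General

variable {k G : Type} [CommRing k] [Group G]

/-- The free representation on `G × α`. -/
def rho (k G : Type) [CommRing k] [Group G] (α : Type) : Representation k G (G × α →₀ k) where
  toFun g := Finsupp.lmapDomain k k fun e => (g * e.1, e.2)
  map_one' := Finsupp.lhom_ext' fun e => LinearMap.ext_ring (by simp)
  map_mul' a b := Finsupp.lhom_ext' fun e => LinearMap.ext_ring (by simp [mul_assoc])

@[simp] theorem rho_single (α : Type) (g h : G) (a : α) (c : k) :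
    rho k G α g (Finsupp.single (h, a) c) = Finsupp.single (g * h, a) c := by
  simp [rho]

/-- The free representation as an object. -/
abbrev FR' (k G : Type) [CommRing k] [Group G] (α : Type) : Rep k G := Rep.of (rho k G α)

/-- The morphism out of a free representation. -/
def liftFR {α : Type} (E : Rep.{0} k G) (x : α → E) : FR' k G α ⟶ E :=
  Rep.ofHom ⟨Finsupp.linearCombination k (fun e : G × α => E.ρ e.1 (x e.2)), fun g => by
    refine Finsupp.lhom_ext' fun e => LinearMap.ext_ring ?_
    obtain ⟨h, a⟩ := e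
    simp⟩

theorem liftFR_single {α : Type} (E : Rep.{0} k G) (x : α → E) (h : G) (a : α) (c : k) :
    (liftFR E x).hom (Finsupp.single (h, a) c) = c • E.ρ h (x a) :=
  Finsupp.linearCombination_single k (v := fun e : G × α => E.ρ e.1 (x e.2)) c (h, a)

theorem FR_ext {α : Type} {E : Rep.{0} k G} (f g : FR' k G α ⟶ E)
    (h : ∀ a, f.hom (Finsupp.single (1, a) 1) = g.hom (Finsupp.single (1, a) 1)) : f = g := by
  refine Rep.hom_ext (Representation.IntertwiningMap.ext ?_)
  refine Finsupp.lhom_ext' fun e => LinearMap.ext_ring ?_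
  obtain ⟨b, a⟩ := e
  have h1 := Rep.hom_comm_apply f b (Finsupp.single (1, a) 1)
  have h2 := Rep.hom_comm_apply g b (Finsupp.single (1, a) 1)
  simp only [rho_single, mul_one] at h1 h2
  change f.hom (Finsupp.single (b, a) 1) = g.hom (Finsupp.single (b, a) 1)
  rw [h1, h2, h]

theorem projFR (α : Type) : Projective (FR' k G α) where
  factors {E X} f e he := by
    have hs := (Rep.epi_iff_surjective e).1 he
    choose x hx using fun a : α => hs (f.hom (Finsupp.single (1, a) 1))
    refine ⟨liftFR E x, FR_ext _ _ fun a => ?_⟩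
    have : (liftFR E x ≫ e).hom (Finsupp.single (1, a) 1) =
      e.hom ((liftFR E x).hom (Finsupp.single (1, a) 1)) := rfl
    rw [this, liftFR_single]
    simpa using hx a

theorem exact_of {A B C : Rep.{0} k G} (f : A ⟶ B) (g : B ⟶ C) (w : f ≫ g = 0)
    (h : ∀ x, g.hom x = 0 → ∃ y, f.hom y = x) : (ShortComplex.mk f g w).Exact := by
  apply (forget₂ _ (ModuleCat k)).reflects_exact_of_faithful
  rw [ShortComplex.moduleCat_exact_iff]
  exact h

theorem isZero_of_res (Q : ProjectiveResolution (Rep.trivial k G k)) (A : Rep k G) (n : ℕ)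
    (h : Subsingleton (Q.complex.X n ⟶ A)) : Limits.IsZero (groupCohomology A n) := by
  refine Limits.IsZero.of_iso ?_ (groupCohomologyIso A n Q)
  apply HomologicalComplex.ExactAt.isZero_homology
  rw [HomologicalComplex.exactAt_iff]
  apply ShortComplex.exact_of_isZero_X₂
  change Limits.IsZero ((Q.complex.linearYonedaObj k A).X n)
  rw [ChainComplex.linearYonedaObj_X]
  exact @ModuleCat.isZero_of_subsingleton _ _ _ h

end General

variable {G : Type} [Group G]

/-- The free representation over `ℤ`. -/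
abbrev FR (G : Type) [Group G] (α : Type) : Rep ℤ G := FR' ℤ G α

variable (P : HPres G)

/-- `G →₀ ℤ` as chains on `G × Unit`. -/
def emb (G : Type) : (G →₀ ℤ) →ₗ[ℤ] (G × Unit →₀ ℤ) := Finsupp.lmapDomain ℤ ℤ fun g => (g, ())

omit [Group G] in
@[simp] theorem emb_single (g : G) (k : ℤ) :
    emb G (Finsupp.single g k) = Finsupp.single (g, ()) k := by simp [emb]

omit [Group G] in
theorem emb_inj : Function.Injective (emb G) :=
  Finsupp.mapDomain_injective fun _ _ h => congrArg Prod.fst h

/-- The first differential. -/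
def D1 : FR G P.S ⟶ FR G Unit :=
  Rep.ofHom ⟨(emb G).comp P.d1, fun g => by
    refine Finsupp.lhom_ext' fun e => LinearMap.ext_ring ?_
    obtain ⟨h, a⟩ := e
    simp [mul_assoc]⟩

/-- The second differential. -/
def D2 : FR G P.R ⟶ FR G P.S :=
  Rep.ofHom ⟨P.d2, fun g => LinearMap.ext fun y => P.d2_tr g y⟩

/-- The augmentation. -/
def eps (G : Type) [Group G] : FR G Unit ⟶ Rep.trivial ℤ G ℤ :=
  liftFR (Rep.trivial ℤ G ℤ) fun _ => (1 : ℤ)

theorem eps_single (g : G) (k : ℤ) : (eps G).hom (Finsupp.single (g, ()) k) = k :=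
  (liftFR_single (Rep.trivial ℤ G ℤ) (fun _ => (1 : ℤ)) g () k).trans (by simp)

theorem D1_apply (z : G × P.S →₀ ℤ) : (D1 P).hom z = emb G (P.d1 z) := rfl
theorem D2_apply (z : G × P.R →₀ ℤ) : (D2 P).hom z = P.d2 z := rfl

/-- The index types of the resolution. -/
def idx : ℕ → Type
  | 0 => Unit
  | 1 => P.S
  | 2 => P.R
  | _ + 3 => Empty

/-- The differentials of the resolution. -/
def dd : ∀ n : ℕ, FR G (idx P (n + 1)) ⟶ FR G (idx P n)
  | 0 => D1 P
  | 1 => D2 P
  | _ + 2 => 0

theorem dd_sq : ∀ n : ℕ, dd P (n + 1) ≫ dd P n = 0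
  | 0 => FR_ext _ _ fun a => by
      change emb G (P.d1 (P.d2 _)) = 0
      rw [P.d1_d2, map_zero]
  | n + 1 => Limits.zero_comp

/-- The resolution as a chain complex. -/
def cx : ChainComplex (Rep ℤ G) ℕ := ChainComplex.of (fun n => FR G (idx P n)) (dd P) (dd_sq P)

theorem cx_d (n : ℕ) : (cx P).d (n + 1) n = dd P n := ChainComplex.of_d (fun n => FR G (idx P n)) (dd P) n

theorem D1_eps : D1 P ≫ eps G = 0 := FR_ext _ _ fun a => by
  change (eps G).hom (emb G (P.d1 _)) = 0
  rw [P.d1_single, one_smul, map_sub, emb_single, emb_single, map_sub, eps_single, eps_single,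
    sub_self]

variable {P}

theorem exact0 (hP : P.Acyclic) (z : G × Unit →₀ ℤ) (hz : (eps G).hom z = 0) :
    ∃ y, (D1 P).hom y = z := by
  have key : ∀ z : G × Unit →₀ ℤ,
      ∃ y, emb G (P.d1 y) = z - Finsupp.single (1, ()) ((eps G).hom z) := by
    intro z
    induction z using Finsupp.induction_linear with
    | zero => exact ⟨0, by simp⟩
    | add a b ha hb =>
      obtain ⟨y, hy⟩ := ha
      obtain ⟨y', hy'⟩ := hb
      refine ⟨y + y', ?_⟩
      rw [map_add, map_add, hy, hy', map_add, Finsupp.single_add]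
      abel
    | single e k =>
      obtain ⟨g, ⟨⟩⟩ := e
      obtain ⟨w, hw⟩ := hP.surj g
      refine ⟨k • chain P.gen 1 w, ?_⟩
      rw [map_smul, P.d1_chain, hw, eps_single]
      simp [smul_sub]
  obtain ⟨y, hy⟩ := key z
  exact ⟨y, by rw [D1_apply, hy, hz]; simp⟩

theorem dd_exact (hP : P.Acyclic) : ∀ (n : ℕ) (x : FR G (idx P (n + 1))),
    (dd P n).hom x = 0 → ∃ y, (dd P (n + 1)).hom y = x
  | 0 => fun x hx => hP.exact x (emb_inj (by rw [map_zero]; exact hx))
  | 1 => fun x hx => ⟨0, by
      rw [map_zero]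
      exact (hP.inj (a₁ := x) (a₂ := 0) (Eq.trans hx (map_zero _).symm)).symm⟩
  | n + 2 => fun x _ => ⟨0, by
      rw [map_zero]
      ext e
      exact e.2.elim⟩

variable (P) in
/-- The augmentation as a chain map. -/
def aug : cx P ⟶ (ChainComplex.single₀ (Rep ℤ G)).obj (Rep.trivial ℤ G ℤ) :=
  ((cx P).toSingle₀Equiv _).symm ⟨eps G, by rw [cx_d P 0]; exact D1_eps P⟩

theorem aug_quasiIso (hP : P.Acyclic) : QuasiIso (aug P) where
  quasiIsoAt m := by
    cases m with
    | zero =>
      rw [ChainComplex.quasiIsoAt₀_iff, ShortComplex.quasiIso_iff_of_zeros' _ rfl rfl rfl]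
      have h0 : (aug P).f 0 = eps G := ChainComplex.toSingle₀Equiv_symm_apply_f_zero _ _
      constructor
      · apply exact_of
        intro x hx
        change ((aug P).f 0).hom x = 0 at hx
        rw [h0] at hx
        change ∃ y, ((cx P).d 1 0).hom y = x
        rw [cx_d P 0]
        exact exact0 hP x hx
      · change Epi ((aug P).f 0)
        rw [h0, Rep.epi_iff_surjective]
        intro x
        exact ⟨Finsupp.single (1, ()) x, eps_single 1 x⟩
    | succ m =>
      rw [quasiIsoAt_iff_exactAt' (hL := ChainComplex.exactAt_succ_single_obj ..),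
          HomologicalComplex.exactAt_iff' _ (m + 2) (m + 1) m (by simp) (by simp)]
      apply exact_of
      intro x hx
      change ((cx P).d (m + 1) m).hom x = 0 at hx
      change ∃ y, ((cx P).d (m + 1 + 1) (m + 1)).hom y = x
      rw [cx_d] at hx ⊢
      exact dd_exact hP m x hx

/-- The projective resolution of length two. -/
def res (hP : P.Acyclic) : ProjectiveResolution (Rep.trivial ℤ G ℤ) where
  complex := cx P
  projective n := projFR (idx P n)
  π := aug P
  quasiIso := aug_quasiIso hP

end Cd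

theorem cdStmt : CdStmt := by
  intro G _ P hP A n hn
  obtain ⟨m, rfl⟩ := Nat.exists_eq_add_of_le' hn
  exact Cd.isZero_of_res (Cd.res hP) A _
    ⟨fun f g => Cd.FR_ext (α := Empty) f g fun a => a.elim⟩

end Crest.Agent.R197
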