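import Crest.Agent.R197.CoreA

/-!
# Row 197, the analytic core: the degree argument
-/

set_option autoImplicit false

noncomputable section

namespace Crest.Agent.R197

open Crest.Agent.Lib.Degree Set Filter _root_.Topology Asymptotics
open scoped Quaternion ContDiff Classical

attribute [local instance] Config.fV Config.fE Config.fT Config.dT

variable {H : Type} [Group H] {P : HPres H} {C η : ℝ}

namespace Config
variable (K : Config P C η) (sec : H → FreeGroup P.S)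

/-- The based loop through an edge. -/
def loop (e : K.E) : FreeGroup P.S := sec (K.pos (K.o e)) * K.word e * (sec (K.pos (K.t e)))⁻¹

variable {sec} (hs : ∀ h, FreeGroup.lift P.gen (sec h) = h)
include hs

theorem lift_loop (e : K.E) : FreeGroup.lift P.gen (K.loop sec e) = 1 := by
  simp [loop, hs, K.pos_word]

theorem hol_loop {G : Type} [Group G] (φ : H × P.S → G) (e : K.E) :
    hol P.gen φ 1 (K.loop sec e) = hol P.gen φ 1 (sec (K.pos (K.o e))) *
      hol P.gen φ (K.pos (K.o e)) (K.word e) * (hol P.gen φ 1 (sec (K.pos (K.t e))))⁻¹ := by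
  simp [loop, hol_mul, hol_inv, hs, K.pos_word]

theorem lift_bd {G : Type} [Group G] (φ : H × P.S → G) (γ : K.V → G) (τ : K.T) :
    ∃ g : G, FreeGroup.lift (fun e => (γ (K.o e))⁻¹ * hol P.gen φ 1 (K.loop sec e) * γ (K.t e))
      (FreeGroup.mk (K.bd τ)) = g⁻¹ * hol P.gen φ (K.pos (K.base τ))
        (FreeGroup.lift K.word (FreeGroup.mk (K.bd τ))) * g := by
  refine ⟨(hol P.gen φ 1 (sec (K.pos (K.base τ))))⁻¹ * γ (K.base τ), ?_⟩
  rw [((K.bd_path τ).hol_eq P.gen φ K.pos K.word K.pos_word).2,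
    ← (K.bd_path τ).gauge (fun v => (hol P.gen φ 1 (sec (K.pos v)))⁻¹ * γ v)]
  congr 2
  funext e
  rw [K.hol_loop hs]
  group

omit hs in
theorem const_of_edges {α : Type} (γ : K.V → α) (h : ∀ e, γ (K.o e) = γ (K.t e)) (v : K.V) :
    γ v = γ K.v0 := by
  obtain ⟨w, hw⟩ := K.conn v
  generalize K.v0 = v0 at hw
  induction hw with
  | nil v => rfl
  | pos e w v _ ih => rw [ih, h]
  | neg e w v _ ih => rw [ih, h]

end Config

/-- The choices made in the degree argument. -/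
structure Setup (K : Config P C η) where
  sec : H → FreeGroup P.S
  sec_spec : ∀ h, FreeGroup.lift P.gen (sec h) = h
  F : Finset (H × P.R)
  F0_sub : K.F0 ⊆ F
  m : K.E → H × P.R →₀ ℤ
  c : K.E → ℝ
  m_supp : ∀ e, (m e).support ⊆ F
  m_d2 : ∀ e, P.d2 (m e) = chain P.gen 1 (K.loop sec e)
  expand : ∀ e (φ : H × P.S → S3) (ρ : ℝ), 0 ≤ ρ →
    (∀ β ∈ F, ‖((P.curv K.Q φ β : S3) : ℍ[ℝ]) - 1‖ ≤ ρ) →
      ‖((hol P.gen φ 1 (K.loop sec e) : S3) : ℍ[ℝ]) - 1 -
        Finsupp.linearCombination ℤ (fun β => ((P.curv K.Q φ β : S3) : ℍ[ℝ]) - 1) (m e)‖ ≤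
          c e * ρ ^ 2
  j : F → H × P.S
  j_inj : Function.Injective j
  j_det : (Matrix.of fun β β' : F => chain P.gen β.1.1 (P.rel β.1.2) (j β')).det ≠ 0
  π : K.T ⊕ {v // v ≠ K.v0} ≃ K.E

theorem nonempty_setup (h3 : ExpandStmt) (hP : P.Asph) (K : Config P C η) :
    Nonempty (Setup K) := by
  choose sec hs using hP.surj
  choose F c m _ h1 h2 h4 using fun e => h3 H P hP K.Q K.Q_spec _ (K.lift_loop hs e)
  let F' : Finset (H × P.R) := K.F0 ∪ Finset.univ.biUnion F
  have hF : ∀ e, F e ⊆ F' := fun e =>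
    (Finset.subset_biUnion_of_mem F (Finset.mem_univ e)).trans Finset.subset_union_right
  have hi : LinearIndependent ℤ fun β : H × P.R => chain P.gen β.1 (P.rel β.2) := hP.inj
  obtain ⟨j, hj, hd⟩ := exists_minor (fun β : F' => chain P.gen β.1.1 (P.rel β.1.2))
    (hi.comp _ Subtype.val_injective)
  have hc : Fintype.card (K.T ⊕ {v // v ≠ K.v0}) = Fintype.card K.E := by
    have h5 := K.card
    have h6 : 0 < Fintype.card K.V := Fintype.card_pos_iff.2 ⟨K.v0⟩
    rw [Fintype.card_sum, Fintype.card_subtype_compl, Fintype.card_subtype_eq]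
    omega
  exact ⟨⟨sec, hs, F', Finset.subset_union_left, m, c, fun e => (h1 e).trans (hF e), h2,
    fun e φ ρ h0 h => (h4 e φ ρ h0 fun β hβ => h β (hF e hβ)).2, j, hj, hd,
    Fintype.equivOfCardEq hc⟩⟩

namespace Setup
variable {K : Config P C η} (S : Setup K)

/-- The unknowns. -/
abbrev I : Type := S.F ⊕ (K.T ⊕ {v // v ≠ K.v0})

/-- The universal connection. -/
def Φ : H × P.S → FreeGroup S.I := Function.extend S.j (fun β => .of (.inl β)) 1

/-- The gauge unknowns. -/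
def gam {α : Type} (d : α) (x : S.I → α) (v : K.V) : α :=
  if h : v = K.v0 then d else x (.inr (.inr ⟨v, h⟩))

theorem map_gam {α α' : Type} (f : α → α') (d : α) (x : S.I → α) (v : K.V) :
    f (S.gam d x v) = S.gam (f d) (fun i => f (x i)) v := by
  unfold gam
  split_ifs <;> rfl

theorem gam_v0 {α : Type} (d : α) (x : S.I → α) : S.gam d x K.v0 = d := dif_pos rfl

theorem gam_ne {α : Type} (d : α) (x : S.I → α) (v : {v // v ≠ K.v0}) :
    S.gam d x v = x (.inr (.inr v)) := dif_neg v.2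

/-- The equations. -/
def w : S.I → FreeGroup S.I
  | .inl β => P.curv K.Q S.Φ β * (presc K.col K.eps (fun τ => .of (.inr (.inl τ))) β.1)⁻¹
  | .inr k => (S.gam 1 .of (K.o (S.π k)))⁻¹ * hol P.gen S.Φ 1 (K.loop S.sec (S.π k)) *
      S.gam 1 .of (K.t (S.π k))

/-- The model equations. -/
def w' : S.I → FreeGroup S.I
  | .inl β => P.curv K.Q S.Φ β
  | .inr k => .of (.inr k)

/-- The right hand sides. -/
def y (s : ℝ) : S.I → S3
  | .inl _ => 1
  | .inr k => K.ψ s (S.π k)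

/-- The connection at a point. -/
def φ (u : S.I → ℍ[ℝ]) (e : H × P.S) : S3 := ev (S.Φ e) u

/-- The curvature unknowns at a point. -/
def x (u : S.I → ℍ[ℝ]) (τ : K.T) : S3 := nz (u (.inr (.inl τ)))

/-- The gauge at a point. -/
def γ (u : S.I → ℍ[ℝ]) (v : K.V) : S3 := S.gam 1 (fun i => nz (u i)) v

variable (u : S.I → ℍ[ℝ])

theorem ev_hol (h : H) (n : FreeGroup P.S) : ev (hol P.gen S.Φ h n) u = hol P.gen (S.φ u) h n :=
  hol_map P.gen S.Φ _ h n

theorem ev_w'_inl (β : S.F) : ev (S.w' (.inl β)) u = P.curv K.Q (S.φ u) β := S.ev_hol u _ _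

theorem ev_w'_inr (k : K.T ⊕ {v // v ≠ K.v0}) : ev (S.w' (.inr k)) u = nz (u (.inr k)) := by
  simp [w', ev]

theorem ev_w_inl (β : S.F) :
    ev (S.w (.inl β)) u = P.curv K.Q (S.φ u) β * (presc K.col K.eps (S.x u) β.1)⁻¹ := by
  rw [← ev_w'_inl]
  simp only [w, w', ev, map_mul, map_inv, presc]
  cases K.col β.1 <;> simp [x]

theorem ev_w_inr (k : K.T ⊕ {v // v ≠ K.v0}) :
    ev (S.w (.inr k)) u = (S.γ u (K.o (S.π k)))⁻¹ * hol P.gen (S.φ u) 1 (K.loop S.sec (S.π k)) *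
      S.γ u (K.t (S.π k)) := by
  rw [← ev_hol]
  simp only [w, ev, map_mul, map_inv, γ, S.map_gam (FreeGroup.lift fun i => nz (u i)), map_one,
    FreeGroup.lift_apply_of]

/-! ### Solutions -/

variable {u} {s : ℝ}

theorem sol (h : rad S.w u = fun i => (S.y s i : ℍ[ℝ])) :
    (∀ i, ‖u i‖ = 1) ∧ ∀ i, ev (S.w i) u = S.y s i := by
  have h1 : ∀ i, ‖u i‖ = 1 := fun i => by rw [← norm_rad S.w, h, S3.norm_coe]
  refine ⟨h1, fun i => Subtype.ext ?_⟩
  simpa [rad, h1] using congrFun h i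

theorem sol_curv (h : ∀ i, ev (S.w i) u = S.y s i) {β : H × P.R} (hβ : β ∈ S.F) :
    P.curv K.Q (S.φ u) β = presc K.col K.eps (S.x u) β := by
  have := h (.inl ⟨β, hβ⟩)
  rw [ev_w_inl] at this
  exact mul_inv_eq_one.1 this

theorem sol_edge (h : ∀ i, ev (S.w i) u = S.y s i) (e : K.E) :
    (S.γ u (K.o e))⁻¹ * hol P.gen (S.φ u) 1 (K.loop S.sec e) * S.γ u (K.t e) = K.ψ s e := by
  obtain ⟨k, rfl⟩ := S.π.surjective e
  exact (S.ev_w_inr u k).symm.trans (h (.inr k))

theorem bound (hC : 0 < C) {η' : ℝ} (h0 : 0 ≤ η')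
    (hη : ∀ τ, ‖((FreeGroup.lift (K.ψ s) (FreeGroup.mk (K.bd τ)) : S3) : ℍ[ℝ]) - 1‖ ≤ η')
    (hu : ∀ τ, ‖(S.x u τ : ℍ[ℝ]) - 1‖ < 1 / (2 * C)) (h : ∀ i, ev (S.w i) u = S.y s i) (τ : K.T) :
    ‖(S.x u τ : ℍ[ℝ]) - 1‖ ≤ 2 * η' := by
  set ρ := ‖fun τ => (S.x u τ : ℍ[ℝ]) - 1‖ with hρ
  have h1 : ∀ τ, ‖(S.x u τ : ℍ[ℝ]) - 1‖ ≤ ρ := norm_le_pi_norm fun τ => (S.x u τ : ℍ[ℝ]) - 1
  have h2 : ρ < 1 / (2 * C) := (pi_norm_lt_iff (by positivity)).2 hu
  have h3 : 0 ≤ ρ := norm_nonneg _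
  have h4 : ρ ≤ η' + C * ρ ^ 2 := by
    refine (pi_norm_le_iff_of_nonneg (by positivity)).2 fun τ => ?_
    obtain ⟨g, hg⟩ := K.key (S.φ u) (S.x u) ρ h3 h1
      (fun β hβ => S.sol_curv h (S.F0_sub hβ)) τ
    obtain ⟨g', hg'⟩ := K.lift_bd S.sec_spec (S.φ u) (S.γ u) τ
    simp only [S.sol_edge h] at hg'
    have h5 := hη τ
    have h6 := S3.norm_conj g'⁻¹ (hol P.gen (S.φ u) (K.pos (K.base τ))
      (FreeGroup.lift K.word (FreeGroup.mk (K.bd τ))))
    rw [inv_inv, ← hg'] at h6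
    rw [← S3.norm_conj g]
    rw [norm_sub_rev] at hg
    have h7 := norm_sub_le_norm_sub_add_norm_sub ((g * S.x u τ * g⁻¹ : S3) : ℍ[ℝ])
      ((hol P.gen (S.φ u) (K.pos (K.base τ))
        (FreeGroup.lift K.word (FreeGroup.mk (K.bd τ))) : S3) : ℍ[ℝ]) 1
    linarith
  have h8 : ρ * (2 * C) < 1 := (lt_div_iff₀ (by positivity)).1 h2
  have h9 : ρ ≤ 2 * η' := by nlinarith
  exact (h1 τ).trans h9

theorem flat (hC : 0 < C) (hη : ∀ τ, FreeGroup.lift (K.ψ s) (FreeGroup.mk (K.bd τ)) = 1)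
    (hu : ∀ τ, ‖(S.x u τ : ℍ[ℝ]) - 1‖ < 1 / (2 * C)) (h : ∀ i, ev (S.w i) u = S.y s i) :
    (∀ τ, S.x u τ = 1) ∧ (∀ β ∈ S.F, P.curv K.Q (S.φ u) β = 1) ∧
      ∀ e, K.ψ s e = (S.γ u (K.o e))⁻¹ * S.γ u (K.t e) := by
  have h1 : ∀ τ, S.x u τ = 1 := fun τ => by
    have := S.bound hC le_rfl (fun τ => by simp [hη]) hu h τ
    rw [mul_zero, norm_le_zero_iff, sub_eq_zero] at this
    exact Subtype.ext this
  have h2 : ∀ β ∈ S.F, P.curv K.Q (S.φ u) β = 1 := fun β hβ => by
    rw [S.sol_curv h hβ, presc]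
    cases K.col β <;> simp [h1]
  refine ⟨h1, h2, fun e => ?_⟩
  have h3 := S.expand e (S.φ u) 0 le_rfl fun β hβ => by simp [h2 β hβ]
  have h4 : Finsupp.linearCombination ℤ (fun β => ((P.curv K.Q (S.φ u) β : S3) : ℍ[ℝ]) - 1)
      (S.m e) = 0 := by
    rw [Finsupp.linearCombination_apply]
    exact Finset.sum_eq_zero fun β hβ => by simp [h2 β (S.m_supp e hβ)]
  rw [h4, sub_zero, zero_pow two_ne_zero, mul_zero, norm_le_zero_iff, sub_eq_zero] at h3
  have h5 : hol P.gen (S.φ u) 1 (K.loop S.sec e) = 1 := Subtype.ext h3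
  rw [← S.sol_edge h, h5, mul_one]

/-! ### The exponent matrix -/

theorem expo_hol (h : H) (n : FreeGroup P.S) (i : S.I) : expo (hol P.gen S.Φ h n) i =
    Sum.elim (fun β => chain P.gen h n (S.j β)) 0 i := by
  have h1 : expo (hol P.gen S.Φ h n) =
      Finsupp.linearCombination ℤ (fun e => expo (S.Φ e)) (chain P.gen h n) := by
    rw [← hol_eq_linearCombination, expo, hol_map]
    rfl
  have h2 : ∀ e, expo (S.Φ e) i = Sum.elim (fun β => if e = S.j β then 1 else 0) 0 i := by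
    intro e
    by_cases he : ∃ β, S.j β = e
    · obtain ⟨β, rfl⟩ := he
      rw [Φ, S.j_inj.extend_apply]
      rcases i with β' | k <;> simp [expo, Pi.single_apply, S.j_inj.eq_iff, eq_comm]
    · rw [Φ, Function.extend_apply' _ _ _ he]
      rcases i with β' | k
      · have : e ≠ S.j β' := fun h => he ⟨β', h.symm⟩
        simp [expo, this]
      · simp [expo]
  rw [h1, Finsupp.linearCombination_apply, Finsupp.sum, Finset.sum_apply]
  simp only [Pi.smul_apply, h2]
  rcases i with β | k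
  · simp only [Sum.elim_inl, smul_eq_mul, mul_ite, mul_one, mul_zero, Finset.sum_ite_eq']
    split_ifs with h
    · rfl
    · exact (Finsupp.notMem_support_iff.1 h).symm
  · simp

theorem det_w' : (Matrix.of fun i j => expo (S.w' i) j).det ≠ 0 := by
  have : (Matrix.of fun i j => expo (S.w' i) j) = Matrix.fromBlocks
      (Matrix.of fun β β' : S.F => chain P.gen β.1.1 (P.rel β.1.2) (S.j β')) 0 0 1 := by
    ext i i'
    rcases i with β | k
    · simp only [Matrix.of_apply, w', HPres.curv, expo_hol, chain_conj _ _ _ _ (P.rel_one _),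
        K.Q_spec, one_mul]
      rcases i' with β' | k' <;> simp
    · rcases i' with β' | k' <;> simp [w', expo, Pi.single_apply, Matrix.one_apply, eq_comm]
  rw [this, Matrix.det_fromBlocks_zero₂₁, Matrix.det_one, mul_one]
  exact S.j_det

/-! ### The linearisation -/

/-- The linearised prescribed curvature. -/
def prescL (a : S.I → ℍ[ℝ]) (β : H × P.R) : ℍ[ℝ] :=
  (K.col β).elim 0 fun τ => K.eps β • a (.inr (.inl τ))

/-- The linearised equations. -/
def L0 : (S.I → ℍ[ℝ]) →ₗ[ℝ] (S.I → ℍ[ℝ]) where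
  toFun a
    | .inl β => a (.inl β) + -S.prescL a β
    | .inr k => -S.gam 0 a (K.o (S.π k)) + ∑ β : S.F, S.m (S.π k) β • a (.inl β) +
        S.gam 0 a (K.t (S.π k))
  map_add' a b := by
    have h : ∀ v, S.gam 0 (a + b) v = S.gam 0 a v + S.gam 0 b v := fun v => by
      unfold gam
      split_ifs <;> simp
    funext i
    rcases i with β | k
    · simp only [prescL, Pi.add_apply]
      cases K.col β.1
      · simp
      · simp only [Option.elim_some, smul_add]
        abel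
    · simp only [h, Pi.add_apply, smul_add, Finset.sum_add_distrib]
      abel
  map_smul' r a := by
    have h : ∀ v, S.gam 0 (r • a) v = r • S.gam 0 a v := fun v => by
      unfold gam
      split_ifs <;> simp
    funext i
    rcases i with β | k
    · simp only [prescL, Pi.smul_apply, RingHom.id_apply]
      cases K.col β.1
      · simp
      · simp only [Option.elim_some, smul_add, smul_neg, smul_comm r]
    · simp only [h, Pi.smul_apply, smul_add, smul_neg, RingHom.id_apply, Finset.smul_sum,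
        smul_comm r]

theorem L0_inl (a : S.I → ℍ[ℝ]) (β : S.F) : S.L0 a (.inl β) = a (.inl β) + -S.prescL a β := rfl

theorem L0_inr (a : S.I → ℍ[ℝ]) (k : K.T ⊕ {v // v ≠ K.v0}) : S.L0 a (.inr k) =
    -S.gam 0 a (K.o (S.π k)) + ∑ β : S.F, S.m (S.π k) β • a (.inl β) +
      S.gam 0 a (K.t (S.π k)) := rfl

theorem reL_L0 (a : S.I → ℍ[ℝ]) (i : S.I) : reL (S.L0 a i) = S.L0 (fun i => reL (a i)) i := by
  rcases i with β | k
  · simp only [L0_inl, prescL, map_add, map_neg]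
    cases K.col β.1
    · simp
    · simp only [Option.elim_some, map_zsmul]
  · simp only [L0_inr, map_add, map_neg, map_sum, map_zsmul, S.map_gam reL, map_zero]

theorem lc_eq (f : H × P.R → ℍ[ℝ]) (e : K.E) :
    Finsupp.linearCombination ℤ f (S.m e) = ∑ β : S.F, S.m e β • f β := by
  rw [Finsupp.linearCombination_apply, Finsupp.sum_of_support_subset _ (S.m_supp e) _ (by simp),
    ← Finset.sum_coe_sort]

theorem L0_eq_zero {a : S.I → ℍ[ℝ]} (h : S.L0 a = 0) : a = 0 := by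
  have h1 : ∀ β : S.F, a (.inl β) = S.prescL a β := fun β =>
    add_neg_eq_zero.1 (congrFun h (.inl β))
  have h2 : ∀ e, Finsupp.linearCombination ℤ (S.prescL a) (S.m e) =
      S.gam 0 a (K.o e) - S.gam 0 a (K.t e) := fun e => by
    obtain ⟨k, rfl⟩ := S.π.surjective e
    have h3 := congrFun h (.inr k)
    rw [L0_inr, Pi.zero_apply, add_assoc, neg_add_eq_zero] at h3
    simp only [lc_eq, ← h1]
    exact eq_sub_of_add_eq h3.symm
  have h4 : ∀ τ', a (.inr (.inl τ')) = 0 := fun τ' => by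
    let M := FreeGroup.lift (fun e => Multiplicative.ofAdd (S.m e)) (FreeGroup.mk (K.bd τ'))
    have hM : ∀ {A : Type} [AddCommGroup A] (f : (H × P.R →₀ ℤ) →+ A), f M.toAdd =
        (FreeGroup.lift (fun e => Multiplicative.ofAdd (f (S.m e)))
          (FreeGroup.mk (K.bd τ'))).toAdd := fun f =>
      congrArg Multiplicative.toAdd (DFunLike.congr_fun (FreeGroup.ext_hom
        (f.toMultiplicative.comp (FreeGroup.lift fun e => Multiplicative.ofAdd (S.m e)))
        (FreeGroup.lift fun e => Multiplicative.ofAdd (f (S.m e))) fun e => by simp) _)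
    have h5 : P.d2 M.toAdd = chain P.gen (K.pos (K.base τ'))
        (FreeGroup.lift K.word (FreeGroup.mk (K.bd τ'))) := by
      obtain ⟨g, hg⟩ := K.lift_bd S.sec_spec
        (fun e => Multiplicative.ofAdd (Finsupp.single e (1 : ℤ))) 1 τ'
      rw [mul_comm, mul_inv_cancel_left] at hg
      refine (hM P.d2.toAddMonoidHom).trans ?_
      rw [chain, ← hg]
      simp [S.m_d2, chain]
    have h6 := K.lin τ' _ h5
    have h7 : ∀ z : H × P.R →₀ ℤ, Finsupp.linearCombination ℤ (S.prescL a) z =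
        ∑ τ, Finsupp.linearCombination ℤ (fun β => if K.col β = some τ then K.eps β else 0) z •
          a (.inr (.inl τ)) := fun z => by
      induction z using Finsupp.induction_linear with
      | zero => simp
      | add a b ha hb => simp [ha, hb, add_smul, Finset.sum_add_distrib]
      | single β k =>
        simp only [Finsupp.linearCombination_single, prescL]
        cases K.col β <;> simp [mul_smul]
    have h8 := h7 M.toAdd
    simp only [h6, ite_smul, one_smul, zero_smul, Finset.sum_ite_eq', Finset.mem_univ,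
      if_true] at h8
    rw [← h8]
    refine (hM (Finsupp.linearCombination ℤ (S.prescL a)).toAddMonoidHom).trans ?_
    have h9 := (K.bd_path τ').gauge (fun v => Multiplicative.ofAdd (-S.gam 0 a v)) 1
    have h10 : FreeGroup.lift (1 : K.E → Multiplicative ℍ[ℝ]) = 1 :=
      FreeGroup.ext_hom _ _ fun e => by simp
    rw [h10, MonoidHom.one_apply, mul_one, inv_mul_cancel] at h9
    rw [← toAdd_one, ← h9]
    simp [h2, sub_eq_add_neg]
  have h11 : ∀ β, S.prescL a β = 0 := fun β => by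
    rw [prescL]
    cases K.col β <;> simp [h4]
  have h12 : ∀ e, S.gam 0 a (K.o e) = S.gam 0 a (K.t e) := fun e => by
    rw [← sub_eq_zero, ← h2, lc_eq]
    simp [h11]
  funext i
  rcases i with β | τ | v
  · rw [h1, h11, Pi.zero_apply]
  · exact h4 τ
  · rw [← S.gam_ne 0 a v, K.const_of_edges _ h12, gam_v0, Pi.zero_apply]

/-- The real parts. -/
def R : (S.I → ℍ[ℝ]) →ₗ[ℝ] (S.I → ℍ[ℝ]) := (reL : ℍ[ℝ] →ₗ[ℝ] ℍ[ℝ]).compLeft S.I

theorem R_apply (a : S.I → ℍ[ℝ]) (i : S.I) : S.R a i = reL (a i) := rfl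

/-- The linearisation. -/
def L : (S.I → ℍ[ℝ]) ≃L[ℝ] (S.I → ℍ[ℝ]) :=
  (LinearEquiv.ofInjectiveEndo (S.R + S.L0 ∘ₗ (1 - S.R)) (by
    rw [injective_iff_map_eq_zero]
    intro a ha
    have h1 : (fun i => reL (((1 - S.R : Module.End ℝ _) a) i)) = 0 := by
      funext i
      simp [R_apply, reL_reL]
    have h2 : S.R a = 0 := by
      funext i
      have := congrArg reL (congrFun ha i)
      rw [LinearMap.add_apply, Pi.add_apply, map_add, LinearMap.comp_apply, reL_L0, h1] at this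
      simpa [R_apply, reL_reL] using this
    exact S.L0_eq_zero (by simpa [h2] using ha))).toContinuousLinearEquiv

theorem L_apply (a : S.I → ℍ[ℝ]) (i : S.I) :
    S.L a i = reL (a i) + S.L0 (fun i => a i - reL (a i)) i := rfl

theorem isLittleO : (fun u => rad S.w u - 1 - S.L (rad S.w' u - 1)) =o[near S.w']
    fun u => ‖rad S.w' u - 1‖ := by
  have hp := tendsto_near S.w'
  have h0 := fun i => exp_polar hp (r := fun u => ‖u i‖) (q := fun u => ev (S.w' i) u)
    (fun u => norm_nonneg _) (IsBigO.of_bound 1 (Eventually.of_forall fun u => by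
      rw [one_mul, norm_norm]
      exact norm_le_pi_norm (rad S.w' u - 1) i))
  set l := near S.w'
  set p := fun u => ‖rad S.w' u - 1‖
  let a : (S.I → ℍ[ℝ]) → S.I → ℍ[ℝ] := fun u i =>
    (rad S.w' u - 1) i - reL ((rad S.w' u - 1) i)
  have h1 : ∀ i, Exp l p (fun u => ((‖u i‖ : ℝ) : ℍ[ℝ])) fun u => reL ((rad S.w' u - 1) i) :=
    fun i => (h0 i).1
  have h2 : ∀ i, Exp l p (fun u => (ev (S.w' i) u : ℍ[ℝ])) fun u => a u i := fun i => (h0 i).2
  have h3 : ∀ β : S.F, Exp l p (fun u => ((P.curv K.Q (S.φ u) β : S3) : ℍ[ℝ]))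
      fun u => a u (.inl β) := fun β => by simpa only [ev_w'_inl] using h2 (.inl β)
  have h4 : ∀ k, Exp l p (fun u => (nz (u (.inr k)) : ℍ[ℝ])) fun u => a u (.inr k) :=
    fun k => by simpa only [ev_w'_inr] using h2 (.inr k)
  have h5 : ∀ β, Exp l p (fun u => ((presc K.col K.eps (S.x u) β : S3) : ℍ[ℝ]))
      fun u => S.prescL (a u) β := fun β => by
    simp only [presc, prescL]
    cases K.col β with
    | none => exact Exp.one
    | some τ => exact (h4 (.inl τ)).zpow hp _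
  have h6 : ∀ v, Exp l p (fun u => (S.γ u v : ℍ[ℝ])) fun u => S.gam 0 (a u) v := fun v => by
    by_cases hv : v = K.v0
    · simp only [hv, γ, gam_v0]
      exact Exp.one
    · simp only [γ, gam, dif_neg hv]
      exact h4 _
  have h7 : ∀ e, Exp l p (fun u => ((hol P.gen (S.φ u) 1 (K.loop S.sec e) : S3) : ℍ[ℝ]))
      fun u => ∑ β : S.F, S.m e β • a u (.inl β) := fun e => by
    refine ⟨?_, IsBigO.fun_sum fun β _ => ((h3 β).big.const_mul_left (S.m e β : ℍ[ℝ])).congr_left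
      fun u => (zsmul_eq_mul _ _).symm⟩
    let ρ : (S.I → ℍ[ℝ]) → ℝ := fun u =>
      ‖fun β : S.F => ((P.curv K.Q (S.φ u) β : S3) : ℍ[ℝ]) - 1‖
    have b1 : ρ =O[l] p := (isBigO_pi.2 fun β => (h3 β).isBigO).norm_left
    have b2 : (fun u => S.c e * ρ u ^ 2) =o[l] p := by
      have := b1.mul_isLittleO (b1.trans_isLittleO ((isLittleO_one_iff ℝ).2 hp))
      simpa [sq] using this.const_mul_left (S.c e)
    have b3 : (fun u => ((hol P.gen (S.φ u) 1 (K.loop S.sec e) : S3) : ℍ[ℝ]) - 1 -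
        ∑ β : S.F, S.m e β • (((P.curv K.Q (S.φ u) β : S3) : ℍ[ℝ]) - 1)) =o[l] p := by
      refine IsBigO.trans_isLittleO (IsBigO.of_bound 1 (Eventually.of_forall fun u => ?_)) b2
      have := S.expand e (S.φ u) (ρ u) (norm_nonneg _) fun β hβ =>
        norm_le_pi_norm (fun β : S.F => ((P.curv K.Q (S.φ u) β : S3) : ℍ[ℝ]) - 1) ⟨β, hβ⟩
      rw [lc_eq] at this
      rw [one_mul]
      exact this.trans (le_abs_self _)
    have b4 := IsLittleO.fun_sum fun (β : S.F) (_ : β ∈ Finset.univ) =>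
      (h3 β).small.const_mul_left (S.m e β : ℍ[ℝ])
    refine (b3.add b4).congr_left fun u => ?_
    simp only [← zsmul_eq_mul, smul_sub _ _ (a u _), Finset.sum_sub_distrib]
    abel
  have h8 : ∀ i, Exp l p (fun u => (ev (S.w i) u : ℍ[ℝ])) fun u => S.L0 (a u) i := fun i => by
    rcases i with β | k
    · simpa only [ev_w_inl, L0_inl, Submonoid.coe_mul] using (h3 β).mul hp ((h5 β).inv hp)
    · simpa only [ev_w_inr, L0_inr, Submonoid.coe_mul] using
        (((h6 _).inv hp).mul hp (h7 _)).mul hp (h6 _)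
  refine isLittleO_pi.2 fun i => ((h1 i).mul hp (h8 i)).small.congr_left fun u => ?_
  rw [Quaternion.coe_mul_eq_smul]
  rfl

/-! ### The degree argument -/

/-- The domain. -/
def Ω : Set (S.I → ℍ[ℝ]) := {u | u ∈ U0 S.I ∧ ∀ τ, ‖(S.x u τ : ℍ[ℝ]) - 1‖ < 1 / (2 * C)}

theorem continuousOn_x (τ : K.T) : ContinuousOn (fun u => ‖(S.x u τ : ℍ[ℝ]) - 1‖) (U0 S.I) := by
  have := (contDiffOn_ev (S.w' (.inr (.inl τ)))).continuousOn
  simp only [ev_w'_inr] at this
  exact (this.sub continuousOn_const).norm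

theorem isOpen_Ω : IsOpen S.Ω := by
  have : S.Ω = U0 S.I ∩ ⋂ τ, (U0 S.I ∩ (fun u => ‖(S.x u τ : ℍ[ℝ]) - 1‖) ⁻¹' Iio (1 / (2 * C))) := by
    ext u
    simp only [Ω, mem_ofPred_eq, mem_inter_iff, mem_iInter, mem_preimage, mem_Iio]
    exact and_congr_right fun hu => forall_congr' fun τ => (and_iff_right hu).symm
  rw [this]
  exact isOpen_U0.inter (isOpen_iInter_of_finite fun τ =>
    (S.continuousOn_x τ).isOpen_inter_preimage isOpen_U0 isOpen_Iio)

theorem continuous_y : Continuous fun s i => (S.y s i : ℍ[ℝ]) :=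
  continuous_pi fun i => by
    rcases i with β | k
    · exact continuous_const
    · exact continuous_subtype_val.comp (K.ψ_cont _)

theorem isCompact_sol (hC : 0 < C) (h0 : 0 ≤ η) (h1 : 4 * C * η < 1) :
    IsCompact {p : ℝ × (S.I → ℍ[ℝ]) | p.1 ∈ Icc (0 : ℝ) 1 ∧ p.2 ∈ S.Ω ∧
      rad S.w p.2 = fun i => (S.y p.1 i : ℍ[ℝ])} := by
  let A : Set (ℝ × (S.I → ℍ[ℝ])) := Icc (0 : ℝ) 1 ×ˢ {u | ∀ i, ‖u i‖ = 1}
  have hA : IsCompact A := isCompact_Icc.prod isCompact_sph
  have hAU : MapsTo Prod.snd A (U0 S.I) := fun p hp => sph_subset hp.2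
  have c1 : IsClosed {p ∈ A | rad S.w p.2 = fun i => (S.y p.1 i : ℍ[ℝ])} :=
    hA.isClosed.isClosed_eq ((contDiffOn_rad S.w).continuousOn.comp continuousOn_snd hAU)
      (S.continuous_y.comp continuous_fst).continuousOn
  have c2 : ∀ τ, IsClosed (A ∩ (fun p => ‖(S.x p.2 τ : ℍ[ℝ]) - 1‖) ⁻¹' Iic (2 * η)) := fun τ =>
    ((S.continuousOn_x τ).comp continuousOn_snd hAU).preimage_isClosed_of_isClosed hA.isClosed
      isClosed_Iic
  have h2 : 2 * η < 1 / (2 * C) := by
    rw [lt_div_iff₀ (by positivity)]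
    linarith
  refine Eq.subst (Set.ext fun p => ?_) (hA.of_isClosed_subset (c1.inter (isClosed_iInter c2))
    fun p hp => hp.1.1)
  simp only [mem_inter_iff, mem_iInter, mem_preimage, mem_Iic, mem_ofPred_eq]
  refine ⟨fun h => ⟨h.1.1.1, ⟨hAU h.1.1, fun τ => (h.2 τ).2.trans_lt h2⟩, h.1.2⟩, fun h => ?_⟩
  have h3 := S.sol h.2.2
  exact ⟨⟨⟨h.1, h3.1⟩, h.2.2⟩, fun τ => ⟨⟨h.1, h3.1⟩,
    S.bound hC h0 (K.ψ_small _ h.1) h.2.1.2 h3.2 τ⟩⟩

theorem y_zero : (fun i => (S.y 0 i : ℍ[ℝ])) = 1 := by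
  funext i
  rcases i with β | k <;> simp [y, K.ψ_zero]

include S in
theorem false_of (hD : DegStmt) (hW : WordDegStmt) (hC : 0 < C) (h0 : 0 ≤ η)
    (h1 : 4 * C * η < 1) : False := by
  obtain ⟨D⟩ := hD (S.I → ℍ[ℝ])
  have hΩU : S.Ω ⊆ U0 S.I := fun u hu => hu.1
  have sm := (contDiffOn_rad S.w).mono hΩU
  have e1 := D.target (rad S.w) S.Ω (fun s i => (S.y s i : ℍ[ℝ])) S.isOpen_Ω sm
    S.continuous_y.continuousOn (S.isCompact_sol hC h0 h1)
  have e2 : ∀ u ∈ S.Ω, rad S.w u - (fun i => (S.y 1 i : ℍ[ℝ])) ≠ 0 := fun u hu h =>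
    K.ψ_ne ⟨S.γ u, (S.flat hC K.ψ_flat hu.2 (S.sol (sub_eq_zero.1 h)).2).2.2⟩
  have e3 : D.deg (fun u => rad S.w u - 1) S.Ω ≠ 0 := by
    refine local_deg hW D S.w S.w' S.det_w' S.L S.isOpen_Ω hΩU (fun u hu h => ⟨hu, fun τ => ?_⟩)
      (fun u hu h => ?_) S.isLittleO
    · have h2 := congrFun h (.inr (.inl τ))
      have h3 : ‖u (.inr (.inl τ))‖ = 1 := by rw [← norm_rad S.w', h2, Pi.one_apply, norm_one]
      rw [rad, h3, one_smul, ev_w'_inr, Pi.one_apply] at h2
      rw [x, h2, sub_self, norm_zero]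
      positivity
    · rw [← S.y_zero] at h
      obtain ⟨h2, h3⟩ := S.sol h
      have h4 : FreeGroup.lift (K.ψ 0) = 1 := FreeGroup.ext_hom _ _ fun e => by simp [K.ψ_zero]
      obtain ⟨h5, h6, h7⟩ := S.flat hC (s := 0) (fun τ => by simp [h4]) hu.2 h3
      have h8 : ∀ v, S.γ u v = 1 := fun v => by
        rw [K.const_of_edges (S.γ u) fun e => inv_mul_eq_one.1 ((h7 e).symm.trans (K.ψ_zero e)),
          γ, gam_v0]
      funext i
      rw [rad, h2, one_smul, Pi.one_apply]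
      rcases i with β | τ | v
      · rw [ev_w'_inl, h6 β β.2, OneMemClass.coe_one]
      · rw [ev_w'_inr, ← x, h5, OneMemClass.coe_one]
      · have := h8 v
        rw [γ, gam_ne] at this
        rw [ev_w'_inr, this, OneMemClass.coe_one]
  simp only [S.y_zero] at e1
  rw [e1] at e3
  obtain ⟨u, hu, h⟩ := D.exists_zero ⟨S.isOpen_Ω, sm.sub contDiffOn_const, by
    refine Eq.subst (Set.ext fun u => ?_) isCompact_empty
    simp only [mem_empty_iff_false, mem_ofPred_eq, false_iff, not_and]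
    exact e2 u⟩ e3
  exact e2 u hu h

end Setup

theorem coreStmt (h1 : DegStmt) (h2 : WordDegStmt) (h3 : ExpandStmt) : CoreStmt :=
  fun _ _ _ hP _ _ hC h0 h4 => ⟨fun K =>
    (nonempty_setup h3 hP K).elim fun S => S.false_of h1 h2 hC h0 h4⟩

end Crest.Agent.R197
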