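import Crest.Agent.R197.Defs

/-! Row 197: second order expansion of the holonomy of a null-homotopic loop. -/

set_option autoImplicit false

noncomputable section

namespace Crest.Agent.R197

open Crest.Agent.Lib.Degree
open scoped Quaternion

namespace Expand

theorem coe_inv_mul (a : S3) : ((a⁻¹ : S3) : ℍ[ℝ]) * (a : ℍ[ℝ]) = 1 := by
  rw [← Submonoid.coe_mul, inv_mul_cancel]; rfl

theorem coe_mul_inv (a : S3) : (a : ℍ[ℝ]) * ((a⁻¹ : S3) : ℍ[ℝ]) = 1 := by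
  rw [← Submonoid.coe_mul, mul_inv_cancel]; rfl

theorem norm_inv_sub (a : S3) : ‖((a⁻¹ : S3) : ℍ[ℝ]) - 1‖ = ‖(a : ℍ[ℝ]) - 1‖ := by
  have : ((a⁻¹ : S3) : ℍ[ℝ]) - 1 = -(((a⁻¹ : S3) : ℍ[ℝ]) * ((a : ℍ[ℝ]) - 1)) := by
    rw [mul_sub, coe_inv_mul]; simp
  rw [this, norm_neg, norm_mul, S3.norm_coe, one_mul]

theorem norm_mul_sub (a b : S3) :
    ‖((a * b : S3) : ℍ[ℝ]) - 1‖ ≤ ‖(a : ℍ[ℝ]) - 1‖ + ‖(b : ℍ[ℝ]) - 1‖ := by
  have : ((a * b : S3) : ℍ[ℝ]) - 1 = ((a : ℍ[ℝ]) - 1) * b + ((b : ℍ[ℝ]) - 1) := by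
    rw [Submonoid.coe_mul]; noncomm_ring
  rw [this]
  refine (norm_add_le _ _).trans ?_
  rw [norm_mul, S3.norm_coe, mul_one]

theorem conj_sub (c x : S3) : ((c * x * c⁻¹ : S3) : ℍ[ℝ]) - 1 =
    (c : ℍ[ℝ]) * ((x : ℍ[ℝ]) - 1) * ((c⁻¹ : S3) : ℍ[ℝ]) := by
  rw [Submonoid.coe_mul, Submonoid.coe_mul, mul_sub, sub_mul, mul_one, coe_mul_inv]

theorem norm_conj_sub (c x : S3) : ‖((c * x * c⁻¹ : S3) : ℍ[ℝ]) - 1‖ = ‖(x : ℍ[ℝ]) - 1‖ := by
  rw [conj_sub, norm_mul, norm_mul, S3.norm_coe, S3.norm_coe, one_mul, mul_one]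

theorem norm_conj_sub_sub (c x : S3) :
    ‖((c * x * c⁻¹ : S3) : ℍ[ℝ]) - 1 - ((x : ℍ[ℝ]) - 1)‖ ≤
      2 * (‖(c : ℍ[ℝ]) - 1‖ * ‖(x : ℍ[ℝ]) - 1‖) := by
  have : ((c * x * c⁻¹ : S3) : ℍ[ℝ]) - 1 - ((x : ℍ[ℝ]) - 1) =
      ((c : ℍ[ℝ]) - 1) * ((x : ℍ[ℝ]) - 1) * ((c⁻¹ : S3) : ℍ[ℝ]) +
        ((x : ℍ[ℝ]) - 1) * (((c⁻¹ : S3) : ℍ[ℝ]) - 1) := by
    rw [conj_sub]; noncomm_ring
  rw [this]
  refine (norm_add_le _ _).trans ?_
  rw [norm_mul, norm_mul, norm_mul, S3.norm_coe, norm_inv_sub]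
  exact le_of_eq (by ring)

theorem norm_mul_sub_sub (a b : S3) (A B : ℍ[ℝ]) :
    ‖((a * b : S3) : ℍ[ℝ]) - 1 - (A + B)‖ ≤ ‖(a : ℍ[ℝ]) - 1‖ * ‖(b : ℍ[ℝ]) - 1‖ +
      ‖(a : ℍ[ℝ]) - 1 - A‖ + ‖(b : ℍ[ℝ]) - 1 - B‖ := by
  have : ((a * b : S3) : ℍ[ℝ]) - 1 - (A + B) = ((a : ℍ[ℝ]) - 1) * ((b : ℍ[ℝ]) - 1) +
      ((a : ℍ[ℝ]) - 1 - A) + ((b : ℍ[ℝ]) - 1 - B) := by
    rw [Submonoid.coe_mul]; noncomm_ring
  rw [this]
  refine norm_add₃_le.trans ?_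
  rw [norm_mul]

theorem norm_inv_sub_sub (a : S3) (A : ℍ[ℝ]) :
    ‖((a⁻¹ : S3) : ℍ[ℝ]) - 1 - -A‖ ≤ ‖(a : ℍ[ℝ]) - 1‖ * ‖(a : ℍ[ℝ]) - 1‖ +
      ‖(a : ℍ[ℝ]) - 1 - A‖ := by
  have : ((a⁻¹ : S3) : ℍ[ℝ]) - 1 - -A = -((((a⁻¹ : S3) : ℍ[ℝ]) - 1) * ((a : ℍ[ℝ]) - 1)) -
      ((a : ℍ[ℝ]) - 1 - A) := by
    rw [sub_mul, mul_sub, coe_inv_mul]; noncomm_ring
  rw [this]
  refine (norm_sub_le _ _).trans ?_
  rw [norm_neg, norm_mul, norm_inv_sub]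

variable {H : Type} [Group H] {P : HPres H} {Q : H × P.R → FreeGroup P.S}

theorem hol_conj_rel {G : Type} [Group G] (hQ : ∀ β, FreeGroup.lift P.gen (Q β) = β.1)
    (φ : H × P.S → G) (u : FreeGroup P.S) (r : P.R) :
    hol P.gen φ 1 (u * P.rel r * u⁻¹) =
      hol P.gen φ 1 (u * (Q (FreeGroup.lift P.gen u, r))⁻¹) *
        P.curv Q φ (FreeGroup.lift P.gen u, r) *
        (hol P.gen φ 1 (u * (Q (FreeGroup.lift P.gen u, r))⁻¹))⁻¹ := by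
  rw [HPres.curv, hol_conj _ _ _ _ _ (P.rel_one r), hol_conj _ _ _ _ _ (P.rel_one r), hol_mul,
    hol_inv, hQ]
  simp only [one_mul, mul_inv_cancel]
  group

theorem first (hP : P.Asph) (hQ : ∀ β, FreeGroup.lift P.gen (Q β) = β.1) (n : FreeGroup P.S)
    (hn : FreeGroup.lift P.gen n = 1) :
    ∃ (F : Finset (H × P.R)) (C : ℝ), 0 ≤ C ∧ ∀ (φ : H × P.S → S3) (ρ : ℝ), 0 ≤ ρ →
      (∀ β ∈ F, ‖((P.curv Q φ β : S3) : ℍ[ℝ]) - 1‖ ≤ ρ) →
        ‖((hol P.gen φ 1 n : S3) : ℍ[ℝ]) - 1‖ ≤ C * ρ := by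
  classical
  have h1 : ∀ w ∈ Subgroup.closure (Group.conjugatesOfSet (Set.range P.rel)),
      FreeGroup.lift P.gen w = 1 ∧ ∃ (F : Finset (H × P.R)) (C : ℝ), 0 ≤ C ∧
        ∀ (φ : H × P.S → S3) (ρ : ℝ), 0 ≤ ρ →
          (∀ β ∈ F, ‖((P.curv Q φ β : S3) : ℍ[ℝ]) - 1‖ ≤ ρ) →
            ‖((hol P.gen φ 1 w : S3) : ℍ[ℝ]) - 1‖ ≤ C * ρ := by
    intro w hw
    induction hw using Subgroup.closure_induction with
    | mem x hx =>
      obtain ⟨_, ⟨r, rfl⟩, hc⟩ := Group.mem_conjugatesOfSet_iff.1 hx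
      obtain ⟨u, rfl⟩ := isConj_iff.1 hc
      refine ⟨by simp [P.rel_one], {(FreeGroup.lift P.gen u, r)}, 1, zero_le_one,
        fun φ ρ _ h => ?_⟩
      rw [hol_conj_rel hQ, norm_conj_sub, one_mul]
      exact h _ (Finset.mem_singleton_self _)
    | one => exact ⟨by simp, ∅, 0, le_rfl, fun φ ρ _ _ => by simp⟩
    | mul x y _ _ hx hy =>
      obtain ⟨hx, F, C, hC, h⟩ := hx
      obtain ⟨hy, F', C', hC', h'⟩ := hy
      refine ⟨by simp [hx, hy], F ∪ F', C + C', by positivity, fun φ ρ hρ hF => ?_⟩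
      rw [hol_mul, hx, mul_one]
      have a1 := h φ ρ hρ fun β hβ => hF β (Finset.mem_union_left _ hβ)
      have a2 := h' φ ρ hρ fun β hβ => hF β (Finset.mem_union_right _ hβ)
      refine (norm_mul_sub _ _).trans ?_
      linarith
    | inv x _ hx =>
      obtain ⟨hx, F, C, hC, h⟩ := hx
      refine ⟨by simp [hx], F, C, hC, fun φ ρ hρ hF => ?_⟩
      rw [hol_inv, hx, inv_one, mul_one, norm_inv_sub]
      exact h φ ρ hρ hF
  exact (h1 n (hP.ker n hn)).2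

end Expand

open Expand in
theorem expandStmt : ExpandStmt := by
  classical
  intro H _ P hP Q hQ n hn
  have h1 : ∀ w ∈ Subgroup.closure (Group.conjugatesOfSet (Set.range P.rel)),
      FreeGroup.lift P.gen w = 1 ∧
      ∃ (F : Finset (H × P.R)) (C : ℝ) (m : H × P.R →₀ ℤ), 0 ≤ C ∧ m.support ⊆ F ∧
        P.d2 m = chain P.gen 1 w ∧
        ∀ (φ : H × P.S → S3) (ρ : ℝ), 0 ≤ ρ →
          (∀ β ∈ F, ‖((P.curv Q φ β : S3) : ℍ[ℝ]) - 1‖ ≤ ρ) →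
          ‖((hol P.gen φ 1 w : S3) : ℍ[ℝ]) - 1‖ ≤ C * ρ ∧
          ‖((hol P.gen φ 1 w : S3) : ℍ[ℝ]) - 1 -
            Finsupp.linearCombination ℤ (fun β => ((P.curv Q φ β : S3) : ℍ[ℝ]) - 1) m‖ ≤
              C * ρ ^ 2 := by
    intro w hw
    induction hw using Subgroup.closure_induction with
    | mem x hx =>
      obtain ⟨_, ⟨r, rfl⟩, hc⟩ := Group.mem_conjugatesOfSet_iff.1 hx
      obtain ⟨u, rfl⟩ := isConj_iff.1 hc
      obtain ⟨F, C, hC, h⟩ := first hP hQ (u * (Q (FreeGroup.lift P.gen u, r))⁻¹) (by simp [hQ])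
      refine ⟨by simp [P.rel_one], insert (FreeGroup.lift P.gen u, r) F, 1 + 2 * C,
        Finsupp.single (FreeGroup.lift P.gen u, r) 1, by positivity,
        Finsupp.support_single_subset.trans (by simp), by
          simp [chain_conj _ _ _ _ (P.rel_one r)], fun φ ρ hρ hF => ?_⟩
      have a1 := h φ ρ hρ fun β hβ => hF β (Finset.mem_insert_of_mem hβ)
      have a2 := hF _ (Finset.mem_insert_self _ _)
      rw [hol_conj_rel hQ, Finsupp.linearCombination_single, one_smul]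
      constructor
      · rw [norm_conj_sub]
        nlinarith [mul_nonneg hC hρ]
      · refine (norm_conj_sub_sub _ _).trans ?_
        have := mul_le_mul a1 a2 (norm_nonneg _) (by positivity)
        nlinarith [sq_nonneg ρ]
    | one => exact ⟨by simp, ∅, 0, 0, le_rfl, by simp, by simp, fun φ ρ _ _ => by simp⟩
    | mul x y _ _ hx hy =>
      obtain ⟨hx, F, C, m, hC, hm, hd, h⟩ := hx
      obtain ⟨hy, F', C', m', hC', hm', hd', h'⟩ := hy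
      refine ⟨by simp [hx, hy], F ∪ F', C * C' + C + C', m + m', by positivity,
        Finsupp.support_add.trans (Finset.union_subset_union hm hm'),
        by simp [chain_mul, hx, hd, hd'], fun φ ρ hρ hF => ?_⟩
      rw [hol_mul, hx, mul_one, map_add]
      obtain ⟨a1, a2⟩ := h φ ρ hρ fun β hβ => hF β (Finset.mem_union_left _ hβ)
      obtain ⟨b1, b2⟩ := h' φ ρ hρ fun β hβ => hF β (Finset.mem_union_right _ hβ)
      constructor
      · refine (norm_mul_sub _ _).trans ?_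
        nlinarith [mul_nonneg (mul_nonneg hC hC') hρ]
      · refine (norm_mul_sub_sub _ _ _ _).trans ?_
        have := mul_le_mul a1 b1 (norm_nonneg _) (by positivity)
        nlinarith
    | inv x _ hx =>
      obtain ⟨hx, F, C, m, hC, hm, hd, h⟩ := hx
      refine ⟨by simp [hx], F, C * C + C, -m, by positivity, by simpa using hm,
        by simp [chain_inv, hx, hd], fun φ ρ hρ hF => ?_⟩
      rw [hol_inv, hx, inv_one, mul_one, map_neg]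
      obtain ⟨a1, a2⟩ := h φ ρ hρ hF
      constructor
      · rw [norm_inv_sub]
        nlinarith [mul_nonneg (mul_nonneg hC hC) hρ]
      · refine (norm_inv_sub_sub _ _).trans ?_
        have := mul_le_mul a1 a1 (norm_nonneg _) (by positivity)
        nlinarith
  exact (h1 n (hP.ker n hn)).2

end Crest.Agent.R197
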