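import Crest.Agent.R197.TopDefs

/-! # Row 197: Mathlib's CW complexes of dimension at most two give a `Cx`. -/

set_option autoImplicit false

noncomputable section

namespace Crest.Agent.R197

open unitInterval _root_.Topology Set Metric
open _root_.Topology.RelCWComplex (cell openCell closedCell cellFrontier)

namespace Extract

theorem exists_homeo : ∃ h : ℂ ≃ₜ (Fin 2 → ℝ), h '' ball 0 1 = ball 0 1 ∧
    h '' closedBall 0 1 = closedBall 0 1 := by
  let L : ℂ ≃L[ℝ] (Fin 2 → ℝ) := ContinuousLinearEquiv.ofFinrankEq (by simp)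
  have ho : IsOpen (L '' ball (0 : ℂ) 1) := L.toHomeomorph.isOpenMap _ isOpen_ball
  obtain ⟨g, h1, h2, -⟩ := exists_homeomorph_image_interior_closure_frontier_eq_unitBall
    (s := L '' ball (0 : ℂ) 1) ((convex_ball 0 1).linear_image (L : ℂ →ₗ[ℝ] (Fin 2 → ℝ)))
    (by rw [ho.interior_eq]; exact (nonempty_ball.2 one_pos).image _)
    (L.toContinuousLinearMap.lipschitz.isBounded_image isBounded_ball)
  have h3 : closure (L '' ball (0 : ℂ) 1) = L '' closedBall 0 1 := by
    rw [← closure_ball (0 : ℂ) one_ne_zero]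
    exact (L.toHomeomorph.image_closure _).symm
  rw [ho.interior_eq] at h1
  rw [h3] at h2
  exact ⟨L.toHomeomorph.trans g, by rw [← h1, image_image]; rfl, by rw [← h2, image_image]; rfl⟩

/-- The parametrisation of the closed unit interval ball. -/
def par (r : I) : Fin 1 → ℝ := fun _ => 2 * (r : ℝ) - 1

theorem continuous_par : Continuous par := by
  unfold par
  fun_prop

theorem norm_par (r : I) : ‖par r‖ = |2 * (r : ℝ) - 1| := pi_norm_const _

theorem par_mem (r : I) : par r ∈ closedBall (0 : Fin 1 → ℝ) 1 := by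
  rw [mem_closedBall_zero_iff, norm_par, abs_le]
  constructor <;> linarith [r.2.1, r.2.2]

theorem par_mem_ball {r : I} (h0 : 0 < r) (h1 : r < 1) : par r ∈ ball (0 : Fin 1 → ℝ) 1 := by
  have h2 : (0 : ℝ) < r := h0
  have h3 : (r : ℝ) < 1 := h1
  rw [mem_ball_zero_iff, norm_par, abs_lt]
  constructor <;> linarith

theorem par_inj : Function.Injective par := fun r r' h => by
  have := congrFun h 0
  simp only [par] at this
  exact Subtype.ext (by linarith)

theorem exists_par {y : Fin 1 → ℝ} (hy : y ∈ closedBall (0 : Fin 1 → ℝ) 1) : ∃ r, par r = y := by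
  have h1 : |y 0| ≤ 1 := (norm_le_pi_norm y 0).trans (mem_closedBall_zero_iff.1 hy)
  rw [abs_le] at h1
  refine ⟨⟨(y 0 + 1) / 2, by linarith [h1.1], by linarith [h1.2]⟩, funext fun i => ?_⟩
  rw [Subsingleton.elim i 0]
  simp only [par]
  ring

variable {X : Type} [TopologicalSpace X] [CWComplex (univ : Set X)]

theorem frontier_mem {n : ℕ} {i : cell (univ : Set X) n} {x : X} (hx : x ∈ cellFrontier n i) :
    ∃ m < n, ∃ j : cell (univ : Set X) m, x ∈ openCell m j := by
  obtain ⟨J, hJ⟩ := CWComplex.cellFrontier_subset_finite_openCell n i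
  have := hJ hx
  simp only [mem_iUnion] at this
  obtain ⟨m, hm, j, -, h⟩ := this
  exact ⟨m, hm, j, h⟩

theorem dim_eq {n m : ℕ} {i : cell (univ : Set X) n} {j : cell (univ : Set X) m} {x : X}
    (h : x ∈ openCell n i) (h' : x ∈ openCell m j) : n = m :=
  congrArg Sigma.fst (RelCWComplex.eq_of_not_disjoint_openCell (not_disjoint_iff.2 ⟨x, h, h'⟩))

theorem map_inj {n : ℕ} {i j : cell (univ : Set X) n} {y y' : Fin n → ℝ} (hy : y ∈ ball 0 1)
    (hy' : y' ∈ closedBall 0 1) (h : RelCWComplex.map n i y = RelCWComplex.map n j y') :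
    i = j ∧ y = y' := by
  have h1 : RelCWComplex.map n i y ∈ openCell n i := mem_image_of_mem _ hy
  rw [← sphere_union_ball] at hy'
  rcases hy' with hy' | hy'
  · obtain ⟨m, hm, k, hk⟩ := frontier_mem (i := j) (mem_image_of_mem _ hy')
    exact (hm.ne' (dim_eq h1 (h ▸ hk))).elim
  · have h2 : RelCWComplex.map n i y ∈ openCell n j := h ▸ mem_image_of_mem _ hy'
    have h3 := RelCWComplex.eq_of_not_disjoint_openCell (not_disjoint_iff.2 ⟨_, h1, h2⟩)
    obtain rfl : i = j := by simpa using h3
    refine ⟨rfl, (RelCWComplex.map n i).injOn ?_ ?_ h⟩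
    · rwa [RelCWComplex.source_eq]
    · rwa [RelCWComplex.source_eq]

variable (X) in
/-- The one-skeleton. -/
def sk : Set X := {x | ∃ m < 2, ∃ j : cell (univ : Set X) m, x ∈ openCell m j}

theorem closedCell_subset {n : ℕ} (hn : n < 2) (i : cell (univ : Set X) n) :
    closedCell n i ⊆ sk X := by
  rw [← RelCWComplex.cellFrontier_union_openCell_eq_closedCell]
  rintro x (hx | hx)
  · obtain ⟨m, hm, j, h⟩ := frontier_mem hx
    exact ⟨m, hm.trans hn, j, h⟩
  · exact ⟨n, hn, i, hx⟩

theorem disjoint_sk {n : ℕ} (hn : 2 ≤ n) (i : cell (univ : Set X) n) :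
    Disjoint (sk X) (openCell n i) :=
  Set.disjoint_left.2 fun _ ⟨_, hm, _, h⟩ h' => by
    have := dim_eq h h'
    omega

theorem isClosed_sk [T2Space X] : IsClosed (sk X) := by
  refine CWComplex.isClosed_of_disjoint_openCell_or_isClosed_inter_closedCell (C := univ)
    (subset_univ _) fun n _ j => ?_
  rcases lt_or_ge n 2 with h | h
  · right
    rw [inter_eq_right.2 (closedCell_subset h j)]
    exact RelCWComplex.isClosed_closedCell
  · exact Or.inl (disjoint_sk h j)

/-- The vertices. -/
def vtx (v : cell (univ : Set X) 0) : sk X :=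
  ⟨RelCWComplex.map 0 v ![], 0, by norm_num, v, by
    rw [RelCWComplex.openCell_zero_eq_singleton]; rfl⟩

/-- The edges. -/
def edg (e : cell (univ : Set X) 1) (r : I) : sk X :=
  ⟨RelCWComplex.map 1 e (par r), closedCell_subset one_lt_two e (mem_image_of_mem _ (par_mem r))⟩

theorem continuous_edg (e : cell (univ : Set X) 1) : Continuous (edg e) :=
  ((RelCWComplex.continuousOn 1 e).comp_continuous continuous_par par_mem).subtype_mk _

theorem exists_end (e : cell (univ : Set X) 1) {r : I} (hr : r = 0 ∨ r = 1) :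
    ∃ v, edg e r = vtx v := by
  have h1 : par r ∈ sphere (0 : Fin 1 → ℝ) 1 := by
    rw [mem_sphere_zero_iff_norm, norm_par]
    rcases hr with rfl | rfl <;> norm_num
  obtain ⟨m, hm, j, h⟩ := frontier_mem (i := e) (mem_image_of_mem _ h1)
  obtain rfl : m = 0 := by omega
  rw [RelCWComplex.openCell_zero_eq_singleton] at h
  exact ⟨j, Subtype.ext h⟩

theorem exists_graph [T2Space X] : Nonempty (Graph (sk X)) := by
  choose o ho using fun e : cell (univ : Set X) 1 => exists_end e (Or.inl rfl)
  choose t ht using fun e : cell (univ : Set X) 1 => exists_end e (Or.inr rfl)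
  refine ⟨⟨cell (univ : Set X) 0, cell (univ : Set X) 1, o, t, vtx,
    fun e => ⟨⟨edg e, continuous_edg e⟩, ho e, ht e⟩, ?_, ?_, ?_, ?_, ?_⟩⟩
  · exact fun v v' h => RelCWComplex.injective_map_zero univ (congrArg Subtype.val h)
  · intro e e' r r' h0 h1 h
    obtain ⟨h2, h3⟩ := map_inj (par_mem_ball h0 h1) (par_mem r') (congrArg Subtype.val h)
    exact ⟨h2, par_inj h3⟩
  · intro e r v h0 h1 h
    have h2 : (edg e r : X) ∈ openCell 1 e := mem_image_of_mem _ (par_mem_ball h0 h1)
    have h3 : (vtx v : X) ∈ openCell 0 v := by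
      rw [RelCWComplex.openCell_zero_eq_singleton]; rfl
    have h4 : (edg e r : X) = vtx v := congrArg Subtype.val h
    exact one_ne_zero (dim_eq h2 (h4 ▸ h3))
  · rintro ⟨x, m, hm, j, hj⟩
    obtain rfl | rfl : m = 0 ∨ m = 1 := by omega
    · rw [RelCWComplex.openCell_zero_eq_singleton] at hj
      exact Or.inl ⟨j, Subtype.ext hj⟩
    · obtain ⟨y, hy, rfl⟩ := hj
      obtain ⟨r, rfl⟩ := exists_par (ball_subset_closedBall hy)
      exact Or.inr ⟨j, r, rfl⟩
  · intro B hB
    have h1 : IsClosed (Subtype.val '' B) := by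
      refine CWComplex.isClosed_of_disjoint_openCell_or_isClosed_inter_closedCell (C := univ)
        (subset_univ _) fun n hn j => ?_
      rcases lt_or_ge n 2 with h | h
      · right
        obtain rfl : n = 1 := by omega
        have h2 : Subtype.val '' B ∩ closedCell 1 j =
            (fun r => (edg j r : X)) '' (edg j ⁻¹' B) := by
          ext x
          constructor
          · rintro ⟨⟨z, hz, rfl⟩, y, hy, h3⟩
            obtain ⟨r, rfl⟩ := exists_par hy
            have h4 : edg j r = z := Subtype.ext h3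
            exact ⟨r, by rw [mem_preimage, h4]; exact hz, h3⟩
          · rintro ⟨r, hr, rfl⟩
            exact ⟨⟨_, hr, rfl⟩, mem_image_of_mem _ (par_mem r)⟩
        rw [h2]
        exact ((hB j).isCompact.image (continuous_subtype_val.comp (continuous_edg j))).isClosed
      · exact Or.inl ((disjoint_sk h j).mono_left (Subtype.coe_image_subset _ _))
    have h2 := h1.preimage (continuous_subtype_val (p := fun x => x ∈ sk X))
    rwa [preimage_image_eq _ Subtype.val_injective] at h2

end Extract

open Extract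

theorem extractStmt : ExtractStmt := by
  intro X _ _ _ hd
  obtain ⟨G⟩ := exists_graph (X := X)
  obtain ⟨h, h1, h2⟩ := exists_homeo
  have hc : ∀ z : Disc, h z ∈ closedBall (0 : Fin 2 → ℝ) 1 := fun z =>
    h2 ▸ mem_image_of_mem _ z.2
  have hb : ∀ z : ℂ, h z ∈ ball (0 : Fin 2 → ℝ) 1 ↔ ‖z‖ < 1 := fun z => by
    rw [← h1, h.injective.mem_set_image, mem_ball_zero_iff]
  have hs : ∀ y ∈ closedBall (0 : Fin 2 → ℝ) 1, ∃ z : Disc, h z = y := fun y hy => by
    rw [← h2] at hy
    obtain ⟨z, hz, rfl⟩ := hy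
    exact ⟨⟨z, hz⟩, rfl⟩
  let face : cell (univ : Set X) 2 → C(Disc, X) := fun f =>
    ⟨fun z => RelCWComplex.map 2 f (h z), (RelCWComplex.continuousOn 2 f).comp_continuous
      (h.continuous.comp continuous_subtype_val) hc⟩
  have hatt : ∀ f (z : Circle), face f (inc z) ∈ sk X := fun f z => by
    have h3 : h (inc z) ∈ sphere (0 : Fin 2 → ℝ) 1 := by
      have h4 := hc (inc z)
      rw [← sphere_union_ball] at h4
      refine h4.resolve_right fun h5 => ?_
      have h6 : ‖(z : ℂ)‖ < 1 := (hb _).1 h5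
      simp at h6
    exact frontier_mem (i := f) (mem_image_of_mem _ h3)
  refine ⟨{
    Z := sk X
    G := G
    ι := ⟨Subtype.val, continuous_subtype_val⟩
    ι_inj := Subtype.val_injective
    F := cell (univ : Set X) 2
    face := face
    att := fun f => ⟨fun z => ⟨face f (inc z), hatt f z⟩,
      ((face f).continuous.comp inc.continuous).subtype_mk _⟩
    face_inc := fun _ _ => rfl
    face_inj := fun f f' z z' hz he => ?_
    face_ne := fun f z y hz he => ?_
    cover := fun x => ?_
    closed := fun B hB hF => ?_ }⟩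
  · obtain ⟨h3, h4⟩ := map_inj ((hb z).2 hz) (hc z') he
    exact ⟨h3, Subtype.ext (h.injective h4)⟩
  · have h3 : face f z ∈ openCell 2 f := mem_image_of_mem _ ((hb z).2 hz)
    have h4 : face f z = (y : X) := he
    exact Set.disjoint_left.1 (disjoint_sk le_rfl f) y.2 (h4 ▸ h3)
  · have h3 : x ∈ ⋃ (n : ℕ) (j : cell (univ : Set X) n), openCell n j := by
      rw [CWComplex.iUnion_openCell_eq_complex]; trivial
    simp only [mem_iUnion] at h3
    obtain ⟨n, j, hj⟩ := h3
    rcases lt_trichotomy n 2 with hn | rfl | hn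
    · exact Or.inl ⟨⟨x, n, hn, j, hj⟩, rfl⟩
    · obtain ⟨y, hy, rfl⟩ := hj
      obtain ⟨z, rfl⟩ := hs y (ball_subset_closedBall hy)
      exact Or.inr ⟨j, z, rfl⟩
    · exact (hd n hn).elim j
  · have h3 : IsClosed (sk X ∩ B) := by
      have := isClosed_sk.isClosedEmbedding_subtypeVal.isClosedMap _ hB
      rwa [← Subtype.image_preimage_coe]
    refine (CWComplex.closed univ B (subset_univ _)).2 fun n j => ?_
    rcases lt_trichotomy n 2 with hn | rfl | hn
    · have h4 : B ∩ closedCell n j = sk X ∩ B ∩ closedCell n j := by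
        ext x
        exact ⟨fun hx => ⟨⟨closedCell_subset hn j hx.2, hx.1⟩, hx.2⟩, fun hx => ⟨hx.1.2, hx.2⟩⟩
      rw [h4]
      exact h3.inter RelCWComplex.isClosed_closedCell
    · have h4 : B ∩ closedCell 2 j = face j '' (face j ⁻¹' B) := by
        ext x
        constructor
        · rintro ⟨hx, y, hy, rfl⟩
          obtain ⟨z, rfl⟩ := hs y hy
          exact ⟨z, hx, rfl⟩
        · rintro ⟨z, hz, rfl⟩
          exact ⟨hz, mem_image_of_mem _ (hc z)⟩
      rw [h4]
      exact ((hF j).isCompact.image (face j).continuous).isClosed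
    · exact (hd n hn).elim j

end Crest.Agent.R197
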