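import Crest.Agent.R197.TopDefs

/-!
# Row 197: the presentation read off from the cells
-/

set_option autoImplicit false

noncomputable section

namespace Crest.Agent.R197

open unitInterval _root_.Topology Set Path.Homotopic

namespace GP

section Quot
variable {Y Z : Type} [TopologicalSpace Y] [TopologicalSpace Z]

theorem map_trans {x y z : Y} (ξ : PQ x y) (ζ : PQ y z) (f : C(Y, Z)) :
    (ξ.trans ζ).map f = (ξ.map f).trans (ζ.map f) := by
  induction ξ using Path.Homotopic.Quotient.ind with | mk γ =>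
  induction ζ using Path.Homotopic.Quotient.ind with | mk γ' =>
  rw [← Quotient.mk_trans, ← Quotient.mk_map, Path.map_trans]
  rfl

theorem map_refl (x : Y) (f : C(Y, Z)) : (Quotient.refl x).map f = Quotient.refl (f x) := rfl

theorem map_symm {x y : Y} (ξ : PQ x y) (f : C(Y, Z)) : ξ.symm.map f = (ξ.map f).symm := by
  induction ξ using Path.Homotopic.Quotient.ind with | mk γ => rfl

theorem symm_trans_cancel {x y z : Y} (ξ : PQ x y) (ζ : PQ y z) :
    ξ.symm.trans (ξ.trans ζ) = ζ := by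
  rw [← Quotient.trans_assoc, Quotient.symm_trans, Quotient.refl_trans]

theorem trans_symm_cancel {x y z : Y} (ξ : PQ x y) (ζ : PQ x z) :
    ξ.trans (ξ.symm.trans ζ) = ζ := by
  rw [← Quotient.trans_assoc, Quotient.trans_symm, Quotient.refl_trans]

theorem map_circ (φ : C(Disc, Z)) (g : C(Circle, Z)) (h : g = φ.comp inc) :
    (Path.Homotopic.Quotient.mk circ).map g = Quotient.refl (g 1) := by
  subst h
  have : ContractibleSpace Disc :=
    (convex_closedBall (0 : ℂ) 1).contractibleSpace ⟨0, by simp⟩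
  rw [Quotient.map_comp, Subsingleton.elim ((Path.Homotopic.Quotient.mk circ).map inc) (Quotient.refl _)]
  rfl

end Quot

/-- A multiplicative function of path classes is computed on edge paths by the word. -/
theorem eval {Z G : Type} [TopologicalSpace Z] [Group G] {K : Graph Z}
    (h : ∀ v v' : K.V, PQ (K.vtx v) (K.vtx v') → G)
    (hm : ∀ v v' v'' ξ ζ, h v v'' (ξ.trans ζ) = h v v' ξ * h v' v'' ζ) (lam : K.E → G)
    (he : ∀ e, h _ _ (Path.Homotopic.Quotient.mk (K.edge e)) = lam e) {v v' : K.V} {w : List (K.E × Bool)}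
    {ξ : PQ (K.vtx v) (K.vtx v')} (H : K.EP v w v' ξ) :
    FreeGroup.lift lam (FreeGroup.mk w) = h v v' ξ := by
  have h1 : ∀ v, h v v (Quotient.refl _) = 1 := fun v => by
    have := hm v v v (Quotient.refl _) (Quotient.refl _)
    rw [Quotient.refl_trans] at this
    exact mul_left_cancel (this.symm.trans (mul_one _).symm)
  induction H with
  | nil v => simp [h1]
  | pos e w v ξ _ ih =>
    simp only [FreeGroup.lift_mk, List.map_cons, List.prod_cons, cond_true] at ih ⊢
    rw [ih, hm, he]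
  | neg e w v ξ _ ih =>
    simp only [FreeGroup.lift_mk, List.map_cons, List.prod_cons, cond_false] at ih ⊢
    have := hm _ _ _ (Path.Homotopic.Quotient.mk (K.edge e)) (Path.Homotopic.Quotient.mk (K.edge e)).symm
    rw [Quotient.trans_symm, h1, he] at this
    rw [ih, hm, eq_inv_of_mul_eq_one_right this.symm]

theorem hol_refl {Z G : Type} [TopologicalSpace Z] [Group G] {p : Pot Z G}
    {h : ∀ {x y : Z}, PQ x y → G} (H : p.IsHol h) (x : Z) : h (Quotient.refl x) = 1 := by
  have := H.trans (Quotient.refl x) (Quotient.refl x)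
  rw [Quotient.refl_trans] at this
  exact mul_left_cancel (this.symm.trans (mul_one _).symm)

theorem hol_of_conj {Z G : Type} [TopologicalSpace Z] [Group G] {p : Pot Z G}
    {h : ∀ {x y : Z}, PQ x y → G} (H : p.IsHol h) {x y : Z} (c : PQ x y) (ξ : PQ y y)
    (h1 : h (c.trans (ξ.trans c.symm)) = 1) : h ξ = 1 := by
  have h2 := H.trans c.symm c
  rw [Quotient.symm_trans, hol_refl H] at h2
  rw [H.trans, H.trans] at h1
  calc h ξ = (h c.symm * h c) * h ξ * (h c.symm * h c) := by rw [← h2]; simp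
    _ = h c.symm * (h c * (h ξ * h c.symm)) * h c := by simp only [mul_assoc]
    _ = 1 := by rw [h1, mul_one, ← h2]

theorem exists_vtx {Z : Type} [TopologicalSpace Z] (K : Graph Z) (z : Z) :
    ∃ v, Nonempty (PQ (K.vtx v) z) := by
  rcases K.cover z with ⟨v, rfl⟩ | ⟨e, r, rfl⟩
  · exact ⟨v, ⟨Quotient.refl _⟩⟩
  · have : PathConnectedSpace I := isPathConnected_iff_pathConnectedSpace.1
      ((convex_Icc (0 : ℝ) 1).isPathConnected ⟨0, by simp⟩)
    exact ⟨K.o e, ⟨Path.Homotopic.Quotient.mk (((PathConnectedSpace.somePath (0 : I) r).map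
      (K.edge e).continuous).cast (K.edge e).source.symm rfl)⟩⟩

/-- The element of the fundamental group given by a path class between vertices. -/
def L {X : Type} [TopologicalSpace X] (K : Cx X) (x : X) (τ : ∀ v, PQ x (K.ι (K.G.vtx v)))
    (v v' : K.G.V) (ξ : PQ (K.G.vtx v) (K.G.vtx v')) : (FundamentalGroup X x)ᵐᵒᵖ :=
  MulOpposite.op (FundamentalGroup.fromPath ((τ v).trans ((ξ.map K.ι).trans (τ v').symm)))

theorem eval_lab {X : Type} [TopologicalSpace X] (K : Cx X) (x : X)
    (τ : ∀ v, PQ x (K.ι (K.G.vtx v))) {v v' : K.G.V} {w : List (K.G.E × Bool)}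
    {ξ : PQ (K.G.vtx v) (K.G.vtx v')} (H : K.G.EP v w v' ξ) :
    FreeGroup.lift (K.lab x τ) (FreeGroup.mk w) = L K x τ v v' ξ := by
  refine eval (L K x τ) (fun v v' v'' ξ ζ => ?_) _ (fun e => rfl) H
  rw [L, L, L, ← MulOpposite.op_mul, FundamentalGroup.mul_def]
  congr 1
  change (τ v).trans (((ξ.trans ζ).map K.ι).trans (τ v'').symm) =
    ((τ v).trans ((ξ.map K.ι).trans (τ v').symm)).trans
      ((τ v').trans ((ζ.map K.ι).trans (τ v'').symm))
  rw [map_trans, Quotient.trans_assoc, Quotient.trans_assoc, Quotient.trans_assoc,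
    symm_trans_cancel]

end GP

open GP

theorem gPresStmt (h1 : PotStmt) (h2 : GraphGenStmt) (h3 : GraphPotStmt) (h4 : SurjStmt)
    (h5 : ExtendStmt) (h6 : InjStmt) : GPresStmt := by
  intro X _ _ K hc x
  have hX : PathConnectedSpace X := by
    obtain ⟨E, _, p, _, hp, hs⟩ := hc
    exact hs.pathConnectedSpace hp.continuous
  have hj : ∀ y y' : X, Nonempty (PQ y y') := fun y y' =>
    ⟨Path.Homotopic.Quotient.mk (PathConnectedSpace.somePath y y')⟩
  obtain ⟨v0⟩ : Nonempty K.G.V := by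
    rcases K.cover x with ⟨y, -⟩ | ⟨f, -⟩
    · exact ⟨(exists_vtx K.G y).choose⟩
    · exact ⟨(exists_vtx K.G (K.att f 1)).choose⟩
  have τ : ∀ v, PQ x (K.ι (K.G.vtx v)) := fun v => (hj _ _).some
  choose base hbase using fun f => exists_vtx K.G (K.att f 1)
  have c : ∀ f, PQ (K.G.vtx (base f)) (K.att f 1) := fun f => (hbase f).some
  choose bd hbd using fun f => h2 K.Z K.G (base f) (base f)
    ((c f).trans ((K.loop f).trans (c f).symm))
  refine ⟨⟨K.G.V, K.G.E, K.F, K.G.o, K.G.t, v0, K.lab x τ, base, bd, fun f => (hbd f).isPath,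
    fun v => ?_, fun d => ?_, fun f => ?_, fun G _ lam hrel w hw hw1 => ?_,
    h6 X K hc x τ base bd c hbd⟩⟩
  · obtain ⟨ξ, -⟩ := h4 X K (K.G.vtx v0) (K.G.vtx v) (hj _ _).some
    obtain ⟨w, hw⟩ := h2 K.Z K.G v0 v ξ
    exact ⟨w, hw.isPath⟩
  · obtain ⟨ξ, hξ⟩ := h4 X K (K.G.vtx v0) (K.G.vtx v0)
      ((τ v0).symm.trans ((FundamentalGroup.toPath d.unop).trans (τ v0)))
    obtain ⟨w, hw⟩ := h2 K.Z K.G v0 v0 ξ
    refine ⟨w, hw.isPath, ?_⟩
    rw [eval_lab K x τ hw, L, hξ, Quotient.trans_assoc, trans_symm_cancel, Quotient.trans_assoc,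
      Quotient.trans_symm, Quotient.trans_refl]
    rfl
  · have e : (K.loop f).map K.ι = Quotient.refl _ := by
      rw [Cx.loop, ← Quotient.map_comp]
      exact map_circ (K.face f) _ (by ext z; exact (K.face_inc f z).symm)
    rw [eval_lab K x τ (hbd f), L, map_trans, map_trans, e, Quotient.refl_trans, map_symm,
      Quotient.trans_symm, Quotient.refl_trans, Quotient.trans_symm]
    rfl
  · obtain ⟨p, hp⟩ := h3 K.Z G K.G lam
    obtain ⟨h, hh⟩ := h1 K.Z G p
    have hev : ∀ {v v' : K.G.V} {w : List (K.G.E × Bool)} {ξ : PQ (K.G.vtx v) (K.G.vtx v')},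
        K.G.EP v w v' ξ → FreeGroup.lift lam (FreeGroup.mk w) = h ξ := fun H =>
      eval (fun _ _ ξ => h ξ) (fun _ _ _ ξ ζ => hh.trans ξ ζ) lam (fun e => by
        obtain ⟨c, hc, c0, c1⟩ := hp e
        have := hh.eq _ c hc
        rw [c0, c1, one_mul] at this
        exact this.symm) H
    obtain ⟨p', hp'⟩ := h5 X G K p fun f => by
      have a1 : h (K.loop f) = 1 := hol_of_conj hh (c f) _ ((hev (hbd f)).symm.trans (hrel f))
      obtain ⟨c, hc⟩ := hh.ex (circ.map (K.att f).continuous)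
      refine ⟨c, hc, ?_⟩
      rw [hh.eq _ c hc, Quotient.mk_map]
      exact (congrArg (c 0 * ·) a1).trans (mul_one _)
    obtain ⟨h', hh'⟩ := h1 X G p'
    have hmap : ∀ {z z' : K.Z} (ξ : PQ z z'), h' (ξ.map K.ι) = h ξ := fun ξ => by
      induction ξ using Path.Homotopic.Quotient.ind with | mk γ =>
      obtain ⟨c, hc⟩ := hh.ex γ
      have a1 := hh'.eq (γ.map K.ι.continuous) c fun t => (hc t).mono fun t' ht' => by
        rw [ht', ← hp']; rfl
      rw [hh.eq γ c hc] at a1
      exact (mul_left_cancel a1).symm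
    obtain ⟨ξ, hξ⟩ := hw.exists_EP
    rw [eval_lab K x τ hξ] at hw1
    have a1 : (τ v0).trans ((ξ.map K.ι).trans (τ v0).symm) = Quotient.refl x :=
      MulOpposite.op_injective hw1
    rw [hev hξ, ← hmap]
    exact hol_of_conj hh' (τ v0) _ (by rw [a1, hol_refl hh'])

end Crest.Agent.R197
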