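import Crest.Agent.R197.TopDefs

/-!
# Row 197: small paths generate all paths
-/

set_option autoImplicit false

namespace Crest.Agent.R197

open unitInterval _root_.Topology Set

theorem genStmt : GenStmt := by
  intro Z _ Good htrans hsmall x y ξ
  obtain ⟨γ⟩ := ξ
  have h1 : ∀ a b c : I, Good (.mk (γ.subpath a b)) → Good (.mk (γ.subpath b c)) →
      Good (.mk (γ.subpath a c)) := fun a b c hab hbc => by
    have := htrans _ _ hab hbc
    rwa [← Path.Homotopic.Quotient.mk_trans, Path.Homotopic.Quotient.eq.2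
      ⟨Path.Homotopy.subpathTransSubpath γ a b c⟩] at this
  have h2 : ∀ t : I, ∀ᶠ t' in 𝓝 t,
      Good (.mk (γ.subpath t t')) ∧ Good (.mk (γ.subpath t' t)) := fun t => by
    obtain ⟨U, hU, h⟩ := hsmall (γ t)
    have h3 : ∀ᶠ t' in 𝓝 t, ∀ s ∈ (univ : Set I), γ.subpath t t' s ∈ U := by
      refine isCompact_univ.eventually_forall_of_forall_eventually fun s _ => ?_
      have hc : Continuous fun q : I × I => γ.subpath t q.1 q.2 :=
        γ.subpath_continuous_family.comp (f := fun q : I × I => (t, q)) (by fun_prop)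
      exact hc.continuousAt.preimage_mem_nhds (by simpa using hU)
    filter_upwards [h3] with t' ht'
    refine ⟨h _ fun s => ht' s trivial, h _ fun s => ?_⟩
    rw [← Path.symm_subpath]
    exact ht' _ trivial
  have h3 : IsLocallyConstant fun t => Good (.mk (γ.subpath 0 t)) :=
    (IsLocallyConstant.iff_eventually_eq _).2 fun t => (h2 t).mono fun t' ht' =>
      propext ⟨fun h => h1 _ _ _ h ht'.2, fun h => h1 _ _ _ h ht'.1⟩
  have h4 : Good (.mk (γ.subpath 0 1)) :=
    (h3.apply_eq_of_preconnectedSpace 0 1).mp (h2 0).self_of_nhds.1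
  have h5 : ∀ (x' y' : Z) (hx : x' = x) (hy : y' = y), Good (.mk (γ.cast hx hy)) →
      Good (.mk γ) := by
    rintro _ _ rfl rfl h
    exact h
  rw [Path.subpath_zero_one] at h4
  exact h5 _ _ _ _ h4

end Crest.Agent.R197
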