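import Crest.Agent.R197.GeomAux

/-! Row 197: the scaled copies of the flag complex give configurations. -/

set_option autoImplicit false

noncomputable section

namespace Crest.Agent.R197

open Crest.Agent.Lib.Degree
open scoped Quaternion

namespace Geom

open Expand

theorem path_append {V E : Type} {o t : E → V} {v v' v'' : V} {w w' : List (E × Bool)}
    (h : IsPath o t v w v') (h' : IsPath o t v' w' v'') : IsPath o t v (w ++ w') v'' := by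
  induction h with
  | nil v => exact h'
  | pos e w v _ ih => exact .pos e _ _ (ih h')
  | neg e w v _ ih => exact .neg e _ _ (ih h')

theorem path_invRev {V E : Type} {o t : E → V} {v v' : V} {w : List (E × Bool)}
    (h : IsPath o t v w v') : IsPath o t v' (FreeGroup.invRev w) v := by
  induction h with
  | nil v => exact .nil v
  | pos e w v _ ih =>
    rw [FreeGroup.invRev_cons]
    exact path_append ih (.neg e _ _ (.nil _))
  | neg e w v _ ih =>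
    rw [FreeGroup.invRev_cons]
    exact path_append ih (.pos e _ _ (.nil _))

variable {V : Type} [LinearOrder V] {Γ : SimpleGraph V} (v₀ : V) (P : HPres (H Γ))
  (ω : FreeGroup (Bool × V) →* FreeGroup P.S) (sec : H Γ → FreeGroup P.S)

/-- The data that do not depend on the scale. -/
structure Loc where
  μ : ℕ
  R : ℕ
  hR : 2 * R < μ
  ε : E3 Γ → (H Γ × P.R →₀ ℤ)
  ε_small : ∀ Δ, ∀ β ∈ (ε Δ).support, Small R β.1
  D : ℝ
  hD0 : 0 ≤ D
  hD : ∀ Δ β, |(ε Δ β : ℝ)| ≤ D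
  Fκ : E3 Γ → Finset (H Γ × P.R)
  mκ : E3 Γ → (H Γ × P.R →₀ ℤ)
  Fκ_small : ∀ Δ, ∀ β ∈ Fκ Δ, Small R β.1
  mκ_sub : ∀ Δ, (mκ Δ).support ⊆ Fκ Δ
  mκ_d2 : ∀ Δ, P.d2 (mκ Δ) = chain P.gen 1 (ω (cellW Δ.a Δ.b))
  Fκ_flat : ∀ Δ (φ : H Γ × P.S → S3), (∀ β ∈ Fκ Δ, P.curv (fun β => sec β.1) φ β = 1) →
    hol P.gen φ 1 (ω (cellW Δ.a Δ.b)) = 1
  F : E3 Γ → Finset (H Γ × P.R)
  mT : E3 Γ → (H Γ × P.R →₀ ℤ)
  mT_sub : ∀ Δ, (mT Δ).support ⊆ F Δ
  mT_d2 : ∀ Δ, P.d2 (mT Δ) = chain P.gen 1 (ω (triW Δ.a Δ.b (3 * μ)))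
  mT_pair : ∀ Δ, Finsupp.linearCombination ℤ (fun β => ε Δ ((FreeGroup.lift (gen0 Γ v₀) Δ.a ^ μ *
    FreeGroup.lift (gen0 Γ v₀) (Δ.a * Δ.b) ^ μ)⁻¹ * β.1, β.2)) (mT Δ) = 1
  C : ℝ
  hC : 0 ≤ C
  mT_le : ∀ Δ, ∑ β ∈ (mT Δ).support, |(mT Δ β : ℝ)| ≤ C
  exp : ∀ Δ (φ : H Γ × P.S → S3) (ρ : ℝ), 0 ≤ ρ →
    (∀ β ∈ F Δ, ‖((P.curv (fun β => sec β.1) φ β : S3) : ℍ[ℝ]) - 1‖ ≤ ρ) →
    ‖((hol P.gen φ 1 (ω (triW Δ.a Δ.b (3 * μ))) : S3) : ℍ[ℝ]) - 1 -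
      Finsupp.linearCombination ℤ (fun β => ((P.curv (fun β => sec β.1) φ β : S3) : ℍ[ℝ]) - 1)
        (mT Δ)‖ ≤ C * ρ ^ 2

theorem exists_loc [Fintype V] (h1 : ExpandStmt) (h2 : LocalStmt) (hac : (P0 Γ v₀).Acyclic)
    (hP : P.Asph) (hω : ∀ w, FreeGroup.lift P.gen (ω w) = FreeGroup.lift (gen0 Γ v₀) w)
    (hsec : ∀ h, FreeGroup.lift P.gen (sec h) = h) : Nonempty (Loc v₀ P ω sec) := by
  classical
  choose ε R₁ hε using h2 V Γ v₀ hac P hP ω hω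
  choose Fκ Cκ mκ hCκ hκ1 hκ2 hκ3 using fun Δ : E3 Γ => h1 _ P hP (fun β => sec β.1)
    (fun β => hsec _) (ω (cellW Δ.a Δ.b)) (by rw [hω, Δ.cell_null])
  obtain ⟨R, hR⟩ := exists_small (Γ := Γ)
    ((Finset.univ.biUnion fun Δ => (ε Δ).support ∪ Fκ Δ).image Prod.fst)
  set μ := 2 * R + 1 + Finset.univ.sup R₁ with hμ
  choose F C mT hC hT1 hT2 hT3 using fun Δ : E3 Γ => h1 _ P hP (fun β => sec β.1)
    (fun β => hsec _) (ω (triW Δ.a Δ.b (3 * μ)))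
    (by rw [hω]; exact (fill_tri _ _ _ _).null (Δ.cell_null v₀))
  have hs : ∀ Δ, 0 ≤ ∑ β ∈ (mT Δ).support, |(mT Δ β : ℝ)| := fun Δ =>
    Finset.sum_nonneg fun _ _ => abs_nonneg _
  have hs' : ∀ Δ, 0 ≤ ∑ β ∈ (ε Δ).support, |(ε Δ β : ℝ)| := fun Δ =>
    Finset.sum_nonneg fun _ _ => abs_nonneg _
  have hle : ∀ Δ, C Δ + ∑ β ∈ (mT Δ).support, |(mT Δ β : ℝ)| ≤
      ∑ Δ, (C Δ + ∑ β ∈ (mT Δ).support, |(mT Δ β : ℝ)|) := fun Δ =>
    Finset.single_le_sum (f := fun Δ => C Δ + ∑ β ∈ (mT Δ).support, |(mT Δ β : ℝ)|)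
      (fun Δ _ => add_nonneg (hC Δ) (hs Δ)) (Finset.mem_univ Δ)
  refine ⟨{ μ := μ, R := R, hR := by omega, ε := ε
            ε_small := fun Δ β hβ => hR _ (Finset.mem_image_of_mem _
              (Finset.mem_biUnion.2 ⟨Δ, Finset.mem_univ _, Finset.mem_union_left _ hβ⟩))
            D := ∑ Δ, ∑ β ∈ (ε Δ).support, |(ε Δ β : ℝ)|
            hD0 := Finset.sum_nonneg fun Δ _ => hs' Δ
            hD := fun Δ β => ?_
            Fκ := Fκ, mκ := mκ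
            Fκ_small := fun Δ β hβ => hR _ (Finset.mem_image_of_mem _
              (Finset.mem_biUnion.2 ⟨Δ, Finset.mem_univ _, Finset.mem_union_right _ hβ⟩))
            mκ_sub := hκ1, mκ_d2 := hκ2
            Fκ_flat := fun Δ φ h => ?_
            F := F, mT := mT, mT_sub := hT1, mT_d2 := hT2
            mT_pair := fun Δ => hε Δ μ ?_ _ (hT2 Δ)
            C := ∑ Δ, (C Δ + ∑ β ∈ (mT Δ).support, |(mT Δ β : ℝ)|)
            hC := Finset.sum_nonneg fun Δ _ => add_nonneg (hC Δ) (hs Δ)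
            mT_le := fun Δ => by linarith [hle Δ, hC Δ]
            exp := fun Δ φ ρ hρ h => (hT3 Δ φ ρ hρ h).2.trans ?_ }⟩
  · refine le_trans ?_ (Finset.single_le_sum (f := fun Δ => ∑ β ∈ (ε Δ).support, |(ε Δ β : ℝ)|)
      (fun Δ _ => hs' Δ) (Finset.mem_univ Δ))
    by_cases hβ : β ∈ (ε Δ).support
    · exact Finset.single_le_sum (f := fun β => |(ε Δ β : ℝ)|) (fun _ _ => abs_nonneg _) hβ
    · rw [Finsupp.notMem_support_iff.1 hβ]
      simpa using hs' Δ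
  · have := (hκ3 Δ φ 0 le_rfl fun β hβ => by simp [h β hβ]).1
    rw [mul_zero, norm_le_zero_iff, sub_eq_zero] at this
    exact Subtype.ext this
  · have := Finset.le_sup (f := R₁) (Finset.mem_univ Δ)
    omega
  · exact mul_le_mul_of_nonneg_right (by linarith [hle Δ, hs Δ]) (sq_nonneg _)

variable {v₀ P ω sec} (L : Loc v₀ P ω sec) (n : ℕ)

namespace Loc

/-- The scale. -/
def s : ℕ := (n + 1) * (3 * L.μ)

variable {n}

/-- The offset of a strip. -/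
def off (τ : E3 Γ × Fin (n + 1)) : ℕ := (n - τ.2) * (3 * L.μ)

/-- The corner of the triangle of a strip. -/
def cor (τ : E3 Γ × Fin (n + 1)) : H Γ := lat v₀ (L.s n) τ.1 (L.off τ) 0

/-- The centre of a strip. -/
def cen (τ : E3 Γ × Fin (n + 1)) : H Γ := lat v₀ (L.s n) τ.1 (L.off τ + L.μ + L.μ) L.μ

/-- The cochain at the centre of a strip. -/
def et (τ : E3 Γ × Fin (n + 1)) (β : H Γ × P.R) : ℤ := L.ε τ.1 ((L.cen τ)⁻¹ * β.1, β.2)

theorem off_le (τ : E3 Γ × Fin (n + 1)) : L.off τ + 3 * L.μ ≤ L.s n := by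
  rw [off, s, ← Nat.succ_mul]
  exact Nat.mul_le_mul_right _ (by omega)

theorem far_cen {τ τ' : E3 Γ × Fin (n + 1)} (h : τ' ≠ τ) {i : ℕ} (j : ℕ) (h1 : L.off τ' ≤ i)
    (h2 : i ≤ L.off τ' + 3 * L.μ) : Far L.μ (lat v₀ (L.s n) τ'.1 i j) (L.cen τ) := by
  have h3 := L.off_le τ
  by_cases hΔ : τ'.1 = τ.1
  · rw [hΔ]
    refine far_same v₀ _ ?_
    have h4 : (τ'.2 : ℕ) ≠ τ.2 := fun h5 => h (Prod.ext hΔ (Fin.ext h5))
    have h5 := τ.2.2
    have h6 := τ'.2.2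
    rcases lt_or_gt_of_ne h4 with h7 | h7
    · have : L.off τ + 3 * L.μ ≤ L.off τ' := by
        rw [off, off, ← Nat.succ_mul]
        exact Nat.mul_le_mul_right _ (by omega)
      omega
    · have : L.off τ' + 3 * L.μ ≤ L.off τ := by
        rw [off, off, ← Nat.succ_mul]
        exact Nat.mul_le_mul_right _ (by omega)
      omega
  · exact far_of_ne v₀ _ _ hΔ (by omega) (by omega) le_rfl

theorem far_par (τ τ' : E3 Γ × Fin (n + 1)) {x : ℕ} (y : ℕ) (hx : x < 3 * L.μ) :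
    Far L.μ (lat v₀ (L.s n) τ'.1 (L.off τ' + x) (y + x)) (L.cen τ) := by
  by_cases h : τ' = τ
  · subst h
    exact far_same v₀ _ (by omega)
  · exact L.far_cen h _ (by omega) (by omega)

theorem et_eq_zero {τ : E3 Γ × Fin (n + 1)} {h k : H Γ} (h1 : Far L.μ h (L.cen τ))
    (h2 : Small L.R k) (r : P.R) : L.et τ (h * k, r) = 0 := by
  by_contra h3
  exact h1.ne h2 (L.ε_small τ.1 _ (Finsupp.mem_support_iff.2 h3)) L.hR (by simp)

theorem et_unique {τ τ' : E3 Γ × Fin (n + 1)} {β : H Γ × P.R} (h : L.et τ β ≠ 0)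
    (h' : L.et τ' β ≠ 0) : τ' = τ := by
  by_contra h1
  have h2 := L.et_eq_zero (L.far_cen h1 L.μ (i := L.off τ' + L.μ + L.μ) (by omega) (by omega))
    (L.ε_small τ'.1 _ (Finsupp.mem_support_iff.2 h')) β.2
  apply h
  rw [← h2]
  congr 1
  ext1
  · simp [cen]
  · rfl

variable (n)

open Classical in
/-- The centre that a face belongs to. -/
def col (β : H Γ × P.R) : Option (E3 Γ × Fin (n + 1)) :=
  if h : ∃ τ, L.et τ β ≠ 0 then some h.choose else none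

/-- The exponent of a face. -/
def eps (β : H Γ × P.R) : ℤ := (L.col n β).elim 0 fun τ => L.et τ β

/-- The path to a face. -/
def Q (β : H Γ × P.R) : FreeGroup P.S :=
  (L.col n β).elim (sec β.1) fun τ => sec (L.cor τ) * sec ((L.cor τ)⁻¹ * β.1)

variable {n}

theorem col_eq_some {β : H Γ × P.R} {τ : E3 Γ × Fin (n + 1)} :
    L.col n β = some τ ↔ L.et τ β ≠ 0 := by
  unfold col
  split_ifs with h
  · rw [Option.some_inj]
    exact ⟨fun h1 => h1 ▸ h.choose_spec, fun h1 => L.et_unique h1 h.choose_spec⟩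
  · simp only [false_iff]
    exact fun h1 => h ⟨τ, h1⟩

theorem col_eq_none {β : H Γ × P.R} (h : ∀ τ : E3 Γ × Fin (n + 1), L.et τ β = 0) :
    L.col n β = none := dif_neg (by simpa using h)

theorem ite_col [DecidableEq (E3 Γ × Fin (n + 1))] (β : H Γ × P.R) (τ : E3 Γ × Fin (n + 1)) :
    (if L.col n β = some τ then L.eps n β else 0) = L.et τ β := by
  split_ifs with h
  · simp [eps, h]
  · exact (not_not.1 fun h1 => h (L.col_eq_some.2 h1)).symm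

theorem Q_spec (hsec : ∀ h, FreeGroup.lift P.gen (sec h) = h) (β : H Γ × P.R) :
    FreeGroup.lift P.gen (L.Q n β) = β.1 := by
  unfold Q
  rcases L.col n β with _ | τ <;> simp [hsec]

theorem norm_presc (x : E3 Γ × Fin (n + 1) → S3) {ρ : ℝ} (hρ : 0 ≤ ρ)
    (hx : ∀ τ, ‖(x τ : ℍ[ℝ]) - 1‖ ≤ ρ) (β : H Γ × P.R) :
    ‖((presc (L.col n) (L.eps n) x β : S3) : ℍ[ℝ]) - 1‖ ≤ L.D * ρ := by
  unfold presc eps
  rcases L.col n β with _ | τ
  · simpa using mul_nonneg L.hD0 hρ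
  · exact (norm_zpow_sub _ _).trans (mul_le_mul (L.hD _ _) (hx τ) (norm_nonneg _) L.hD0)

variable [Fintype V] (n)

open Classical in
/-- The faces that are used. -/
def F0 : Finset (H Γ × P.R) :=
  Finset.univ.biUnion fun τ : E3 Γ × Fin (n + 1) =>
    (L.F τ.1).image (fun β => (L.cor τ * β.1, β.2)) ∪
      (Finset.range (3 * L.μ) ×ˢ Finset.range (L.off τ)).biUnion fun q =>
        (L.Fκ τ.1).image fun β => (lat v₀ (L.s n) τ.1 (L.off τ + q.1) (q.2 + q.1) * β.1, β.2)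

variable {n}

theorem mem_F0 (τ : E3 Γ × Fin (n + 1)) {β : H Γ × P.R} (hβ : β ∈ L.F τ.1) :
    (L.cor τ * β.1, β.2) ∈ L.F0 n := by
  classical
  simp only [F0, Finset.mem_biUnion, Finset.mem_union, Finset.mem_image]
  exact ⟨τ, Finset.mem_univ _, .inl ⟨β, hβ, rfl⟩⟩

theorem mem_F0' (τ : E3 Γ × Fin (n + 1)) {x y : ℕ} (hx : x < 3 * L.μ) (hy : y < L.off τ)
    {β : H Γ × P.R} (hβ : β ∈ L.Fκ τ.1) :
    (lat v₀ (L.s n) τ.1 (L.off τ + x) (y + x) * β.1, β.2) ∈ L.F0 n := by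
  classical
  simp only [F0, Finset.mem_biUnion, Finset.mem_union, Finset.mem_image]
  exact ⟨τ, Finset.mem_univ _, .inr ⟨(x, y), by simp [hx, hy], β, hβ, rfl⟩⟩

variable (hP : P.Asph) (hω : ∀ w, FreeGroup.lift P.gen (ω w) = FreeGroup.lift (gen0 Γ v₀) w)
  (hsec : ∀ h, FreeGroup.lift P.gen (sec h) = h)

omit [Fintype V] in
include hP hω in
/-- The chain of a triangle does not meet the other centres. -/
theorem et_tri {τ τ' : E3 Γ × Fin (n + 1)} (h : τ' ≠ τ) {β : H Γ × P.R}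
    (hβ : β ∈ (L.mT τ'.1).support) : L.et τ (L.cor τ' * β.1, β.2) = 0 := by
  obtain ⟨z, hz, β', hβ', rfl⟩ := fill_support hP ((fill_tri _ _ _ _).map ω hω)
    (by rw [hω, E3.cell_null]) (L.mκ_d2 τ'.1) (L.mT_d2 τ'.1) β hβ
  obtain ⟨p, hp, rfl⟩ := Multiset.mem_map.1 hz
  rw [mem_triM] at hp
  simp only [one_mul, ← mul_assoc (L.cor τ')]
  rw [cor, mul_assoc (lat _ _ _ _ _), lat_mul_tri]
  exact L.et_eq_zero (L.far_cen h _ (by omega) (by omega))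
    (L.Fκ_small _ _ (L.mκ_sub _ hβ')) _

omit [Fintype V] in
theorem et_cor (τ : E3 Γ × Fin (n + 1)) (β : H Γ × P.R) :
    L.et τ (L.cor τ * β.1, β.2) = L.ε τ.1 ((FreeGroup.lift (gen0 Γ v₀) τ.1.a ^ L.μ *
      FreeGroup.lift (gen0 Γ v₀) (τ.1.a * τ.1.b) ^ L.μ)⁻¹ * β.1, β.2) := by
  rw [et, cen, ← lat_mul_tri, cor]
  congr 2
  group

include hω hsec in
theorem hol_par {φ : H Γ × P.S → S3} {x : E3 Γ × Fin (n + 1) → S3}
    (h : ∀ β ∈ L.F0 n, P.curv (L.Q n) φ β = presc (L.col n) (L.eps n) x β)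
    (τ : E3 Γ × Fin (n + 1)) :
    hol P.gen φ (L.cor τ) (ω (parW τ.1.a τ.1.b (3 * L.μ) (L.off τ))) = 1 := by
  obtain ⟨Z, h1, h2⟩ := fill_par (gen0 Γ v₀) τ.1.a τ.1.b (3 * L.μ) (L.off τ)
  refine (h1.map ω hω).flat (by rw [hω, E3.cell_null]) φ _ fun z hz => ?_
  obtain ⟨a, ha, b, hb, rfl⟩ := h2 z hz
  rw [cor, lat_mul_par, ← mul_one (lat _ _ _ _ _), ← hol_translate]
  refine L.Fκ_flat _ _ fun β hβ => ?_
  obtain ⟨c, hc⟩ := curv_translate (L.Q_spec (n := n) hsec) (Q' := fun β => sec β.1)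
    (fun β => hsec _) φ (lat v₀ (L.s n) τ.1 (L.off τ + a) (b + a)) β
  rw [hc, h _ (L.mem_F0' τ ha hb hβ), presc,
    L.col_eq_none fun τ' => L.et_eq_zero (L.far_par τ' τ b ha) (L.Fκ_small _ _ hβ) _]
  simp

include hP hω hsec in
theorem hol_tri {φ : H Γ × P.S → S3} {x : E3 Γ × Fin (n + 1) → S3} {ρ : ℝ} (hρ : 0 ≤ ρ)
    (hx : ∀ τ, ‖(x τ : ℍ[ℝ]) - 1‖ ≤ ρ)
    (h : ∀ β ∈ L.F0 n, P.curv (L.Q n) φ β = presc (L.col n) (L.eps n) x β)
    (τ : E3 Γ × Fin (n + 1)) : ∃ g : S3,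
    ‖((hol P.gen φ (L.cor τ) (ω (triW τ.1.a τ.1.b (3 * L.μ))) : S3) : ℍ[ℝ]) -
      ((g * x τ * g⁻¹ : S3) : ℍ[ℝ])‖ ≤ 3 * L.C * L.D ^ 2 * ρ ^ 2 := by
  set φ' : H Γ × P.S → S3 := fun e => φ (L.cor τ * e.1, e.2) with hφ'
  set g := (hol P.gen φ 1 (sec (L.cor τ)))⁻¹ with hg
  set y := g * x τ * g⁻¹ with hy
  refine ⟨g, ?_⟩
  have h1 := L.exp τ.1 φ' (L.D * ρ) (mul_nonneg L.hD0 hρ) fun β hβ => by
    obtain ⟨c, hc⟩ := curv_translate (L.Q_spec (n := n) hsec) (Q' := fun β => sec β.1)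
      (fun β => hsec _) φ (L.cor τ) β
    rw [hc, norm_conj_sub, h _ (L.mem_F0 τ hβ)]
    exact L.norm_presc x hρ hx _
  rw [hφ', hol_translate, mul_one, ← hφ'] at h1
  have h2 : ∀ β ∈ (L.mT τ.1).support, P.curv (fun β => sec β.1) φ' β =
      y ^ L.et τ (L.cor τ * β.1, β.2) := by
    intro β hβ
    have h3 := h _ (L.mem_F0 τ (L.mT_sub _ hβ))
    by_cases h4 : L.et τ (L.cor τ * β.1, β.2) = 0
    · obtain ⟨c, hc⟩ := curv_translate (L.Q_spec (n := n) hsec) (Q' := fun β => sec β.1)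
        (fun β => hsec _) φ (L.cor τ) β
      rw [hc, h3, h4, presc, L.col_eq_none fun τ' => ?_]
      · simp
      · by_cases h5 : τ = τ'
        · exact h5 ▸ h4
        · exact L.et_tri hP hω h5 hβ
    · have h5 := L.col_eq_some.2 h4
      rw [curv_eq (L.Q_spec hsec)] at h3
      simp only [presc, eps, Q, h5, Option.elim_some, inv_mul_cancel_left, hol_mul, hsec,
        one_mul] at h3
      rw [curv_eq (fun β => hsec _), hφ', hol_translate, hol_translate, mul_one, hy, conj_zpow,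
        ← h3, hg]
      group
  have h3 : ‖(y : ℍ[ℝ]) - 1‖ ≤ ρ := by rw [hy, norm_conj_sub]; exact hx τ
  have h4 : ‖Finsupp.linearCombination ℤ
      (fun β => ((P.curv (fun β => sec β.1) φ' β : S3) : ℍ[ℝ]) - 1) (L.mT τ.1) -
        ((y : ℍ[ℝ]) - 1)‖ ≤ 2 * L.C * L.D ^ 2 * ρ ^ 2 := by
    have h5 := L.mT_pair τ.1
    simp only [← L.et_cor] at h5
    have h6 : (y : ℍ[ℝ]) - 1 = Finsupp.linearCombination ℤ
        (fun β => L.et τ (L.cor τ * β.1, β.2) • ((y : ℍ[ℝ]) - 1)) (L.mT τ.1) := by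
      conv_lhs => rw [← one_smul ℤ ((y : ℍ[ℝ]) - 1), ← h5]
      simp only [Finsupp.linearCombination_apply, Finsupp.sum, Finset.sum_smul, smul_smul,
        smul_eq_mul]
    rw [h6]
    simp only [Finsupp.linearCombination_apply, Finsupp.sum]
    rw [← Finset.sum_sub_distrib]
    refine (norm_sum_le _ _).trans ?_
    calc _ ≤ ∑ β ∈ (L.mT τ.1).support, |(L.mT τ.1 β : ℝ)| * (2 * L.D ^ 2 * ρ ^ 2) := by
          refine Finset.sum_le_sum fun β hβ => ?_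
          rw [← smul_sub, h2 β hβ, ← Int.cast_smul_eq_zsmul ℝ, norm_smul, Real.norm_eq_abs]
          refine mul_le_mul_of_nonneg_left ((norm_zpow_sub_sub _ _).trans ?_) (abs_nonneg _)
          have h7 := L.hD τ.1 ((L.cen τ)⁻¹ * (L.cor τ * β.1), β.2)
          rw [← sq_abs]
          exact mul_le_mul (mul_le_mul_of_nonneg_left (pow_le_pow_left₀ (abs_nonneg _) h7 2)
            zero_le_two) (pow_le_pow_left₀ (norm_nonneg _) h3 2) (sq_nonneg _) (by positivity)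
      _ ≤ L.C * (2 * L.D ^ 2 * ρ ^ 2) := by
          rw [← Finset.sum_mul]
          exact mul_le_mul_of_nonneg_right (L.mT_le _) (by positivity)
      _ = _ := by ring
  have h5 := norm_add_le_of_le h1 h4
  rw [sub_add_sub_cancel, sub_sub_sub_cancel_right] at h5
  exact h5.trans_eq (by ring)

omit [Fintype V] in
include hP hω in
theorem pair_face [DecidableEq (E3 Γ × Fin (n + 1))] (τ τ' : E3 Γ × Fin (n + 1))
    {m : H Γ × P.R →₀ ℤ} (hm : P.d2 m = chain P.gen (L.cor τ')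
      (ω (triW τ'.1.a τ'.1.b (3 * L.μ)) * ω (parW τ'.1.a τ'.1.b (3 * L.μ) (L.off τ')))) :
    Finsupp.linearCombination ℤ (L.et τ) m = if τ = τ' then 1 else 0 := by
  obtain ⟨Z, h1, h2⟩ := fill_par (gen0 Γ v₀) τ'.1.a τ'.1.b (3 * L.μ) (L.off τ')
  have h3 : P.d2 (m - tr (L.cor τ') (L.mT τ'.1)) =
      chain P.gen (L.cor τ') (ω (parW τ'.1.a τ'.1.b (3 * L.μ) (L.off τ'))) := by
    rw [map_sub, hm, chain_mul, hω, (fill_tri _ _ _ _).null (τ'.1.cell_null v₀), P.d2_tr,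
      L.mT_d2, tr_chain]
    simp
  have h4 : Finsupp.linearCombination ℤ (L.et τ) (m - tr (L.cor τ') (L.mT τ'.1)) = 0 := by
    refine lc_eq_zero fun β hβ => ?_
    obtain ⟨z, hz, β', hβ', rfl⟩ := fill_support hP (h1.map ω hω)
      (by rw [hω, E3.cell_null]) (L.mκ_d2 τ'.1) h3 β hβ
    obtain ⟨a, ha, b, hb, rfl⟩ := h2 z hz
    rw [cor, lat_mul_par]
    exact L.et_eq_zero (L.far_par τ τ' b ha) (L.Fκ_small _ _ (L.mκ_sub _ hβ')) _
  rw [map_sub, sub_eq_zero] at h4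
  rw [h4, lc_tr]
  split_ifs with h
  · subst h
    simp only [L.et_cor]
    exact L.mT_pair _
  · exact lc_eq_zero fun β hβ => L.et_tri hP hω (Ne.symm h) hβ

end Loc

/-- The nested paths in a triangle. -/
def dl (n : ℕ) (Δ : E3 Γ) (j : ℕ) : List ((E2 Γ ⊕ E3 Γ × Fin n) × Bool) :=
  if j = 0 then [(.inl Δ.e1, true), (.inl Δ.e2, true)]
  else if h : j - 1 < n then [(.inr (Δ, ⟨j - 1, h⟩), true)] else [(.inl Δ.e3, true)]

/-- The origin of an edge. -/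
def oK {n : ℕ} : E2 Γ ⊕ E3 Γ × Fin n → V := Sum.elim (fun e => e.1.1) fun e => e.1.1.1

/-- The end of an edge. -/
def tK {n : ℕ} : E2 Γ ⊕ E3 Γ × Fin n → V := Sum.elim (fun e => e.1.2) fun e => e.1.1.2.2

theorem dl_path (n : ℕ) (Δ : E3 Γ) (j : ℕ) : IsPath oK tK Δ.1.1 (dl n Δ j) Δ.1.2.2 := by
  unfold dl
  split_ifs with h1 h2
  · exact .pos (Sum.inl Δ.e1) _ _ (.pos (Sum.inl Δ.e2) _ _ (.nil _))
  · exact .pos (Sum.inr (Δ, (⟨j - 1, h2⟩ : Fin n))) _ _ (.nil _)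
  · exact .pos (Sum.inl Δ.e3) _ _ (.nil _)

theorem lift_dl {G : Type} [Group G] {n : ℕ} (f : E2 Γ → G) (g : E3 Γ → ℕ → G)
    (h0 : ∀ Δ, g Δ 0 = f Δ.e1 * f Δ.e2) (h1 : ∀ Δ, g Δ (n + 1) = f Δ.e3) (Δ : E3 Γ) {j : ℕ}
    (hj : j ≤ n + 1) :
    FreeGroup.lift (Sum.elim f fun e : E3 Γ × Fin n => g e.1 (e.2 + 1))
      (FreeGroup.mk (dl n Δ j)) = g Δ j := by
  unfold dl
  split_ifs with h2 h3
  · simp [h2, h0]
  · simp [Nat.sub_add_cancel (Nat.pos_of_ne_zero h2)]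
  · obtain rfl : j = n + 1 := by omega
    simp [h1]

theorem lift_bd {G : Type} [Group G] {n : ℕ} (f : E2 Γ → G) (g : E3 Γ → ℕ → G)
    (h0 : ∀ Δ, g Δ 0 = f Δ.e1 * f Δ.e2) (h1 : ∀ Δ, g Δ (n + 1) = f Δ.e3)
    (τ : E3 Γ × Fin (n + 1)) :
    FreeGroup.lift (Sum.elim f fun e : E3 Γ × Fin n => g e.1 (e.2 + 1))
      (FreeGroup.mk (dl n τ.1 τ.2 ++ FreeGroup.invRev (dl n τ.1 (τ.2 + 1)))) =
        g τ.1 τ.2 * (g τ.1 (τ.2 + 1))⁻¹ := by
  have := τ.2.2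
  rw [← FreeGroup.mul_mk, ← FreeGroup.inv_mk, map_mul, map_inv, lift_dl f g h0 h1 _ (by omega),
    lift_dl f g h0 h1 _ (by omega)]

/-- The words of the nested paths. -/
def dw (m n : ℕ) (Δ : E3 Γ) (j : ℕ) : FreeGroup (Bool × V) :=
  Δ.a ^ ((n + 1 - j) * m) * Δ.b ^ ((n + 1 - j) * m) * (Δ.a * Δ.b) ^ (j * m)

theorem dw_mul_inv (m n : ℕ) (Δ : E3 Γ) {j : ℕ} (hj : j ≤ n) :
    dw m n Δ j * (dw m n Δ (j + 1))⁻¹ = Δ.a ^ ((n - j) * m) *
      (triW Δ.a Δ.b m * parW Δ.a Δ.b m ((n - j) * m)) * (Δ.a ^ ((n - j) * m))⁻¹ := by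
  rw [dw, dw, Nat.add_sub_add_right, Nat.succ_sub hj, Nat.succ_mul, Nat.succ_mul, triW, parW,
    pow_add, add_comm _ m, pow_add, add_comm _ m, pow_add]
  generalize (Δ.a * Δ.b) ^ m = c
  generalize (Δ.a * Δ.b) ^ (j * m) = d
  group

theorem pos_dw (v₀ : V) (m n : ℕ) (Δ : E3 Γ) {j : ℕ} (hj : j ≤ n + 1) :
    pos v₀ Γ ((n + 1) * m) Δ.1.1 * FreeGroup.lift (gen0 Γ v₀) (dw m n Δ j) =
      pos v₀ Γ ((n + 1) * m) Δ.1.2.2 := by
  rw [← pos_mul v₀ _ Δ.2.2.2.2.2, ← eW_mul _ Δ.1.2.1, dw, map_mul, map_mul, map_pow, map_pow,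
    map_pow, ← (Δ.commute v₀).mul_pow, ← map_mul, ← pow_add, ← add_mul, Nat.sub_add_cancel hj]
  rfl

theorem conn_path {n : ℕ} {u v : V} (w : Γ.Walk u v) :
    ∃ l : List ((E2 Γ ⊕ E3 Γ × Fin n) × Bool), IsPath oK tK u l v := by
  induction w with
  | nil => exact ⟨_, .nil _⟩
  | @cons a b c h _ ih =>
    obtain ⟨l, hl⟩ := ih
    rcases lt_or_gt_of_ne h.ne with h1 | h1
    · exact ⟨_, .pos (Sum.inl ⟨(a, b), h1, h⟩) l c hl⟩
    · exact ⟨_, .neg (Sum.inl ⟨(b, a), h1, h.symm⟩) l c hl⟩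

end Geom

open Geom in
theorem geomStmt (h1 : ExpandStmt) (h2 : LocalStmt) (h3 : PsiStmt) : GeomStmt := by
  intro V _ _ Γ _ v₀ D hac P hP
  classical
  choose sec hsec using hP.surj
  let ω : FreeGroup (Bool × V) →* FreeGroup P.S := FreeGroup.lift fun s => sec (gen0 Γ v₀ s)
  have hω : ∀ w, FreeGroup.lift P.gen (ω w) = FreeGroup.lift (gen0 Γ v₀) w := fun w =>
    DFunLike.congr_fun (FreeGroup.ext_hom ((FreeGroup.lift P.gen).comp ω)
      (FreeGroup.lift (gen0 Γ v₀)) (by simp [ω, hsec])) w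
  obtain ⟨L⟩ := exists_loc v₀ P ω sec h1 h2 hac hP hω hsec
  have hC := L.hC
  refine ⟨3 * L.C * L.D ^ 2 + 1, by positivity, fun η hη => ?_⟩
  obtain ⟨n, ψ, Λ, c1, c2, z1, z2, o1, o2, e0, e1, hs⟩ := h3 V Γ D η hη
  have hw : ∀ τ : E3 Γ × Fin (n + 1), FreeGroup.lift
      (Sum.elim (fun e : E2 Γ => ω (eW e.1.1 e.1.2 ^ L.s n))
        fun e : E3 Γ × Fin n => ω (dw (3 * L.μ) n e.1 (e.2 + 1)))
      (FreeGroup.mk (dl n τ.1 τ.2 ++ FreeGroup.invRev (dl n τ.1 (τ.2 + 1)))) =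
      ω (τ.1.a ^ L.off τ) * (ω (triW τ.1.a τ.1.b (3 * L.μ)) *
        ω (parW τ.1.a τ.1.b (3 * L.μ) (L.off τ))) * (ω (τ.1.a ^ L.off τ))⁻¹ := by
    intro τ
    rw [lift_bd _ (fun Δ j => ω (dw (3 * L.μ) n Δ j)), ← map_inv, ← map_mul,
      dw_mul_inv _ _ _ (Nat.lt_succ_iff.1 τ.2.2)]
    · simp [Loc.off]
    · intro Δ
      simp [dw, Loc.s, E3.a, E3.b, E3.e1, E3.e2]
    · intro Δ
      simp [dw, Loc.s, E3.a, E3.b, E3.e3, eW_mul]
  have hn : ∀ τ : E3 Γ × Fin (n + 1), FreeGroup.lift P.gen (ω (triW τ.1.a τ.1.b (3 * L.μ)) *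
      ω (parW τ.1.a τ.1.b (3 * L.μ) (L.off τ))) = 1 := by
    intro τ
    obtain ⟨Z, hZ, -⟩ := fill_par (gen0 Γ v₀) τ.1.a τ.1.b (3 * L.μ) (L.off τ)
    rw [map_mul, hω, hω, (fill_tri _ _ _ _).null (τ.1.cell_null v₀), hZ.null (τ.1.cell_null v₀),
      one_mul]
  have hc : ∀ τ : E3 Γ × Fin (n + 1),
      pos v₀ Γ (L.s n) τ.1.1.1 * FreeGroup.lift P.gen (ω (τ.1.a ^ L.off τ)) = L.cor τ := by
    intro τ
    simp [hω, Loc.cor, lat]
  refine ⟨{ V := V, E := E2 Γ ⊕ E3 Γ × Fin n, T := E3 Γ × Fin (n + 1)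
            card := ?_, v0 := v₀, o := oK, t := tK
            conn := fun v => (D.conn v₀ v).elim conn_path
            pos := pos v₀ Γ (L.s n)
            word := Sum.elim (fun e => ω (eW e.1.1 e.1.2 ^ L.s n))
              fun e => ω (dw (3 * L.μ) n e.1 (e.2 + 1))
            pos_word := ?_
            base := fun τ => τ.1.1.1
            bd := fun τ => dl n τ.1 τ.2 ++ FreeGroup.invRev (dl n τ.1 (τ.2 + 1))
            bd_path := fun τ => path_append (dl_path _ _ _) (path_invRev (dl_path _ _ _))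
            Q := L.Q n, Q_spec := L.Q_spec hsec, col := L.col n, eps := L.eps n, F0 := L.F0 n
            key := fun φ x ρ hρ hx h τ => ?_
            lin := fun τ' m hm τ => ?_
            ψ := fun s => Sum.elim (ψ s) fun e => Λ s e.1 (e.2 + 1)
            ψ_cont := ?_, ψ_zero := ?_
            ψ_small := fun s _ τ => ?_
            ψ_flat := fun τ => ?_
            ψ_ne := ?_ }⟩
  · have := D.card
    simp only [Fintype.card_sum, Fintype.card_prod, Fintype.card_fin]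
    rw [mul_add]
    convert congrArg (· + Fintype.card (E3 Γ) * n) this using 1 <;> ring
  · rintro (e | e)
    · simp only [Sum.elim_inl, hω, map_pow]
      exact pos_mul v₀ _ e.2.2
    · simp only [Sum.elim_inr, hω]
      exact pos_dw v₀ _ _ _ (by omega)
  · obtain ⟨g, hg⟩ := L.hol_tri hP hω hsec hρ hx h τ
    rw [hw, hol_conj _ _ _ _ _ (hn τ), hc, hol_mul, hω,
      (fill_tri _ _ _ _).null (τ.1.cell_null v₀), mul_one, L.hol_par hω hsec h, mul_one]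
    set c := hol P.gen φ (pos v₀ Γ (L.s n) τ.1.1.1) (ω (τ.1.a ^ L.off τ))
    refine ⟨c * g, ?_⟩
    have h5 : c * g * x τ * (c * g)⁻¹ = c * (g * x τ * g⁻¹) * c⁻¹ := by group
    rw [h5]
    simp only [Submonoid.coe_mul _ _ c⁻¹, Submonoid.coe_mul _ c]
    rw [← sub_mul, ← mul_sub, norm_mul, norm_mul, S3.norm_coe, S3.norm_coe, one_mul, mul_one]
    exact hg.trans (by nlinarith [sq_nonneg ρ])
  · rw [hw, chain_conj _ _ _ _ (hn τ'), hc] at hm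
    simp only [L.ite_col]
    exact L.pair_face hP hω τ τ' hm
  · rintro (e | e)
    · exact c1 e
    · exact c2 _ _
  · rintro (e | e)
    · exact z1 e
    · exact z2 _ _
  · rw [lift_bd _ (Λ s) (e0 s) (e1 s)]
    exact hs s _ _ (Nat.lt_succ_iff.1 τ.2.2)
  · rw [lift_bd _ (Λ 1) (e0 1) (e1 1), o2, o2, mul_inv_cancel]
  · rintro ⟨γ, hγ⟩
    exact D.ne ⟨γ, fun u v h h' => (o1 ⟨(u, v), h, h'⟩).symm.trans (hγ (Sum.inl ⟨(u, v), h, h'⟩))⟩

end Crest.Agent.R197
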