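import Crest.Agent.R197.TopDefs

/-!
# Row 197: paths and flat connections on a graph
-/

set_option autoImplicit false

noncomputable section

namespace Crest.Agent.R197

open unitInterval _root_.Topology Set Filter

namespace GraphTop

variable {Z : Type} [TopologicalSpace Z] (K : Graph Z)

theorem isOpen_of {B : Set Z} (h : ∀ e, IsOpen (K.edge e ⁻¹' B)) : IsOpen B :=
  isClosed_compl_iff.1 (K.closed _ fun e => (h e).isClosed_compl)

theorem continuous_of {Y : Type} [TopologicalSpace Y] {f : Z → Y}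
    (h : ∀ e, Continuous fun r => f (K.edge e r)) : Continuous f :=
  continuous_def.2 fun _ hO => isOpen_of K fun e => (h e).isOpen_preimage _ hO

theorem tri (r : I) : r = 0 ∨ r = 1 ∨ (0 < r ∧ r < 1) := by
  rcases eq_or_lt_of_le (show (0 : I) ≤ r from r.2.1) with h | h
  · exact Or.inl h.symm
  · rcases eq_or_lt_of_le (show r ≤ 1 from r.2.2) with h' | h'
    · exact Or.inr (Or.inl h')
    · exact Or.inr (Or.inr ⟨h, h'⟩)

theorem isOpen_image (e : K.E) {O : Set I} (hO : IsOpen O) (h : ∀ r ∈ O, 0 < r ∧ r < 1) :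
    IsOpen (K.edge e '' O) := by
  refine isOpen_of K fun e' => ?_
  by_cases he : e = e'
  · subst he
    convert hO using 1
    ext r'
    exact ⟨fun ⟨r, hr, h1⟩ => (K.edge_inj e e r r' (h r hr).1 (h r hr).2 h1).2 ▸ hr,
      fun hr => ⟨r', hr, rfl⟩⟩
  · convert isOpen_empty using 1
    ext r'
    exact ⟨fun ⟨r, hr, h1⟩ => he (K.edge_inj e e' r r' (h r hr).1 (h r hr).2 h1).1, False.elim⟩

/-! ### The potential -/

/-- The midpoint of the interval. -/
def hf : I := ⟨1 / 2, by norm_num, by norm_num⟩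

theorem hf_pos : 0 < hf := by change (0 : ℝ) < 1 / 2; norm_num
theorem hf_lt : hf < 1 := by change (1 / 2 : ℝ) < 1; norm_num

open Classical in
/-- The jump across the midpoints. -/
def jump {G : Type} [Group G] (lam : K.E → G) (z y : Z) : G :=
  if h : ∃ e, z = K.edge e hf ∧ y ∈ K.edge e '' Ioo hf 1 then lam h.choose else 1

theorem jump_of_not {G : Type} [Group G] (lam : K.E → G) {z : Z} (h : ∀ e, z ≠ K.edge e hf) (y : Z) :
    jump K lam z y = 1 := dif_neg fun ⟨e, he, _⟩ => h e he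

open Classical in
theorem jump_mid {G : Type} [Group G] (lam : K.E → G) (e : K.E) {r : I} (h0 : 0 < r) (h1 : r < 1) :
    jump K lam (K.edge e hf) (K.edge e r) = if hf < r then lam e else 1 := by
  unfold jump
  by_cases hr : hf < r
  · have h : ∃ e', K.edge e hf = K.edge e' hf ∧ K.edge e r ∈ K.edge e' '' Ioo hf 1 :=
      ⟨e, rfl, r, ⟨hr, h1⟩, rfl⟩
    rw [dif_pos h, if_pos hr, ← (K.edge_inj _ _ _ _ hf_pos hf_lt h.choose_spec.1).1]
  · rw [if_neg hr, dif_neg]
    rintro ⟨e', -, r', hr', h2⟩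
    exact hr ((K.edge_inj _ _ _ _ h0 h1 h2.symm).2 ▸ hr'.1)

theorem isClosed_mid : IsClosed {z | ∃ e, z = K.edge e hf} := by
  refine K.closed _ fun e => ?_
  convert isClosed_singleton (x := hf) using 1
  ext r
  exact ⟨fun ⟨e', h⟩ => (K.edge_inj _ _ _ _ hf_pos hf_lt h.symm).2.symm,
    fun h => ⟨e, by rw [mem_singleton_iff.1 h]⟩⟩

theorem not_mid (e : K.E) {r : I} (hr : r ≠ hf) (e' : K.E) : K.edge e r ≠ K.edge e' hf :=
  fun h => hr (K.edge_inj _ _ _ _ hf_pos hf_lt h.symm).2.symm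

/-- The connection. -/
def pot {G : Type} [Group G] (lam : K.E → G) : Pot Z G where
  u := jump K lam
  self z := by
    by_cases h : ∃ e, z = K.edge e hf
    · obtain ⟨e, rfl⟩ := h
      rw [jump_mid K lam e hf_pos hf_lt, if_neg (lt_irrefl _)]
    · exact jump_of_not K lam (fun e he => h ⟨e, he⟩) z
  loc z := by
    by_cases h : ∃ e, z = K.edge e hf
    · obtain ⟨e, rfl⟩ := h
      have h1 := (isOpen_image K e isOpen_Ioo (O := Ioo 0 1) fun r hr => hr).mem_nhds
        ⟨hf, ⟨hf_pos, hf_lt⟩, rfl⟩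
      filter_upwards [h1]
      rintro _ ⟨r, hr, rfl⟩
      rcases lt_trichotomy r hf with h2 | rfl | h2
      · have h3 := (isOpen_image K e isOpen_Ioo (O := Ioo 0 hf) fun r hr =>
          ⟨hr.1, hr.2.trans hf_lt⟩).mem_nhds ⟨r, ⟨hr.1, h2⟩, rfl⟩
        filter_upwards [h3]
        rintro _ ⟨r', hr', rfl⟩
        rw [jump_mid K lam e hr.1 hr.2, jump_mid K lam e hr'.1 (hr'.2.trans hf_lt),
          jump_of_not K lam (not_mid K e h2.ne), if_neg h2.not_gt, if_neg hr'.2.not_gt, one_mul]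
      · refine Eventually.of_forall fun y => ?_
        rw [jump_mid K lam e hf_pos hf_lt, if_neg (lt_irrefl _), one_mul]
      · have h3 := (isOpen_image K e isOpen_Ioo (O := Ioo hf 1) fun r hr =>
          ⟨hf_pos.trans hr.1, hr.2⟩).mem_nhds ⟨r, ⟨h2, hr.2⟩, rfl⟩
        filter_upwards [h3]
        rintro _ ⟨r', hr', rfl⟩
        rw [jump_mid K lam e hr.1 hr.2, jump_mid K lam e (hf_pos.trans hr'.1) hr'.2,
          jump_of_not K lam (not_mid K e h2.ne'), if_pos h2, if_pos hr'.1, mul_one]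
    · filter_upwards [(isClosed_mid K).isOpen_compl.mem_nhds h] with y hy
      refine Eventually.of_forall fun y' => ?_
      rw [jump_of_not K lam (fun e he => h ⟨e, he⟩), jump_of_not K lam (fun e he => h ⟨e, he⟩),
        jump_of_not K lam (fun e he => hy ⟨e, he⟩), one_mul]

/-! ### The deformation towards the vertices -/

/-- The deformation of the interval. -/
def ph (s r : I) : I := projIcc 0 1 zero_le_one ((1 - s) * r + s * (3 * r - 1))

theorem continuous_ph : Continuous fun p : I × I => ph p.1 p.2 :=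
  continuous_projIcc.comp (by fun_prop)

theorem ph_zero_left (r : I) : ph 0 r = r := by simp [ph]

theorem ph_zero_right (s : I) : ph s 0 = 0 :=
  projIcc_of_le_left _ (by simpa using s.2.1)

theorem ph_one_right (s : I) : ph s 1 = 1 :=
  projIcc_of_right_le _ (by have := s.2.1; simp only [Icc.coe_one]; linarith)

theorem ph_low {r : I} (h : (r : ℝ) < 1 / 3) : ph 1 r = 0 :=
  projIcc_of_le_left _ (by simp only [Icc.coe_one]; linarith)

theorem ph_high {r : I} (h : 2 / 3 < (r : ℝ)) : ph 1 r = 1 :=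
  projIcc_of_right_le _ (by simp only [Icc.coe_one]; linarith)

open Classical in
/-- The deformation of the graph. -/
def df (s : I) (z : Z) : Z :=
  if h : ∃ p : K.E × I, z = K.edge p.1 p.2 then K.edge h.choose.1 (ph s h.choose.2) else z

theorem ph_end (s : I) {r : I} (h : ¬ (0 < r ∧ r < 1)) : ph s r = r := by
  rcases tri r with rfl | rfl | h'
  · exact ph_zero_right s
  · exact ph_one_right s
  · exact absurd h' h

theorem df_edge (s : I) (e : K.E) (r : I) : df K s (K.edge e r) = K.edge e (ph s r) := by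
  have h : ∃ p : K.E × I, K.edge e r = K.edge p.1 p.2 := ⟨(e, r), rfl⟩
  unfold df
  rw [dif_pos h]
  have h1 := h.choose_spec
  generalize h.choose = p at h1
  obtain ⟨e', r'⟩ := p
  by_cases hr : 0 < r ∧ r < 1
  · obtain ⟨rfl, rfl⟩ := K.edge_inj _ _ _ _ hr.1 hr.2 h1
    rfl
  · by_cases hr' : 0 < r' ∧ r' < 1
    · obtain ⟨rfl, rfl⟩ := K.edge_inj _ _ _ _ hr'.1 hr'.2 h1.symm
      rfl
    · rw [ph_end s hr, ph_end s hr']
      exact h1.symm

theorem df_vtx (s : I) (v : K.V) : df K s (K.vtx v) = K.vtx v := by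
  by_cases h : ∃ p : K.E × I, K.vtx v = K.edge p.1 p.2
  · obtain ⟨⟨e, r⟩, h⟩ := h
    rw [h, df_edge, ph_end s fun hr => K.edge_ne e r v hr.1 hr.2 h.symm]
  · exact dif_neg h

theorem df_zero (z : Z) : df K 0 z = z := by
  rcases K.cover z with ⟨v, rfl⟩ | ⟨e, r, rfl⟩
  · exact df_vtx K 0 v
  · rw [df_edge, ph_zero_left]

theorem continuous_df_track (z : Z) : Continuous fun s => df K s z := by
  rcases K.cover z with ⟨v, rfl⟩ | ⟨e, r, rfl⟩
  · simp only [df_vtx]; exact continuous_const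
  · simp only [df_edge]
    exact (K.edge e).continuous.comp (continuous_ph.comp (continuous_id.prodMk continuous_const))

theorem continuous_df : Continuous fun p : Z × I => df K p.2 p.1 := by
  let F : Z → C(I, Z) := fun z => ⟨fun s => df K s z, continuous_df_track K z⟩
  have hF : Continuous F := continuous_of K fun e => by
    let g : C(I × I, Z) := ⟨fun p => K.edge e (ph p.2 p.1),
      (K.edge e).continuous.comp (continuous_ph.comp continuous_swap)⟩
    convert g.curry.continuous using 1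
    ext r s
    exact df_edge K s e r
  exact ContinuousMap.continuous_uncurry_of_continuous ⟨F, hF⟩

/-- The end of the deformation. -/
def rho : C(Z, Z) :=
  ⟨df K 1, (continuous_df K).comp (continuous_id.prodMk continuous_const)⟩

theorem anchor : True := by
  have := @hf.eq_1
  have := @jump.eq_1
  have := @pot.eq_1
  have := @ph.eq_1
  have := @df.eq_1
  have := @rho.eq_1
  trivial

theorem rho_edge (e : K.E) (r : I) : rho K (K.edge e r) = K.edge e (ph 1 r) := df_edge K 1 e r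

theorem rho_vtx (v : K.V) : rho K (K.vtx v) = K.vtx v := df_vtx K 1 v

/-! ### Edge paths -/

variable {K}

theorem append {a b c : K.V} {w w' : List (K.E × Bool)} {ξ : PQ (K.vtx a) (K.vtx b)}
    {ζ : PQ (K.vtx b) (K.vtx c)} (h : K.EP a w b ξ) (h' : K.EP b w' c ζ) :
    K.EP a (w ++ w') c (ξ.trans ζ) := by
  induction h with
  | nil v => rw [Path.Homotopic.Quotient.refl_trans]; exact h'
  | pos e w v ξ _ ih =>
    rw [Path.Homotopic.Quotient.trans_assoc]
    exact .pos e _ _ _ (ih h')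
  | neg e w v ξ _ ih =>
    rw [Path.Homotopic.Quotient.trans_assoc]
    exact .neg e _ _ _ (ih h')

theorem ep_const {a b : K.V} (p : Path (K.vtx a) (K.vtx b)) (h : ∀ s, p s = K.vtx a) :
    K.EP a [] b (Path.Homotopic.Quotient.mk p) := by
  obtain rfl : b = a := K.vtx_inj (p.target.symm.trans (h 1))
  obtain rfl : p = Path.refl _ := Path.ext (funext h)
  exact .nil _

theorem homotopic_of_lift {x y : Z} (f : C(I, Z)) (p p' : Path x y) (h h' : C(I, I))
    (hp : ∀ s, p s = f (h s)) (hp' : ∀ s, p' s = f (h' s)) (h0 : h 0 = h' 0) (h1 : h 1 = h' 1) :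
    Path.Homotopic.Quotient.mk p = Path.Homotopic.Quotient.mk p' := by
  refine Path.Homotopic.Quotient.eq.2 ⟨⟨⟨⟨fun q => f (projIcc 0 1 zero_le_one
    ((1 - q.1) * h q.2 + q.1 * h' q.2)), f.continuous.comp (continuous_projIcc.comp (by fun_prop))⟩,
    fun s => ?_, fun s => ?_⟩, fun t s hs => ?_⟩⟩
  · simp [hp]
  · simp [hp']
  · have e : h' s = h s := by
      rcases hs with rfl | rfl
      · exact h0.symm
      · exact h1.symm
    change f (projIcc 0 1 zero_le_one ((1 - t) * h s + t * h' s)) = p s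
    rw [e, show (1 - (t : ℝ)) * h s + t * h s = h s by ring, projIcc_val, hp]

theorem ep_edge {a b : K.V} (p : Path (K.vtx a) (K.vtx b)) (e : K.E) (h : C(I, I))
    (hp : ∀ s, p s = K.edge e (h s)) (ha : h 0 = 0 ∧ a = K.o e ∨ h 0 = 1 ∧ a = K.t e)
    (hb : h 1 = 0 ∧ b = K.o e ∨ h 1 = 1 ∧ b = K.t e) :
    ∃ w, K.EP a w b (Path.Homotopic.Quotient.mk p) := by
  rcases ha with ⟨h0, rfl⟩ | ⟨h0, rfl⟩ <;> rcases hb with ⟨h1, rfl⟩ | ⟨h1, rfl⟩
  · rw [homotopic_of_lift (K.edge e) p (Path.refl _) h (.const _ 0) hp (fun s => by simp) h0 h1]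
    exact ⟨_, .nil _⟩
  · rw [homotopic_of_lift (K.edge e) p (K.edge e) h (.id _) hp (fun s => rfl) h0 h1,
      ← Path.Homotopic.Quotient.trans_refl (Path.Homotopic.Quotient.mk _)]
    exact ⟨_, .pos e _ _ _ (.nil _)⟩
  · rw [homotopic_of_lift (K.edge e) p (K.edge e).symm h ⟨σ, continuous_symm⟩ hp (fun s => rfl)
      (by simpa using h0) (by simpa using h1),
      ← Path.Homotopic.Quotient.trans_refl (Path.Homotopic.Quotient.mk _)]
    exact ⟨_, .neg e _ _ _ (.nil _)⟩
  · rw [homotopic_of_lift (K.edge e) p (Path.refl _) h (.const _ 1) hp (fun s => by simp) h0 h1]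
    exact ⟨_, .nil _⟩

variable (K)

/-- Connecting the deformed points with vertices. -/
theorem exists_conn (z : Z) : ∃ (v : K.V) (c : Path (rho K z) (K.vtx v)),
    ((∃ v₀, z = K.vtx v₀) → ∀ s, c s = rho K z) ∧
    ∀ e (r : I), 0 < r → r < 1 → z = K.edge e r → ∃ (b : I) (k : Path (ph 1 r) b),
      (∀ s, c s = K.edge e (k s)) ∧ (b = 0 ∧ v = K.o e ∨ b = 1 ∧ v = K.t e) ∧
      (ph 1 r = 0 ∨ ph 1 r = 1 → ∀ s, c s = rho K z) := by
  by_cases hz : ∃ v₀, z = K.vtx v₀
  · obtain ⟨v, rfl⟩ := hz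
    refine ⟨v, (Path.refl _).cast (rho_vtx K v) rfl, fun _ s => (rho_vtx K v).symm, ?_⟩
    intro e r h0 h1 h
    exact absurd h.symm (K.edge_ne e r v h0 h1)
  · obtain ⟨e, r, rfl⟩ := (K.cover z).resolve_left hz
    by_cases h : ph 1 r = 1
    · have e1 : rho K (K.edge e r) = K.vtx (K.t e) := by rw [rho_edge, h, Path.target]
      refine ⟨K.t e, (Path.refl _).cast e1 rfl, fun h' => absurd h' hz, ?_⟩
      intro e' r' h0 h1 h'
      obtain ⟨rfl, rfl⟩ := K.edge_inj _ _ _ _ h0 h1 h'.symm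
      exact ⟨1, (Path.refl _).cast h rfl, fun s => (K.edge e').target.symm, Or.inr ⟨rfl, rfl⟩,
        fun _ s => e1.symm⟩
    · let k : Path (ph 1 r) 0 := ⟨⟨fun s => σ s * ph 1 r, by fun_prop⟩, by simp, by simp⟩
      refine ⟨K.o e, (k.map (K.edge e).continuous).cast (rho_edge K e r) (K.edge e).source.symm,
        fun h' => absurd h' hz, ?_⟩
      intro e' r' h0 h1 h'
      obtain ⟨rfl, rfl⟩ := K.edge_inj _ _ _ _ h0 h1 h'.symm
      refine ⟨0, k, fun s => rfl, Or.inl ⟨rfl, rfl⟩, fun h2 s => ?_⟩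
      change K.edge e' (σ s * ph 1 r') = _
      rw [rho_edge, h2.resolve_right h, mul_zero]

/-- The small star of a vertex. -/
theorem exists_star (v : K.V) : ∃ U ∈ 𝓝 (K.vtx v), ∀ z ∈ U, rho K z = K.vtx v ∧
    ((∃ v₀, z = K.vtx v₀) ∨ ∃ (e : K.E) (r : I), 0 < r ∧ r < 1 ∧ z = K.edge e r ∧
      (ph 1 r = 0 ∨ ph 1 r = 1)) := by
  let P : K.E → I → Prop := fun e r => (K.o e = v ∧ (r : ℝ) < 1 / 3) ∨ (K.t e = v ∧ 2 / 3 < (r : ℝ))
  have h1 : ∀ e r, K.edge e r = K.vtx v → P e r := fun e r h => by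
    rcases tri r with rfl | rfl | hr
    · exact Or.inl ⟨K.vtx_inj ((K.edge e).source.symm.trans h), by norm_num⟩
    · exact Or.inr ⟨K.vtx_inj ((K.edge e).target.symm.trans h), by norm_num⟩
    · exact absurd h (K.edge_ne e r v hr.1 hr.2)
  have h2 : ∀ e r, P e r → K.edge e r = K.vtx v ∨ (0 < r ∧ r < 1) := fun e r h => by
    rcases tri r with rfl | rfl | hr
    · rcases h with ⟨rfl, -⟩ | ⟨-, h⟩
      · exact Or.inl (K.edge e).source
      · norm_num at h
    · rcases h with ⟨-, h⟩ | ⟨rfl, -⟩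
      · norm_num at h
      · exact Or.inl (K.edge e).target
    · exact Or.inr hr
  refine ⟨{z | z = K.vtx v ∨ ∃ e r, z = K.edge e r ∧ P e r}, IsOpen.mem_nhds
    (isOpen_of K fun e => ?_) (Or.inl rfl), ?_⟩
  · have e1 : K.edge e ⁻¹' {z | z = K.vtx v ∨ ∃ e r, z = K.edge e r ∧ P e r} = {r | P e r} := by
      ext r
      refine ⟨?_, fun h => Or.inr ⟨e, r, rfl, h⟩⟩
      rintro (h | ⟨e', r', h, hP⟩)
      · exact h1 e r h
      · rcases h2 e' r' hP with h3 | h3
        · exact h1 e r (h.trans h3)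
        · obtain ⟨rfl, rfl⟩ := K.edge_inj _ _ _ _ h3.1 h3.2 h.symm
          exact hP
    rw [e1]
    exact ((isOpen_const.inter (isOpen_lt continuous_subtype_val continuous_const))).union
      (isOpen_const.inter (isOpen_lt continuous_const continuous_subtype_val))
  · rintro z (rfl | ⟨e, r, rfl, hP⟩)
    · exact ⟨rho_vtx K v, Or.inl ⟨v, rfl⟩⟩
    · rcases h2 e r hP with h3 | h3
      · rw [h3]
        exact ⟨rho_vtx K v, Or.inl ⟨v, rfl⟩⟩
      · rcases hP with ⟨rfl, h⟩ | ⟨rfl, h⟩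
        · exact ⟨by rw [rho_edge, ph_low h, Path.source],
            Or.inr ⟨e, r, h3.1, h3.2, rfl, Or.inl (ph_low h)⟩⟩
        · exact ⟨by rw [rho_edge, ph_high h, Path.target],
            Or.inr ⟨e, r, h3.1, h3.2, rfl, Or.inr (ph_high h)⟩⟩

/-- A path in an open edge has a continuous coordinate. -/
theorem exists_lift (e : K.E) {x y : Z} (γ : Path x y) (h : ∀ s, γ s ∈ K.edge e '' Ioo 0 1) :
    ∃ g : C(I, I), ∀ s, (0 < g s ∧ g s < 1) ∧ γ s = K.edge e (g s) := by
  choose g hg hγ using h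
  refine ⟨⟨g, continuous_def.2 fun O hO => ?_⟩, fun s => ⟨hg s, (hγ s).symm⟩⟩
  convert (isOpen_image K e (hO.inter isOpen_Ioo) (O := O ∩ Ioo 0 1) fun r hr => hr.2).preimage
    γ.continuous using 1
  ext s
  refine ⟨fun hs => ⟨g s, ⟨hs, hg s⟩, hγ s⟩, fun ⟨r, hr, h1⟩ => ?_⟩
  have := (K.edge_inj _ _ _ _ hr.2.1 hr.2.2 (h1.trans (hγ s).symm)).2
  exact mem_preimage.2 (this ▸ hr.1)

theorem conj_const {a a' b b' : Z} (c₁ : Path a' a) (q : Path a' b') (c₂ : Path b' b) (p : Path a b)
    (h₁ : ∀ s, c₁ s = a') (h₂ : ∀ s, c₂ s = b') (h : ∀ s, q s = p s) :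
    (Path.Homotopic.Quotient.mk c₁).symm.trans
      ((Path.Homotopic.Quotient.mk q).trans (Path.Homotopic.Quotient.mk c₂)) =
      Path.Homotopic.Quotient.mk p := by
  obtain rfl : a = a' := c₁.target.symm.trans (h₁ 1)
  obtain rfl : b = b' := c₂.target.symm.trans (h₂ 1)
  obtain rfl : c₁ = Path.refl _ := Path.ext (funext h₁)
  obtain rfl : c₂ = Path.refl _ := Path.ext (funext h₂)
  obtain rfl : q = p := Path.ext (funext h)
  change (Path.Homotopic.Quotient.mk (Path.refl a).symm).trans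
    ((Path.Homotopic.Quotient.mk q).trans (Path.Homotopic.Quotient.refl b)) = _
  rw [Path.refl_symm, Path.Homotopic.Quotient.trans_refl]
  exact Path.Homotopic.Quotient.refl_trans _

theorem ep_of_rho {v v' a b : K.V} (γ : Path (K.vtx v) (K.vtx v'))
    (c₁ : Path (rho K (K.vtx v)) (K.vtx a)) (c₂ : Path (rho K (K.vtx v')) (K.vtx b))
    (e1 : a = v) (e2 : b = v') (h1 : ∀ s, c₁ s = rho K (K.vtx v))
    (h2 : ∀ s, c₂ s = rho K (K.vtx v')) {w : List (K.E × Bool)}
    (hw : K.EP a w b ((Path.Homotopic.Quotient.mk c₁).symm.trans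
      (((Path.Homotopic.Quotient.mk γ).map (rho K)).trans (Path.Homotopic.Quotient.mk c₂)))) :
    K.EP v w v' (Path.Homotopic.Quotient.mk γ) := by
  subst e1 e2
  let p : Path (K.vtx a) (K.vtx b) :=
    (γ.map (rho K).continuous).cast (rho_vtx K a).symm (rho_vtx K b).symm
  have e3 := conj_const c₁ (γ.map (rho K).continuous) c₂ p h1 h2 fun s => rfl
  have e4 : Path.Homotopic.Quotient.mk γ = Path.Homotopic.Quotient.mk p := by
    refine Path.Homotopic.Quotient.eq.2 ⟨⟨⟨⟨fun q => df K q.1 (γ q.2),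
      (continuous_df K).comp ((γ.continuous.comp continuous_snd).prodMk continuous_fst)⟩,
      fun s => df_zero K _, fun s => rfl⟩, fun t s hs => ?_⟩⟩
    change df K t (γ s) = γ s
    rcases hs with rfl | rfl
    · rw [γ.source, df_vtx]
    · rw [γ.target, df_vtx]
  rw [e4, ← e3]
  exact hw

end GraphTop

open GraphTop

theorem graphPotStmt : GraphPotStmt := by
  classical
  intro Z G _ _ K lam
  refine ⟨pot K lam, fun e => ⟨fun t => if hf < t then lam e else 1, fun t => ?_,
    if_neg hf_pos.not_gt, if_pos hf_lt⟩⟩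
  change ∀ᶠ t' in 𝓝 t, _ = _ * jump K lam _ _
  rcases lt_trichotomy t hf with h | rfl | h
  · filter_upwards [Iio_mem_nhds h] with t' ht'
    rw [jump_of_not K lam (not_mid K e h.ne), if_neg h.not_gt, if_neg (not_lt.2 (le_of_lt ht')),
      one_mul]
  · filter_upwards [Ioo_mem_nhds hf_pos hf_lt] with t' ht'
    rw [jump_mid K lam e ht'.1 ht'.2, if_neg (lt_irrefl _), one_mul]
  · filter_upwards [Ioi_mem_nhds h] with t' ht'
    rw [jump_of_not K lam (not_mid K e h.ne'), if_pos h, if_pos (mem_Ioi.1 ht'), mul_one]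

theorem graphGenStmt (h : GenStmt) : GraphGenStmt := by
  intro Z _ K v v' ξ
  choose ν c hc1 hc2 using exists_conn K
  have key := h Z (fun {x y} ξ => ∃ w, K.EP (ν x) w (ν y)
    ((Path.Homotopic.Quotient.mk (c x)).symm.trans
      ((ξ.map (rho K)).trans (Path.Homotopic.Quotient.mk (c y))))) ?_ ?_ ξ
  · obtain ⟨w, hw⟩ := key
    induction ξ using Path.Homotopic.Quotient.ind with
    | mk γ =>
      have h1 := hc1 (K.vtx v) ⟨v, rfl⟩
      have h2 := hc1 (K.vtx v') ⟨v', rfl⟩
      have e1 : ν (K.vtx v) = v :=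
        K.vtx_inj (((c _).target.symm.trans (h1 1)).trans (rho_vtx K v))
      have e2 : ν (K.vtx v') = v' :=
        K.vtx_inj (((c _).target.symm.trans (h2 1)).trans (rho_vtx K v'))
      exact ⟨w, ep_of_rho K γ _ _ e1 e2 h1 h2 hw⟩
  · rintro x y z ξ ζ ⟨w, hw⟩ ⟨w', hw'⟩
    refine ⟨w ++ w', ?_⟩
    convert append hw hw' using 1
    induction ξ using Path.Homotopic.Quotient.ind with
    | mk γ =>
      induction ζ using Path.Homotopic.Quotient.ind with
      | mk δ =>
        have e : ((Path.Homotopic.Quotient.mk γ).trans (Path.Homotopic.Quotient.mk δ)).map (rho K) =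
            ((Path.Homotopic.Quotient.mk γ).map (rho K)).trans
              ((Path.Homotopic.Quotient.mk δ).map (rho K)) :=
          congrArg Path.Homotopic.Quotient.mk (Path.map_trans γ δ (rho K).continuous)
        rw [e]
        simp only [Path.Homotopic.Quotient.trans_assoc]
        rw [← Path.Homotopic.Quotient.trans_assoc (Path.Homotopic.Quotient.mk (c y)),
          Path.Homotopic.Quotient.trans_symm, Path.Homotopic.Quotient.refl_trans]
  · intro z
    by_cases hz : ∃ v₀, z = K.vtx v₀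
    · obtain ⟨v₀, rfl⟩ := hz
      obtain ⟨U, hU, hU'⟩ := exists_star K v₀
      have hc : ∀ z ∈ U, ∀ s, c z s = K.vtx v₀ := fun z hz s => by
        rw [← (hU' z hz).1]
        rcases (hU' z hz).2 with h1 | ⟨e, r, h0, h1, h2, h3⟩
        · exact hc1 z h1 s
        · obtain ⟨b, k, -, -, h4⟩ := hc2 z e r h0 h1 h2
          exact h4 h3 s
      refine ⟨U, hU, fun {x y} γ hγ => ⟨[], ?_⟩⟩
      have hx : x ∈ U := γ.source ▸ hγ 0
      have hy : y ∈ U := γ.target ▸ hγ 1
      refine ep_const ((c x).symm.trans ((γ.map (rho K).continuous).trans (c y))) fun s => ?_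
      refine Eq.trans ?_ ((hc x hx 1).symm.trans (c x).target)
      simp only [Path.trans_apply, Path.symm_apply, Function.comp_apply, Path.map_coe]
      split_ifs
      · exact hc x hx _
      · exact (hU' _ (hγ _)).1
      · exact hc y hy _
    · obtain ⟨e, r, rfl⟩ := (K.cover z).resolve_left hz
      have hr : 0 < r ∧ r < 1 := by
        rcases tri r with rfl | rfl | hr
        · exact absurd ⟨_, (K.edge e).source⟩ hz
        · exact absurd ⟨_, (K.edge e).target⟩ hz
        · exact hr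
      refine ⟨_, (isOpen_image K e isOpen_Ioo (O := Ioo 0 1) fun r hr => hr).mem_nhds ⟨r, hr, rfl⟩,
        fun {x y} γ hγ => ?_⟩
      obtain ⟨g, hg⟩ := exists_lift K e γ hγ
      obtain ⟨b₀, k₀, h₀, hb₀, -⟩ := hc2 x e (g 0) (hg 0).1.1 (hg 0).1.2
        (γ.source.symm.trans (hg 0).2)
      obtain ⟨b₁, k₁, h₁, hb₁, -⟩ := hc2 y e (g 1) (hg 1).1.1 (hg 1).1.2
        (γ.target.symm.trans (hg 1).2)
      let m : Path (ph 1 (g 0)) (ph 1 (g 1)) :=
        ⟨⟨fun s => ph 1 (g s), continuous_ph.comp (continuous_const.prodMk g.continuous)⟩, rfl, rfl⟩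
      refine ep_edge ((c x).symm.trans ((γ.map (rho K).continuous).trans (c y))) e
        (k₀.symm.trans (m.trans k₁)) (fun s => ?_) ?_ ?_
      · simp only [Path.trans_apply, Path.symm_apply, Function.comp_apply, Path.map_coe,
          ContinuousMap.coe_coe]
        split_ifs
        · exact h₀ _
        · rw [(hg _).2, rho_edge]; rfl
        · exact h₁ _
      · simpa using hb₀
      · simpa using hb₁

end Crest.Agent.R197
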