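import Crest.Agent.R197.TopDefs

/-!
# Row 197: the universal cover of a two-dimensional aspherical complex has no `2`-cycles
-/

set_option autoImplicit false

noncomputable section

namespace Crest.Agent.R197

open unitInterval _root_.Topology Set

namespace InjAux

section Maps
variable {Z X : Type} [TopologicalSpace Z] [TopologicalSpace X] (ι : C(Z, X))

theorem map_trans {x y z : Z} (ξ : PQ x y) (ζ : PQ y z) :
    (ξ.trans ζ).map ι = (ξ.map ι).trans (ζ.map ι) := by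
  induction ξ using Path.Homotopic.Quotient.ind with | _ γ => ?_
  induction ζ using Path.Homotopic.Quotient.ind with | _ γ' => ?_
  rw [← Path.Homotopic.Quotient.mk_trans, ← Path.Homotopic.Quotient.mk_map,
    ← Path.Homotopic.Quotient.mk_map, ← Path.Homotopic.Quotient.mk_map,
    ← Path.Homotopic.Quotient.mk_trans, Path.map_trans]

theorem map_symm {x y : Z} (ξ : PQ x y) : ξ.symm.map ι = (ξ.map ι).symm := by
  induction ξ using Path.Homotopic.Quotient.ind with | _ γ => ?_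
  rw [← Path.Homotopic.Quotient.mk_symm, ← Path.Homotopic.Quotient.mk_map,
    ← Path.Homotopic.Quotient.mk_map, ← Path.Homotopic.Quotient.mk_symm, Path.map_symm]

theorem map_refl (x : Z) :
    (Path.Homotopic.Quotient.refl x).map ι = Path.Homotopic.Quotient.refl (ι x) := rfl

end Maps

section Cover
variable {X E : Type} [TopologicalSpace X] [TopologicalSpace E] {p : E → X}
  (cov : IsCoveringMap p)
include cov

theorem t2 [T2Space X] : T2Space E := ⟨fun e e' h => by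
  by_cases hp : p e = p e'
  · exact cov.isSeparatedMap e e' hp h
  · exact separated_by_continuous cov.continuous hp⟩

theorem mon_symm {x y : X} (ξ : PQ x y) (e : p ⁻¹' {x}) :
    cov.monodromy ξ.symm (cov.monodromy ξ e) = e := by
  rw [← cov.monodromy_trans_apply, Path.Homotopic.Quotient.trans_symm, cov.monodromy_refl, id]

theorem mon_inj [SimplyConnectedSpace E] {x y : X} (ξ ξ' : PQ x y) (e : p ⁻¹' {x})
    (h : cov.monodromy ξ e = cov.monodromy ξ' e) : ξ = ξ' := by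
  have h1 := cov.map_liftPathQuotient ξ e
  have h2 := cov.map_liftPathQuotient ξ' e
  generalize cov.liftPathQuotient ξ e = a at h1
  generalize cov.liftPathQuotient ξ' e = b at h2
  revert a b
  generalize cov.monodromy ξ e = u at h
  subst h
  intro a h1 b h2
  rw [Subsingleton.elim a b, h2] at h1
  exact eq_of_heq ((Path.Homotopic.Quotient.cast_heq _ _).symm.trans
    ((heq_of_eq h1.symm).trans (Path.Homotopic.Quotient.cast_heq _ _)))

/-- The winding number of the lift of a path class in the `1`-skeleton. -/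
theorem exists_Dh {Z M : Type} [TopologicalSpace Z] [AddCommGroup M] (ι : C(Z, X))
    (Δ : C(I, E) → M) (c : E) (hc : ∀ z, p c ≠ ι z)
    (h1 : ∀ {x y z : E} (γ : Path x y) (γ' : Path y z), (∀ s, γ s ≠ c) → (∀ s, γ' s ≠ c) →
      Δ (γ.trans γ') = Δ γ + Δ γ')
    (h2 : ∀ (γ γ' : C(I, E)) (F : γ.HomotopyRel γ' {0, 1}), (∀ q, F q ≠ c) → Δ γ = Δ γ') :
    ∃ Dh : ∀ {z z' : Z}, PQ z z' → p ⁻¹' {ι z} → M,
      (∀ {z z' : Z} (γ : Path z z') (e : p ⁻¹' {ι z}) (Γ : C(I, E)), p ∘ Γ = ι ∘ γ → Γ 0 = e →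
        Dh (Path.Homotopic.Quotient.mk γ) e = Δ Γ) ∧
      ∀ {z z' z'' : Z} (ξ : PQ z z') (ζ : PQ z' z'') (e : p ⁻¹' {ι z}),
        Dh (ξ.trans ζ) e = Dh ξ e + Dh ζ (cov.monodromy (ξ.map ι) e) := by
  have h0 : ∀ {z z' : Z} (γ : Path z z') (e : p ⁻¹' {ι z}),
      (γ.map ι.continuous).toContinuousMap 0 = p e := fun γ e =>
    (γ.map ι.continuous).source.trans e.2.symm
  have hne : ∀ {T : Type} (g : T → E) (k : T → Z), p ∘ g = ι ∘ k → ∀ t, g t ≠ c :=
    fun g k h t ht => hc (k t) (ht ▸ congrFun h t)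
  let L : ∀ {z z' : Z} (γ : Path z z') (e : p ⁻¹' {ι z}), C(I, E) := fun γ e =>
    cov.liftPath (γ.map ι.continuous).toContinuousMap e (h0 γ e)
  have hL : ∀ {z z' : Z} (γ : Path z z') (e : p ⁻¹' {ι z}), p ∘ L γ e = ι ∘ γ := fun γ e =>
    cov.liftPath_lifts ..
  have hL0 : ∀ {z z' : Z} (γ : Path z z') (e : p ⁻¹' {ι z}), L γ e 0 = e := fun γ e =>
    cov.liftPath_zero ..
  have hwd : ∀ {z z' : Z} (γ γ' : Path z z') (e : p ⁻¹' {ι z}), γ.Homotopic γ' →
      Δ (L γ e) = Δ (L γ' e) := by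
    rintro z z' γ γ' e ⟨F⟩
    refine h2 _ _ (cov.liftHomotopyRel (F.map ι) ⟨0, .inl rfl, by rw [hL0, hL0]⟩ (hL γ e)
      (hL γ' e)) (hne _ F ?_)
    exact cov.liftHomotopy_lifts _ _ fun a =>
      ((F.map ι).apply_zero a).trans (congrFun (hL γ e) a).symm
  refine ⟨fun ξ e => Quotient.lift (s := Path.Homotopic.setoid _ _) (fun γ => Δ (L γ e))
    (fun γ γ' h => hwd γ γ' e h) ξ, fun γ e Γ hΓ hΓ0 => ?_, fun ξ ζ e => ?_⟩
  · exact congrArg Δ ((cov.eq_liftPath_iff' _).2 ⟨hΓ, hΓ0⟩).symm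
  · induction ξ using Path.Homotopic.Quotient.ind with | _ γ => ?_
    induction ζ using Path.Homotopic.Quotient.ind with | _ γ' => ?_
    let e' := cov.monodromy ((Path.Homotopic.Quotient.mk γ).map ι) e
    let Γ : Path (e : E) e' := ⟨L γ e, hL0 γ e, rfl⟩
    let Γ' : Path (e' : E) (L γ' e' 1) := ⟨L γ' e', hL0 γ' e', rfl⟩
    refine Eq.trans ?_ (h1 Γ Γ' (hne _ γ (hL γ e)) (hne _ γ' (hL γ' e')))
    refine congrArg Δ ((cov.eq_liftPath_iff' (h0 (γ.trans γ') e)).2 ⟨funext fun s => ?_, ?_⟩).symm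
    · change p (Γ.trans Γ' s) = ι (γ.trans γ' s)
      rw [Path.trans_apply, Path.trans_apply]
      split_ifs
      · exact congrFun (hL γ e) _
      · exact congrFun (hL γ' e') _
    · exact (Γ.trans Γ').source

/-- A lift of an open face is open. -/
theorem isOpen_lift (K : Cx X) (f : K.F) (φ : C(Disc, E)) (hφ : p ∘ φ = K.face f) :
    IsOpen (φ '' {z | ‖(z : ℂ)‖ < 1}) := by
  have h1 : ∀ U : Set Disc, IsOpen U → (∀ z ∈ U, ‖(z : ℂ)‖ < 1) → IsOpen (K.face f '' U) := by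
    intro U hU hU1
    rw [← isClosed_compl_iff]
    refine K.closed _ ?_ fun f' => ?_
    · convert isClosed_univ
      rw [eq_univ_iff_forall]
      rintro y ⟨z, hz, h⟩
      exact K.face_ne f z y (hU1 z hz) h
    · by_cases hf : f = f'
      · subst hf
        convert hU.isClosed_compl
        ext z
        refine not_congr ⟨?_, fun h => ⟨z, h, rfl⟩⟩
        rintro ⟨z', hz', h⟩
        exact (K.face_inj f f z' z (hU1 z' hz') h).2 ▸ hz'
      · convert isClosed_univ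
        rw [eq_univ_iff_forall]
        rintro y ⟨z, hz, h⟩
        exact hf (K.face_inj f f' z y (hU1 z hz) h).1
  rw [isOpen_iff_forall_mem_open]
  rintro _ ⟨z, hz, rfl⟩
  obtain ⟨W, hW, hzW, hinj⟩ := cov.isLocalHomeomorph.isLocallyInjective (φ z)
  have hU : IsOpen (φ ⁻¹' W ∩ {z : Disc | ‖(z : ℂ)‖ < 1}) :=
    (hW.preimage φ.continuous).inter (isOpen_lt (by fun_prop) continuous_const)
  refine ⟨W ∩ p ⁻¹' (K.face f '' (φ ⁻¹' W ∩ {z : Disc | ‖(z : ℂ)‖ < 1})), ?_,
    hW.inter ((h1 _ hU fun z hz => hz.2).preimage cov.continuous), hzW, z, ⟨hzW, hz⟩,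
    (congrFun hφ z).symm⟩
  rintro w ⟨hw, z', hz', h⟩
  exact ⟨z', hz'.2, hinj hz'.1 hw ((congrFun hφ z').trans h)⟩

/-- The lifts of the vertices. -/
def Vt (K : Cx X) {x : X} (τ : ∀ v, PQ x (K.ι (K.G.vtx v))) (e0 : p ⁻¹' {x})
    (d : (FundamentalGroup X x)ᵐᵒᵖ) (v : K.G.V) : p ⁻¹' {K.ι (K.G.vtx v)} :=
  cov.monodromy ((FundamentalGroup.toPath d.unop).trans (τ v)) e0

theorem Vt_inj [SimplyConnectedSpace E] (K : Cx X) {x : X} (τ : ∀ v, PQ x (K.ι (K.G.vtx v)))
    (e0 : p ⁻¹' {x}) {d d' : (FundamentalGroup X x)ᵐᵒᵖ} (v : K.G.V)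
    (h : Vt cov K τ e0 d v = Vt cov K τ e0 d' v) : d = d' := by
  rw [Vt, Vt, cov.monodromy_trans_apply, cov.monodromy_trans_apply] at h
  exact MulOpposite.unop_injective (mon_inj cov _ _ e0 ((cov.monodromy_bijective _).1 h))

theorem Vt_edge (K : Cx X) {x : X} (τ : ∀ v, PQ x (K.ι (K.G.vtx v)))
    (e0 : p ⁻¹' {x}) (d : (FundamentalGroup X x)ᵐᵒᵖ) (e : K.G.E) :
    cov.monodromy ((Path.Homotopic.Quotient.mk (K.G.edge e)).map K.ι)
      (Vt cov K τ e0 d (K.G.o e)) = Vt cov K τ e0 (d * K.lab x τ e) (K.G.t e) := by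
  rw [Vt, Vt, ← cov.monodromy_trans_apply, MulOpposite.unop_mul, Cx.lab, MulOpposite.unop_op,
    FundamentalGroup.mul_def]
  simp only [Path.Homotopic.Quotient.trans_assoc, Path.Homotopic.Quotient.symm_trans,
    Path.Homotopic.Quotient.trans_refl]

theorem Dh_refl {Z M : Type} [TopologicalSpace Z] [AddCommGroup M] (ι : C(Z, X))
    (Dh : ∀ {z z' : Z}, PQ z z' → p ⁻¹' {ι z} → M)
    (hD : ∀ {z z' z'' : Z} (ξ : PQ z z') (ζ : PQ z' z'') (e : p ⁻¹' {ι z}),
      Dh (ξ.trans ζ) e = Dh ξ e + Dh ζ (cov.monodromy (ξ.map ι) e)) (z : Z) (e : p ⁻¹' {ι z}) :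
    Dh (Path.Homotopic.Quotient.refl z) e = 0 := by
  have := hD (.refl z) (.refl z) e
  rw [Path.Homotopic.Quotient.trans_refl, map_refl, cov.monodromy_refl, id] at this
  exact left_eq_add.1 this

/-- The pairing of the chain of an edge path with the winding numbers of the edges. -/
theorem pair_EP {M : Type} [AddCommGroup M] (K : Cx X) {x : X}
    (τ : ∀ v, PQ x (K.ι (K.G.vtx v))) (e0 : p ⁻¹' {x})
    (Dh : ∀ {z z' : K.Z}, PQ z z' → p ⁻¹' {K.ι z} → M)
    (hD : ∀ {z z' z'' : K.Z} (ξ : PQ z z') (ζ : PQ z' z'') (e : p ⁻¹' {K.ι z}),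
      Dh (ξ.trans ζ) e = Dh ξ e + Dh ζ (cov.monodromy (ξ.map K.ι) e))
    {v v' : K.G.V} {w : List (K.G.E × Bool)} {ξ : PQ (K.G.vtx v) (K.G.vtx v')}
    (h : K.G.EP v w v' ξ) (d : (FundamentalGroup X x)ᵐᵒᵖ) :
    Finsupp.linearCombination ℤ (fun a : (FundamentalGroup X x)ᵐᵒᵖ × K.G.E =>
      Dh (Path.Homotopic.Quotient.mk (K.G.edge a.2)) (Vt cov K τ e0 a.1 (K.G.o a.2)))
        (chain (K.lab x τ) d (FreeGroup.mk w)) = Dh ξ (Vt cov K τ e0 d v) := by
  have h0 := Dh_refl cov K.ι Dh hD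
  induction h generalizing d with
  | nil v => rw [h0, ← FreeGroup.one_eq_mk, chain_one, map_zero]
  | pos e w v ξ _ ih =>
    rw [show FreeGroup.mk ((e, true) :: w) = FreeGroup.of e * FreeGroup.mk w from rfl, chain_mul,
      map_add, ih, hD, Vt_edge, chain_of, FreeGroup.lift_apply_of,
      Finsupp.linearCombination_single, one_smul]
  | neg e w v ξ _ ih =>
    have h1 := Vt_edge cov K τ e0 (d * (K.lab x τ e)⁻¹) e
    rw [inv_mul_cancel_right] at h1
    have h2 := hD (Path.Homotopic.Quotient.mk (K.G.edge e))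
      (Path.Homotopic.Quotient.mk (K.G.edge e)).symm
      (Vt cov K τ e0 (d * (K.lab x τ e)⁻¹) (K.G.o e))
    rw [Path.Homotopic.Quotient.trans_symm, h0, h1] at h2
    rw [show FreeGroup.mk ((e, false) :: w) = (FreeGroup.of e)⁻¹ * FreeGroup.mk w from rfl,
      chain_mul, map_add, ih, hD, chain_inv, chain_of, map_inv, FreeGroup.lift_apply_of, map_neg,
      Finsupp.linearCombination_single, one_smul, neg_eq_of_add_eq_zero_right h2.symm, map_symm]
    congr 2
    rw [← h1, mon_symm]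

end Cover

end InjAux

open InjAux in
theorem injStmt (h : WindStmt) : InjStmt := by
  rintro X _ _ K ⟨E, _, p, _, cov, hsurj⟩ x τ base bd c hEP y hy
  have := t2 cov
  have : ContractibleSpace Disc := (convex_closedBall (0 : ℂ) 1).contractibleSpace ⟨0, by simp⟩
  have : LocallyPathConnectedSpace Disc :=
    (convex_closedBall (0 : ℂ) 1).locallyPathConnectedSpace
  obtain ⟨e0, he0⟩ := hsurj x
  have hctr : ‖(ctr : ℂ)‖ < 1 := by simp [ctr]
  let yt : ∀ β : (FundamentalGroup X x)ᵐᵒᵖ × K.F, p ⁻¹' {K.ι (K.att β.2 1)} := fun β =>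
    cov.monodromy ((c β.2).map K.ι) (Vt cov K τ ⟨e0, he0⟩ β.1 (base β.2))
  have hφ : ∀ β, ∃ φ : C(Disc, E), φ (inc 1) = yt β ∧ p ∘ φ = K.face β.2 := fun β =>
    (cov.existsUnique_continuousMap_lifts (K.face β.2) (inc 1) (yt β)
      ((yt β).2.trans (K.face_inc _ _).symm)).exists
  choose φ hφ1 hφ using hφ
  ext β₀
  obtain ⟨M, _, Δ, h1, h2, h3⟩ := h E (φ β₀) (fun z w hz hzw => (K.face_inj β₀.2 β₀.2 z w hz
    ((congrFun (hφ β₀) z).symm.trans ((congrArg p hzw).trans (congrFun (hφ β₀) w)))).2)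
    (isOpen_lift cov K β₀.2 _ (hφ β₀))
  have hc : ∀ z, p (φ β₀ ctr) ≠ K.ι z := fun z hz =>
    K.face_ne β₀.2 ctr z hctr ((congrFun (hφ β₀) ctr).symm.trans hz)
  obtain ⟨Dh, hD1, hD2⟩ := exists_Dh cov K.ι Δ (φ β₀ ctr) hc h1 h2
  have h0 := Dh_refl cov K.ι Dh hD2
  have hlift : ∀ β, p ∘ (φ β).comp (inc.comp circ.toContinuousMap) =
      K.ι ∘ circ.map (K.att β.2).continuous := fun β => funext fun s =>
    (congrFun (hφ β) _).trans (K.face_inc β.2 (circ s))
  have hs : ∀ β, (φ β).comp (inc.comp circ.toContinuousMap) 0 = yt β := fun β =>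
    (congrArg (fun z => φ β (inc z)) circ.source).trans (hφ1 β)
  have key : ∀ β : (FundamentalGroup X x)ᵐᵒᵖ × K.F,
      Dh ((c β.2).trans ((K.loop β.2).trans (c β.2).symm)) (Vt cov K τ ⟨e0, he0⟩ β.1 (base β.2)) =
        Δ ((φ β).comp (inc.comp circ.toContinuousMap)) := by
    intro β
    have h4 : cov.monodromy ((K.loop β.2).map K.ι) (yt β) = yt β := by
      refine Subtype.ext ?_
      have := (cov.eq_liftPath_iff' (γ := ((circ.map (K.att β.2).continuous).map
        K.ι.continuous).toContinuousMap) ((Path.source _).trans (yt β).2.symm)).2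
          ⟨hlift β, hs β⟩
      exact (DFunLike.congr_fun this 1).symm.trans
        ((congrArg (fun z => φ β (inc z)) circ.target).trans (hφ1 β))
    have h5 := hD2 (c β.2) (c β.2).symm (Vt cov K τ ⟨e0, he0⟩ β.1 (base β.2))
    rw [Path.Homotopic.Quotient.trans_symm, h0] at h5
    rw [hD2, hD2, h4, ← hD1 _ (yt β) _ (hlift β) (hs β), add_left_comm, ← h5, add_zero]
    rfl
  have zero : ∀ β, β ≠ β₀ → Δ ((φ β).comp (inc.comp circ.toContinuousMap)) = 0 := by
    intro β hβ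
    have hne : ∀ z, φ β z ≠ φ β₀ ctr := by
      intro z hz
      obtain ⟨d, f⟩ := β
      obtain ⟨d₀, f₀⟩ := β₀
      obtain ⟨hf, rfl⟩ := K.face_inj f₀ f ctr z hctr ((congrFun (hφ (d₀, f₀)) ctr).symm.trans
        ((congrArg p hz.symm).trans (congrFun (hφ (d, f)) z)))
      subst hf
      have h6 := congrFun (cov.eq_of_comp_eq (φ (d, f₀)).continuous (φ (d₀, f₀)).continuous
        ((hφ _).trans (hφ (d₀, f₀)).symm) ctr hz) (inc 1)
      rw [hφ1, hφ1] at h6
      exact hβ (Prod.ext (Vt_inj cov K τ _ (base f₀)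
        ((cov.monodromy_bijective _).1 (Subtype.ext h6))) rfl)
    obtain ⟨F⟩ := SimplyConnectedSpace.paths_homotopic (circ.map inc.continuous)
      (Path.refl (inc 1))
    refine (h2 _ _ (F.map (φ β)) fun q => hne _).trans ?_
    have h7 := h1 (Path.refl (φ β (inc 1))) (Path.refl (φ β (inc 1))) (fun _ => hne _)
      fun _ => hne _
    rw [Path.refl_trans_refl] at h7
    exact left_eq_add.1 h7
  have h8 := congrArg (Finsupp.linearCombination ℤ
    (fun a : (FundamentalGroup X x)ᵐᵒᵖ × K.G.E => Dh (Path.Homotopic.Quotient.mk (K.G.edge a.2))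
      (Vt cov K τ ⟨e0, he0⟩ a.1 (K.G.o a.2)))) hy
  rw [map_zero, Finsupp.apply_linearCombination, Finsupp.linearCombination_apply,
    Finsupp.sum_eq_single β₀ (fun β _ hβ => by
      rw [Function.comp_apply, pair_EP cov K τ _ Dh hD2 (hEP β.2), key, zero β hβ, smul_zero])
      (fun _ => zero_smul _ _),
    Function.comp_apply, pair_EP cov K τ _ Dh hD2 (hEP β₀.2), key] at h8
  exact h3 _ h8

end Crest.Agent.R197
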