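import Crest.Agent.R197.Defs

/-! Row 197: the numbers game gives a length function and residual finiteness. -/

set_option autoImplicit false

noncomputable section

namespace Crest.Agent.R197

namespace LenAux

variable {V : Type} (Γ : SimpleGraph V)

/-- The inverse letter. -/
def bar (x : V × Bool) : V × Bool := (x.1, !x.2)

lemma bar_fst (x : V × Bool) : (bar x).1 = x.1 := rfl

lemma bar_bar (x : V × Bool) : bar (bar x) = x := by
  obtain ⟨v, b⟩ := x
  cases b <;> rfl

lemma bar_ne (x : V × Bool) : bar x ≠ x := by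
  obtain ⟨v, b⟩ := x
  cases b <;> exact fun h => Bool.noConfusion (congrArg Prod.snd h)

lemma eq_or_bar {x y : V × Bool} (h : y.1 = x.1) : y = x ∨ y = bar x := by
  obtain ⟨v, b⟩ := x
  obtain ⟨w, c⟩ := y
  obtain rfl : w = v := h
  cases b <;> cases c
  exacts [.inl rfl, .inr rfl, .inr rfl, .inl rfl]

lemma lt_mul_bar (x : V × Bool) : lt Γ x * lt Γ (bar x) = 1 := by
  obtain ⟨v, b⟩ := x
  cases b
  exacts [inv_mul_cancel (gen Γ v), mul_inv_cancel (gen Γ v)]

lemma lt_comm {x y : V × Bool} (h : Γ.Adj x.1 y.1) : Commute (lt Γ x) (lt Γ y) := by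
  obtain ⟨v, b⟩ := x
  obtain ⟨w, c⟩ := y
  have := gen_comm h
  cases b <;> cases c
  exacts [this.inv_inv, this.inv_left, this.inv_right, this]

lemma word_induction {p : A Γ → Prop} (h1 : p 1) (h2 : ∀ a x, p a → p (a * lt Γ x)) (a : A Γ) :
    p a := by
  have ha : a ∈ Subgroup.closure (Set.range (PresentedGroup.of : V → A Γ)) := by
    rw [PresentedGroup.closure_range_of]; trivial
  induction ha using Subgroup.closure_induction_right with
  | one => exact h1
  | mul_right x _ y hy ih => obtain ⟨v, rfl⟩ := hy; exact h2 x (v, true) ih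
  | mul_inv_cancel x _ y hy ih => obtain ⟨v, rfl⟩ := hy; exact h2 x (v, false) ih

section Move
variable {R : Type} [CommRing R]

open Classical in
/-- One move of the numbers game. -/
def move (x : V × Bool) (l : V × Bool → R) (y : V × Bool) : R :=
  if y = x then 2 * l x + l (bar x) else if y = bar x then -l x
    else if Γ.Adj x.1 y.1 then l y else l y + 2 * l x

variable {Γ} {x y : V × Bool} (l : V × Bool → R)

lemma move_self : move Γ x l x = 2 * l x + l (bar x) := if_pos rfl

lemma move_bar : move Γ x l (bar x) = -l x := by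
  unfold move; rw [if_neg (bar_ne x), if_pos rfl]

lemma move_adj (h : Γ.Adj x.1 y.1) : move Γ x l y = l y := by
  unfold move
  rw [if_neg (by rintro rfl; exact h.ne rfl), if_neg (by rintro rfl; exact h.ne rfl), if_pos h]

lemma move_far (h0 : y.1 ≠ x.1) (h : ¬ Γ.Adj x.1 y.1) : move Γ x l y = l y + 2 * l x := by
  unfold move
  rw [if_neg (by rintro rfl; exact h0 rfl), if_neg (by rintro rfl; exact h0 rfl), if_neg h]

variable (Γ) in
lemma four (x y : V × Bool) :
    y = x ∨ y = bar x ∨ Γ.Adj x.1 y.1 ∨ (y.1 ≠ x.1 ∧ ¬ Γ.Adj x.1 y.1) := by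
  by_cases h : y.1 = x.1
  · rcases eq_or_bar h with h | h
    exacts [.inl h, .inr (.inl h)]
  · by_cases h' : Γ.Adj x.1 y.1
    exacts [.inr (.inr (.inl h')), .inr (.inr (.inr ⟨h, h'⟩))]

lemma move_bar_move (x : V × Bool) : move Γ (bar x) (move Γ x l) = l := by
  funext y
  have e := move_bar (Γ := Γ) (x := bar x) (move Γ x l)
  rw [bar_bar] at e
  rcases four Γ x y with rfl | rfl | h | ⟨h0, h⟩
  · rw [e, move_bar, neg_neg]
  · rw [move_self, bar_bar, move_self, move_bar]; ring
  · rw [move_adj (x := bar x) _ h, move_adj _ h]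
  · rw [move_far (x := bar x) _ h0 h, move_far _ h0 h, move_bar]; ring

lemma move_comm (h : Γ.Adj x.1 y.1) : move Γ x (move Γ y l) = move Γ y (move Γ x l) := by
  funext z
  have hx : Γ.Adj y.1 (bar x).1 := h.symm
  have hy : Γ.Adj x.1 (bar y).1 := h
  rcases four Γ x z with rfl | rfl | h1 | ⟨h0, h1⟩
  · rw [move_self, move_adj _ h.symm, move_adj _ hx, move_adj _ h.symm, move_self]
  · rw [move_bar, move_adj _ h.symm, move_adj _ hx, move_bar]
  · rcases four Γ y z with rfl | rfl | h2 | ⟨h2, h3⟩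
    · rw [move_adj _ h, move_self, move_self, move_adj _ h, move_adj _ hy]
    · rw [move_adj _ hy, move_bar, move_bar, move_adj _ h]
    · rw [move_adj _ h1, move_adj _ h2, move_adj _ h2, move_adj _ h1]
    · rw [move_adj _ h1, move_far _ h2 h3, move_far _ h2 h3, move_adj _ h1, move_adj _ h]
  · rcases four Γ y z with rfl | rfl | h2 | ⟨h2, h3⟩
    · exact absurd h h1
    · exact absurd hy h1
    · rw [move_far _ h0 h1, move_adj _ h2, move_adj _ h2, move_far _ h0 h1, move_adj _ h.symm]
    · rw [move_far _ h0 h1, move_far _ h2 h3, move_far _ h2 h3, move_far _ h0 h1,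
        move_adj _ h.symm, move_adj _ h]
      ring

lemma map_move {S : Type} [CommRing S] (f : R →+* S) (x : V × Bool) :
    (fun y => f (move Γ x l y)) = move Γ x fun y => f (l y) := by
  funext y
  rcases four Γ x y with rfl | rfl | h | ⟨h0, h⟩
  · rw [move_self, move_self, map_add, map_mul, map_ofNat]
  · rw [move_bar, move_bar, map_neg]
  · rw [move_adj _ h, move_adj _ h]
  · rw [move_far _ h0 h, move_far _ h0 h, map_add, map_mul, map_ofNat]

variable (Γ R)

/-- A move as a permutation. -/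
def mv (v : V) : Equiv.Perm (V × Bool → R) :=
  ⟨move Γ (v, false), move Γ (v, true), fun l => move_bar_move l (v, false),
    fun l => move_bar_move l (v, true)⟩

/-- The action on the states. -/
def rho : A Γ →* Equiv.Perm (V × Bool → R) :=
  liftA Γ (mv Γ R) fun _ _ h => Equiv.ext fun l => move_comm l h

lemma rho_gen (v : V) : rho Γ R (gen Γ v) = mv Γ R v := liftA_gen _ _ _ _

/-- The state of a group element. -/
def st (a : A Γ) : V × Bool → R := rho Γ R a⁻¹ fun _ => 1

lemma st_one : st Γ R 1 = fun _ => 1 := by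
  unfold st; rw [inv_one, map_one]; rfl

lemma st_mul (a : A Γ) (x : V × Bool) : st Γ R (a * lt Γ x) = move Γ x (st Γ R a) := by
  obtain ⟨v, b⟩ := x
  unfold st
  rw [mul_inv_rev, map_mul, Equiv.Perm.mul_apply, map_inv]
  cases b
  · show (rho Γ R (gen Γ v)⁻¹)⁻¹ _ = _
    rw [map_inv, inv_inv, rho_gen]
    rfl
  · show (rho Γ R (gen Γ v))⁻¹ _ = _
    rw [rho_gen]
    rfl

lemma map_st (a : A Γ) : (fun y => ((st Γ ℤ a y : ℤ) : R)) = st Γ R a := by
  induction a using word_induction with
  | h1 => rw [st_one, st_one]; funext y; exact Int.cast_one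
  | h2 a x ih => rw [st_mul, st_mul, ← ih]; exact map_move _ (Int.castRingHom R) x

end Move

lemma st_odd (a : A Γ) : ∀ y, Odd (st Γ ℤ a y) := by
  induction a using word_induction with
  | h1 => rw [st_one]; exact fun _ => odd_one
  | h2 a x ih =>
    intro y
    rw [st_mul]
    rcases four Γ x y with rfl | rfl | h | ⟨h0, h⟩
    · rw [move_self]; exact (even_two_mul _).add_odd (ih _)
    · rw [move_bar]; exact (ih _).neg
    · rw [move_adj _ h]; exact ih _
    · rw [move_far _ h0 h]; exact (ih _).add_even (even_two_mul _)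

lemma st_cases (a : A Γ) (y : V × Bool) : 0 < st Γ ℤ a y ∨ st Γ ℤ a y < 0 := by
  obtain ⟨k, hk⟩ := st_odd Γ a y
  omega

/-- The elements reached by `n` ascending moves. -/
inductive Reach : ℕ → A Γ → Prop
  | zero : Reach 0 1
  | succ {n : ℕ} {w : A Γ} (x : V × Bool) : Reach n w → 0 < st Γ ℤ w x → Reach (n + 1) (w * lt Γ x)

variable {Γ}

lemma Reach.pos {n : ℕ} {w : A Γ} (h : Reach Γ n w) :
    ∀ y z, y ≠ z → ¬ Γ.Adj y.1 z.1 → 0 < st Γ ℤ w y + st Γ ℤ w z := by
  induction h with
  | zero => rw [st_one]; intros; norm_num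
  | @succ n w x _ hx ih =>
    have hb := ih x (bar x) (bar_ne x).symm Γ.irrefl
    intro y z hyz h
    have h0 := ih y z hyz h
    rw [st_mul]
    rcases four Γ x y with rfl | rfl | h1 | ⟨h1, h2⟩
    · rcases four Γ y z with rfl | rfl | h3 | ⟨h3, h4⟩
      · exact absurd rfl hyz
      · rw [move_self, move_bar]; omega
      · exact absurd h3 h
      · have := ih (bar y) z (fun e => h3 (e ▸ rfl)) h
        rw [move_self, move_far _ h3 h4]; omega
    · rcases four Γ x z with rfl | rfl | h3 | ⟨h3, h4⟩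
      · rw [move_self, move_bar]; omega
      · exact absurd rfl hyz
      · exact absurd h3 h
      · have := ih x z (fun e => h3 (e ▸ rfl)) h
        rw [move_bar, move_far _ h3 h4]; omega
    · rcases four Γ x z with rfl | rfl | h3 | ⟨h3, h4⟩
      · exact absurd h1.symm h
      · exact absurd h1.symm h
      · rw [move_adj _ h1, move_adj _ h3]; exact h0
      · rw [move_adj _ h1, move_far _ h3 h4]; omega
    · rcases four Γ x z with rfl | rfl | h3 | ⟨h3, h4⟩
      · have := ih y (bar z) (fun e => h1 (e ▸ rfl)) h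
        rw [move_self, move_far _ h1 h2]; omega
      · have := ih y x (fun e => h1 (e ▸ rfl)) h
        rw [move_bar, move_far _ h1 h2]; omega
      · rw [move_far _ h1 h2, move_adj _ h3]; omega
      · rw [move_far _ h1 h2, move_far _ h3 h4]; omega

lemma Reach.adj {n : ℕ} {w : A Γ} (h : Reach Γ n w) {y z : V × Bool} (hyz : y ≠ z)
    (hy : st Γ ℤ w y < 0) (hz : st Γ ℤ w z < 0) : Γ.Adj y.1 z.1 := by
  by_contra hc
  have := h.pos y z hyz hc
  omega

lemma st_bar_neg {w : A Γ} {x : V × Bool} (hx : 0 < st Γ ℤ w x) :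
    st Γ ℤ (w * lt Γ x) (bar x) < 0 := by
  rw [st_mul, move_bar]; omega

lemma Reach.down {n : ℕ} {w : A Γ} (h : Reach Γ n w) :
    ∀ y, st Γ ℤ w y < 0 → ∃ m, n = m + 1 ∧ Reach Γ m (w * lt Γ y) := by
  induction h with
  | zero => rw [st_one]; intro y hy; norm_num at hy
  | @succ n w x hw hx ih =>
    intro y hy
    refine ⟨n, rfl, ?_⟩
    by_cases e : y = bar x
    · rwa [e, mul_assoc, lt_mul_bar, mul_one]
    · have ha : Γ.Adj y.1 x.1 := (hw.succ x hx).adj (z := bar x) e hy (st_bar_neg hx)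
      rw [st_mul, move_adj _ ha.symm] at hy
      obtain ⟨m, rfl, hm⟩ := ih y hy
      rw [mul_assoc, ← (lt_comm Γ ha).eq, ← mul_assoc]
      exact hm.succ x (by rwa [st_mul, move_adj _ ha])

lemma Reach.cases {n : ℕ} {w : A Γ} (h : Reach Γ n w) :
    (n = 0 ∧ w = 1) ∨ (n ≠ 0 ∧ ∃ x, st Γ ℤ w x < 0) := by
  cases h with
  | zero => exact .inl ⟨rfl, rfl⟩
  | succ x _ hx => exact .inr ⟨Nat.succ_ne_zero _, bar x, st_bar_neg hx⟩

lemma Reach.unique {n : ℕ} {w : A Γ} (h : Reach Γ n w) : ∀ m, Reach Γ m w → n = m := by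
  induction h with
  | zero =>
    intro m hm
    rcases hm.cases with h | ⟨-, x, hx⟩
    · exact h.1.symm
    · rw [st_one] at hx; norm_num at hx
  | @succ n w x hw hx ih =>
    intro m hm
    obtain ⟨k, rfl, hk⟩ := hm.down _ (st_bar_neg hx)
    rw [mul_assoc, lt_mul_bar, mul_one] at hk
    rw [ih k hk]

variable (Γ)

lemma exists_reach (a : A Γ) : ∃ n, Reach Γ n a := by
  induction a using word_induction with
  | h1 => exact ⟨0, .zero⟩
  | h2 a x ih =>
    obtain ⟨n, hn⟩ := ih
    rcases st_cases Γ a x with h | h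
    · exact ⟨n + 1, hn.succ x h⟩
    · obtain ⟨m, -, hm⟩ := hn.down x h
      exact ⟨m, hm⟩

/-- The length. -/
def len (a : A Γ) : ℕ := (exists_reach Γ a).choose

lemma reach_len (a : A Γ) : Reach Γ (len Γ a) a := (exists_reach Γ a).choose_spec

lemma len_step (a : A Γ) (x : V × Bool) :
    (0 < st Γ ℤ a x ∧ len Γ (a * lt Γ x) = len Γ a + 1) ∨
      (st Γ ℤ a x < 0 ∧ len Γ (a * lt Γ x) + 1 = len Γ a) := by
  rcases st_cases Γ a x with h | h
  · exact .inl ⟨h, (reach_len Γ _).unique _ ((reach_len Γ a).succ x h)⟩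
  · obtain ⟨m, h1, h2⟩ := (reach_len Γ a).down x h
    exact .inr ⟨h, by rw [h1, (reach_len Γ _).unique _ h2]⟩

lemma len_lt (a : A Γ) (x : V × Bool) : len Γ (a * lt Γ x) < len Γ a ↔ st Γ ℤ a x < 0 := by
  have := len_step Γ a x
  omega

end LenAux

open LenAux in
theorem lenStmt : LenStmt := by
  intro V _ _ Γ
  refine ⟨⟨⟨len Γ, fun a h => ?_, fun a x => (len_step Γ a x).imp And.right And.right,
    fun a h => ?_, fun a x y hxy hx hy => ?_, fun a x y h => ?_⟩⟩, ?_⟩
  · exact ((reach_len Γ a).cases.resolve_right fun h' => h'.1 h).2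
  · obtain ⟨-, x, hx⟩ := (reach_len Γ a).cases.resolve_left fun h' => h h'.1
    exact ⟨x, (len_lt Γ a x).2 hx⟩
  · exact (reach_len Γ a).adj hxy ((len_lt Γ a x).1 hx) ((len_lt Γ a y).1 hy)
  · rw [len_lt, len_lt, st_mul, move_adj _ h]
  · refine Group.residuallyFinite_of_forall_exists_finite_monoidHom.{0} fun a ha => ?_
    obtain ⟨-, x, hx⟩ := (reach_len Γ a).cases.resolve_left fun h' => ha h'.2
    obtain ⟨m, hm⟩ : ∃ m : ℕ, (m : ℤ) = 1 - st Γ ℤ a x := ⟨_, Int.toNat_of_nonneg (by omega)⟩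
    refine ⟨Equiv.Perm (V × Bool → ZMod (m + 1)), inferInstance, inferInstance,
      rho Γ (ZMod (m + 1)), fun h => ?_⟩
    have h1 : st Γ (ZMod (m + 1)) a x = 1 := by
      show rho Γ (ZMod (m + 1)) a⁻¹ (fun _ => 1) x = 1
      rw [map_inv, h, inv_one]
      rfl
    have h2 : ((m : ℤ) : ZMod (m + 1)) = 0 := by
      rw [hm, Int.cast_sub, Int.cast_one, congrFun (map_st Γ (ZMod (m + 1)) a) x, h1, sub_self]
    have h3 := Int.le_of_dvd (by omega) ((ZMod.intCast_zmod_eq_zero_iff_dvd _ _).1 h2)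
    push_cast at h3
    omega

end Crest.Agent.R197
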