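import Crest.Agent.R197.Defs

/-! Row 197: the presentation `P0` of the Bestvina-Brady group is acyclic. -/

set_option autoImplicit false
set_option linter.unusedSectionVars false
set_option linter.unusedSimpArgs false

noncomputable section

namespace Crest.Agent.R197

namespace P0Aux

variable {V : Type} (Γ : SimpleGraph V)

/-! ## Generation -/

/-- The subgroup generated by the quotients of adjacent generators. -/
def N : Subgroup (A Γ) := Subgroup.closure {a | ∃ u v, Γ.Adj u v ∧ a = gen Γ u * (gen Γ v)⁻¹}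

variable {Γ}

theorem mul_inv_mem (hc : Γ.Preconnected) (u v : V) : gen Γ u * (gen Γ v)⁻¹ ∈ N Γ := by
  obtain ⟨p⟩ := hc u v
  induction p with
  | nil => simp
  | @cons a b c h _ ih =>
    have h1 : gen Γ a * (gen Γ b)⁻¹ ∈ N Γ := Subgroup.subset_closure ⟨a, b, h, rfl⟩
    have h2 := (N Γ).mul_mem h1 ih
    simpa [mul_assoc] using h2

theorem inv_mul_mem (hc : Γ.Preconnected) (u v : V) : (gen Γ u)⁻¹ * gen Γ v ∈ N Γ := by
  obtain ⟨p⟩ := hc u v
  induction p with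
  | nil => simp
  | @cons a b c h _ ih =>
    have h1 : gen Γ b * (gen Γ a)⁻¹ ∈ N Γ := Subgroup.subset_closure ⟨b, a, h.symm, rfl⟩
    rw [(gen_comm h.symm).inv_right.eq] at h1
    have h2 := (N Γ).mul_mem h1 ih
    simpa [mul_assoc] using h2

theorem conj_mem (g : A Γ) (hg : ∀ u v, Γ.Adj u v → g * (gen Γ u * (gen Γ v)⁻¹) * g⁻¹ ∈ N Γ)
    (n : A Γ) (hn : n ∈ N Γ) : g * n * g⁻¹ ∈ N Γ := by
  induction hn using Subgroup.closure_induction with
  | mem x hx =>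
    obtain ⟨u, v, h, rfl⟩ := hx
    exact hg u v h
  | one => simp
  | mul x y _ _ hx hy =>
    have := (N Γ).mul_mem hx hy
    simpa [mul_assoc] using this
  | inv x _ hx =>
    have := (N Γ).inv_mem hx
    simpa [mul_assoc] using this

theorem N_normal (hc : Γ.Preconnected) : (N Γ).Normal := by
  rw [← Subgroup.normalizer_eq_top_iff, eq_top_iff]
  intro a _
  refine PresentedGroup.generated_by _ _ (fun w => ?_) a
  change gen Γ w ∈ _
  rw [Subgroup.mem_normalizer_iff]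
  intro n
  constructor
  · refine conj_mem _ (fun u v h => ?_) n
    rw [(gen_comm h).inv_right.eq]
    have := (N Γ).mul_mem (mul_inv_mem hc w v) (mul_inv_mem hc u w)
    simpa [mul_assoc] using this
  · intro hn
    have h1 := conj_mem (gen Γ w)⁻¹ (fun u v _ => by
      have := (N Γ).mul_mem (inv_mul_mem hc w u) (inv_mul_mem hc v w)
      simpa [mul_assoc] using this) _ hn
    simpa [mul_assoc] using h1

theorem mem_N (hc : Γ.Preconnected) (v₀ : V) (a : A Γ) (ha : a ∈ H Γ) : a ∈ N Γ := by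
  have := N_normal hc
  have h1 : QuotientGroup.mk' (N Γ) =
      (zpowersHom _ (QuotientGroup.mk' (N Γ) (gen Γ v₀))).comp (htHom Γ) := by
    refine PresentedGroup.ext fun w => ?_
    change QuotientGroup.mk' (N Γ) (gen Γ w) = zpowersHom _ _ (htHom Γ (gen Γ w))
    have : htHom Γ (gen Γ w) = Multiplicative.ofAdd 1 := by simp [htHom]
    rw [this, zpowersHom_apply, toAdd_ofAdd, zpow_one, QuotientGroup.mk'_apply,
      QuotientGroup.mk'_apply, QuotientGroup.eq]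
    exact inv_mul_mem hc w v₀
  have h2 := DFunLike.congr_fun h1 a
  rw [MonoidHom.comp_apply, (MonoidHom.mem_ker).1 ha, map_one, QuotientGroup.mk'_apply,
    QuotientGroup.eq_one_iff] at h2
  exact h2

theorem surj (hc : Γ.Preconnected) (v₀ : V) :
    Function.Surjective (FreeGroup.lift (gen0 Γ v₀)) := by
  intro h
  have h1 : N Γ ≤ ((H Γ).subtype.comp (FreeGroup.lift (gen0 Γ v₀))).range := by
    rw [N, Subgroup.closure_le]
    rintro _ ⟨u, v, _, rfl⟩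
    refine ⟨FreeGroup.of (false, u) * (FreeGroup.of (false, v))⁻¹, ?_⟩
    simp [gen0, mul_assoc]
  obtain ⟨w, hw⟩ := h1 (mem_N hc v₀ h h.2)
  exact ⟨w, Subtype.ext hw⟩

/-! ## The dictionary with the slab -/

variable [LinearOrder V] (Γ) (v₀ : V)

/-- The empty clique. -/
def c0 : Clq Γ := ⟨∅, by simp⟩

/-- A vertex as a clique. -/
def c1 (v : V) : Clq Γ := ⟨{v}, by simp⟩

/-- An edge as a clique. -/
def c2 (p : E2 Γ) : Clq Γ := ⟨{p.1.1, p.1.2}, by
  simpa [SimpleGraph.isClique_pair] using fun _ => p.2.2⟩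

theorem dC_c1 (a : A Γ) (v : V) : dC Γ (Finsupp.single (a, c1 Γ v) 1) =
    Finsupp.single (a * gen Γ v, c0 Γ) 1 - Finsupp.single (a, c0 Γ) 1 := by
  have h1 : (c1 Γ v).erase v = c0 Γ := Subtype.ext (by simp [c1, c0, Clq.erase])
  have h2 : sgn ({v} : Finset V) v = 1 := by simp [sgn, Finset.filter_singleton]
  simp only [dC, Finsupp.linearCombination_single, one_smul]
  change ∑ w ∈ ({v} : Finset V), sgn ({v} : Finset V) w • _ = _
  rw [Finset.sum_singleton, h1, h2, one_smul]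

theorem dC_c2 (a : A Γ) (p : E2 Γ) : dC Γ (Finsupp.single (a, c2 Γ p) 1) =
    Finsupp.single (a * gen Γ p.1.1, c1 Γ p.1.2) 1 - Finsupp.single (a, c1 Γ p.1.2) 1 -
      (Finsupp.single (a * gen Γ p.1.2, c1 Γ p.1.1) 1 - Finsupp.single (a, c1 Γ p.1.1) 1) := by
  obtain ⟨⟨u, v⟩, huv, hadj⟩ := p
  have hne : u ≠ v := ne_of_lt huv
  have h1 : (c2 Γ ⟨(u, v), huv, hadj⟩).erase u = c1 Γ v :=
    Subtype.ext (by simp [c1, c2, Clq.erase, Finset.erase_insert_of_ne, hne])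
  have h1' : (c2 Γ ⟨(u, v), huv, hadj⟩).erase v = c1 Γ u :=
    Subtype.ext (by simp [c1, c2, Clq.erase, Finset.erase_insert_of_ne hne])
  have h2 : sgn ({u, v} : Finset V) u = 1 := by
    simp [sgn, Finset.filter_insert, Finset.filter_singleton, not_lt_of_gt huv]
  have h2' : sgn ({u, v} : Finset V) v = -1 := by
    have : u < v := huv
    simp [sgn, Finset.filter_insert, Finset.filter_singleton, this]
  simp only [dC, Finsupp.linearCombination_single, one_smul]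
  change ∑ w ∈ ({u, v} : Finset V), sgn ({u, v} : Finset V) w • _ = _
  rw [Finset.sum_pair hne, h1, h1', h2, h2', one_smul, neg_one_smul, ← sub_eq_add_neg]

/-- The edges of the slab. -/
def j1 : H Γ × (Bool × V) → Cube Γ
  | (h, (false, v)) => (h, c1 Γ v)
  | (h, (true, v)) => (h * gen Γ v₀, c1 Γ v)

/-- The squares of the slab. -/
def j2 (e : H Γ × E2 Γ) : Cube Γ := (e.1, c2 Γ e.2)

theorem c1_inj : Function.Injective (c1 Γ) := fun u v h => by
  simpa [c1] using h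

theorem j1_inj : Function.Injective (j1 Γ v₀) := by
  rintro ⟨h, k, v⟩ ⟨h', k', v'⟩ he
  have h0 := (mem_H Γ).1 h.2
  have h0' := (mem_H Γ).1 h'.2
  cases k <;> cases k' <;> simp only [j1, Prod.mk.injEq] at he <;> obtain ⟨h1, h2⟩ := he
  · rw [Subtype.ext h1, c1_inj Γ h2]
  · have := congrArg (ht Γ) h1
    simp [h0, h0'] at this
  · have := congrArg (ht Γ) h1
    simp [h0, h0'] at this
  · rw [Subtype.ext (mul_right_cancel h1), c1_inj Γ h2]

theorem j2_inj : Function.Injective (j2 Γ) := by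
  rintro ⟨h, ⟨u, v⟩, huv, ha⟩ ⟨h', ⟨u', v'⟩, huv', ha'⟩ he
  simp only [j2, c2, Prod.mk.injEq, Subtype.mk.injEq] at he ⊢
  obtain ⟨h1, h2⟩ := he
  refine ⟨Subtype.ext h1, ?_⟩
  have h3 : ({u, v} : Set V) = {u', v'} := by
    rw [← Finset.coe_pair, h2, Finset.coe_pair]
  rw [Set.pair_eq_pair_iff] at h3
  rcases h3 with h3 | ⟨h3, h4⟩
  · exact h3
  · subst h3 h4
    exact absurd huv (not_lt_of_gt huv')

theorem j1_mem (e : H Γ × (Bool × V)) : j1 Γ v₀ e ∈ Slab Γ 1 := by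
  obtain ⟨h, k, v⟩ := e
  have h0 := (mem_H Γ).1 h.2
  cases k <;> simp [j1, Slab, c1, h0]

theorem j2_mem (e : H Γ × E2 Γ) : j2 Γ e ∈ Slab Γ 2 := by
  obtain ⟨h, ⟨u, v⟩, huv, ha⟩ := e
  have h0 := (mem_H Γ).1 h.2
  simp [j2, Slab, c2, h0, Finset.card_pair (ne_of_lt huv)]

theorem slab2_sub : Slab Γ 2 ⊆ Set.range (j2 Γ) := by
  rintro ⟨a, σ, hσ⟩ ⟨h1, h2, h3⟩
  have h0 : ht Γ a = 0 := by
    simp only [Nat.cast_ofNat] at h2 h3
    omega
  obtain ⟨u, v, hne, rfl⟩ := Finset.card_eq_two.1 h1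
  have hadj : Γ.Adj u v := hσ (by simp) (by simp) hne
  rcases lt_or_gt_of_ne hne with h | h
  · exact ⟨(⟨a, (mem_H Γ).2 h0⟩, ⟨(u, v), h, hadj⟩), rfl⟩
  · refine ⟨(⟨a, (mem_H Γ).2 h0⟩, ⟨(v, u), h, hadj.symm⟩), ?_⟩
    simp [j2, c2, Finset.pair_comm]

/-- Edge chains as cubical chains. -/
def J1 : (H Γ × (Bool × V) →₀ ℤ) →ₗ[ℤ] (Cube Γ →₀ ℤ) := Finsupp.lmapDomain ℤ ℤ (j1 Γ v₀)

/-- Square chains as cubical chains. -/
def J2 : (H Γ × E2 Γ →₀ ℤ) →ₗ[ℤ] (Cube Γ →₀ ℤ) := Finsupp.lmapDomain ℤ ℤ (j2 Γ)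

/-- Vertex chains as cubical chains. -/
def J0 : (H Γ →₀ ℤ) →ₗ[ℤ] (Cube Γ →₀ ℤ) := Finsupp.lmapDomain ℤ ℤ fun h => ((h : A Γ), c0 Γ)

/-- Squares as relators. -/
def inL : (H Γ × E2 Γ →₀ ℤ) →ₗ[ℤ] (H Γ × (E2 Γ ⊕ Bool) →₀ ℤ) :=
  Finsupp.lmapDomain ℤ ℤ fun e => (e.1, Sum.inl e.2)

/-- `v₀`-edges as relators. -/
def inR : (H Γ × Bool →₀ ℤ) →ₗ[ℤ] (H Γ × (E2 Γ ⊕ Bool) →₀ ℤ) :=
  Finsupp.lmapDomain ℤ ℤ fun e => (e.1, Sum.inr e.2)

/-- `v₀`-edges as edges. -/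
def io : (H Γ × Bool →₀ ℤ) →ₗ[ℤ] (H Γ × (Bool × V) →₀ ℤ) :=
  Finsupp.lmapDomain ℤ ℤ fun e => (e.1, (e.2, v₀))

/-- The differentials, with the types unfolded. -/
def D1 : (H Γ × (Bool × V) →₀ ℤ) →ₗ[ℤ] (H Γ →₀ ℤ) := (P0 Γ v₀).d1

/-- The differentials, with the types unfolded. -/
def D2 : (H Γ × (E2 Γ ⊕ Bool) →₀ ℤ) →ₗ[ℤ] (H Γ × (Bool × V) →₀ ℤ) := (P0 Γ v₀).d2

theorem D1_single (h : H Γ) (s : Bool × V) : D1 Γ v₀ (Finsupp.single (h, s) 1) =
    Finsupp.single (h * gen0 Γ v₀ s) 1 - Finsupp.single h 1 :=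
  ((P0 Γ v₀).d1_single h s 1).trans (one_smul _ _)

theorem D2_single (h : H Γ) (r : E2 Γ ⊕ Bool) : D2 Γ v₀ (Finsupp.single (h, r) 1) =
    chain (gen0 Γ v₀) h (rel0 Γ v₀ r) :=
  ((P0 Γ v₀).d2_single h r 1).trans (one_smul _ _)

theorem D2_inl (h : H Γ) (p : E2 Γ) : D2 Γ v₀ (Finsupp.single (h, Sum.inl p) 1) =
    Finsupp.single (h, (false, p.1.1)) 1 +
      Finsupp.single (h * gen0 Γ v₀ (false, p.1.1), (true, p.1.2)) 1 -
      Finsupp.single (h * gen0 Γ v₀ (false, p.1.2), (true, p.1.1)) 1 -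
      Finsupp.single (h, (false, p.1.2)) 1 := by
  obtain ⟨⟨u, v⟩, huv, hadj⟩ := p
  have hc := (gen_comm hadj).eq
  have h1 : gen0 Γ v₀ (false, u) * gen0 Γ v₀ (true, v) =
      gen0 Γ v₀ (false, v) * gen0 Γ v₀ (true, u) := by
    apply Subtype.ext
    simp only [gen0, Subgroup.coe_mul]
    calc _ = gen Γ u * gen Γ v * (gen Γ v₀)⁻¹ * (gen Γ v₀)⁻¹ := by group
      _ = _ := by rw [hc]; group
  rw [D2_single]
  simp only [rel0, chain_mul, chain_inv, chain_of, map_mul, map_inv, FreeGroup.lift_apply_of, h1,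
    mul_assoc, mul_inv_cancel, mul_one, mul_inv_cancel_left]
  abel

theorem D2_inR (b : H Γ × Bool →₀ ℤ) : D2 Γ v₀ (inR Γ b) = io Γ v₀ b := by
  have : (D2 Γ v₀).comp (inR Γ) = io Γ v₀ := by
    refine Finsupp.lhom_ext' fun e => LinearMap.ext_ring ?_
    obtain ⟨h, k⟩ := e
    simp [inR, io, D2_single, rel0]
  exact DFunLike.congr_fun this b

theorem J1_D2_inL (y : H Γ × E2 Γ →₀ ℤ) : J1 Γ v₀ (D2 Γ v₀ (inL Γ y)) = dC Γ (J2 Γ y) := by
  have : (J1 Γ v₀).comp ((D2 Γ v₀).comp (inL Γ)) = (dC Γ).comp (J2 Γ) := by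
    refine Finsupp.lhom_ext' fun e => LinearMap.ext_ring ?_
    obtain ⟨h, p⟩ := e
    simp only [inL, J2, J1, j2, LinearMap.comp_apply, Finsupp.lsingle_apply,
      Finsupp.lmapDomain_apply, Finsupp.mapDomain_single, D2_inl, dC_c2, map_sub, map_add, j1,
      gen0, Subgroup.coe_mul, mul_assoc, inv_mul_cancel, mul_one]
    abel
  exact DFunLike.congr_fun this y

/-- The correction by `v₀`-edges. -/
def B : (H Γ × (Bool × V) →₀ ℤ) →ₗ[ℤ] (H Γ × Bool →₀ ℤ) :=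
  Finsupp.linearCombination ℤ fun e => Finsupp.single (e.1 * gen0 Γ v₀ e.2, false) 1 +
    if e.2.1 then Finsupp.single (e.1 * gen0 Γ v₀ e.2, true) 1 - Finsupp.single (e.1, false) 1
    else 0

theorem dC_J1_B (z : H Γ × (Bool × V) →₀ ℤ) :
    dC Γ (J1 Γ v₀ (z - io Γ v₀ (B Γ v₀ z))) = J0 Γ (D1 Γ v₀ z) := by
  have : (dC Γ).comp ((J1 Γ v₀).comp (LinearMap.id - (io Γ v₀).comp (B Γ v₀))) =
      (J0 Γ).comp (D1 Γ v₀) := by
    refine Finsupp.lhom_ext' fun e => LinearMap.ext_ring ?_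
    obtain ⟨h, k, v⟩ := e
    cases k
    · simp only [B, io, J0, J1, LinearMap.comp_apply, Finsupp.lsingle_apply, LinearMap.sub_apply,
        LinearMap.id_apply, Finsupp.linearCombination_single, one_smul, D1_single,
        Finsupp.lmapDomain_apply, Finsupp.mapDomain_single, map_sub, map_add, j1, dC_c1,
        gen0, Subgroup.coe_mul, mul_assoc, inv_mul_cancel, mul_one, Bool.false_eq_true, if_false,
        add_zero]
      abel
    · simp only [B, io, J0, J1, LinearMap.comp_apply, Finsupp.lsingle_apply, LinearMap.sub_apply,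
        LinearMap.id_apply, Finsupp.linearCombination_single, one_smul, D1_single,
        Finsupp.lmapDomain_apply, Finsupp.mapDomain_single, map_sub, map_add, j1, dC_c1,
        gen0, Subgroup.coe_mul, mul_assoc, inv_mul_cancel, mul_one, if_true,
        inv_mul_cancel_left]
      abel
  exact DFunLike.congr_fun this z

/-- A retraction onto the `v₀`-edges that kills the squares. -/
def F : (H Γ × (Bool × V) →₀ ℤ) →ₗ[ℤ] (H Γ × Bool →₀ ℤ) :=
  Finsupp.lmapDomain ℤ ℤ fun e => (if e.2.1 then e.1 * gen0 Γ v₀ e.2 else e.1, e.2.1)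

theorem F_io (b : H Γ × Bool →₀ ℤ) : F Γ v₀ (io Γ v₀ b) = b := by
  have : (F Γ v₀).comp (io Γ v₀) = LinearMap.id := by
    refine Finsupp.lhom_ext' fun e => LinearMap.ext_ring ?_
    obtain ⟨h, k⟩ := e
    have h1 : gen0 Γ v₀ (true, v₀) = 1 := Subtype.ext (by simp [gen0])
    cases k <;> simp [F, io, h1]
  exact DFunLike.congr_fun this b

theorem F_D2_inL (y : H Γ × E2 Γ →₀ ℤ) : F Γ v₀ (D2 Γ v₀ (inL Γ y)) = 0 := by
  have : (F Γ v₀).comp ((D2 Γ v₀).comp (inL Γ)) = 0 := by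
    refine Finsupp.lhom_ext' fun e => LinearMap.ext_ring ?_
    obtain ⟨h, ⟨u, v⟩, huv, hadj⟩ := e
    have hc := (gen_comm hadj).eq
    have h1 : gen0 Γ v₀ (false, u) * gen0 Γ v₀ (true, v) =
        gen0 Γ v₀ (false, v) * gen0 Γ v₀ (true, u) := by
      apply Subtype.ext
      simp only [gen0, Subgroup.coe_mul]
      calc _ = gen Γ u * gen Γ v * (gen Γ v₀)⁻¹ * (gen Γ v₀)⁻¹ := by group
        _ = _ := by rw [hc]; group
    simp only [inL, F, LinearMap.comp_apply, Finsupp.lsingle_apply,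
      Finsupp.lmapDomain_apply, Finsupp.mapDomain_single, D2_inl, map_sub, map_add, if_true,
      Bool.false_eq_true, if_false, mul_assoc, h1, LinearMap.zero_apply]
    abel
  exact DFunLike.congr_fun this y

theorem decomp (x : H Γ × (E2 Γ ⊕ Bool) →₀ ℤ) : ∃ y b, x = inL Γ y + inR Γ b := by
  induction x using Finsupp.induction_linear with
  | zero => exact ⟨0, 0, by simp⟩
  | add a a' ha ha' =>
    obtain ⟨y, b, rfl⟩ := ha
    obtain ⟨y', b', rfl⟩ := ha'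
    exact ⟨y + y', b + b', by rw [map_add, map_add]; abel⟩
  | single e k =>
    obtain ⟨h, p | p⟩ := e
    · exact ⟨Finsupp.single (h, p) k, 0, by simp [inL]⟩
    · exact ⟨0, Finsupp.single (h, p) k, by simp [inR]⟩

theorem supp_sub {α β : Type} (f : α → β) (s : Set β) (hf : ∀ a, f a ∈ s) (z : α →₀ ℤ) :
    ↑(Finsupp.mapDomain f z).support ⊆ s := by
  classical
  intro b hb
  obtain ⟨a, _, rfl⟩ := Finset.mem_image.1 (Finsupp.mapDomain_support hb)
  exact hf a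

theorem exact1 (hs : SlabExact Γ) (z : H Γ × (Bool × V) →₀ ℤ) (hz : D1 Γ v₀ z = 0) :
    ∃ y, D2 Γ v₀ y = z := by
  have h1 := dC_J1_B Γ v₀ z
  rw [hz, map_zero] at h1
  obtain ⟨y, hy, hy'⟩ := hs.1 _ (supp_sub _ _ (j1_mem Γ v₀) _) h1
  have h2 : J2 Γ (Finsupp.comapDomain (j2 Γ) y (j2_inj Γ).injOn) = y :=
    Finsupp.mapDomain_comapDomain _ (j2_inj Γ) y (hy.trans (slab2_sub Γ))
  have h3 := J1_D2_inL Γ v₀ (Finsupp.comapDomain (j2 Γ) y (j2_inj Γ).injOn)
  rw [h2, hy'] at h3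
  have h4 := Finsupp.mapDomain_injective (j1_inj Γ v₀) h3
  exact ⟨_ + inR Γ (B Γ v₀ z), by rw [map_add, h4, D2_inR, sub_add_cancel]⟩

theorem inj2 (hs : SlabExact Γ) : Function.Injective (D2 Γ v₀) := by
  rw [injective_iff_map_eq_zero]
  intro x hx
  obtain ⟨y, b, rfl⟩ := decomp Γ x
  rw [map_add, D2_inR] at hx
  have hb : b = 0 := by
    have := congrArg (F Γ v₀) hx
    rwa [map_add, F_D2_inL, F_io, zero_add, map_zero] at this
  rw [hb, map_zero, add_zero] at hx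
  have h1 := J1_D2_inL Γ v₀ y
  rw [hx, map_zero] at h1
  have h2 := hs.2 _ (supp_sub _ _ (j2_mem Γ) y) h1.symm
  have hy : y = 0 := Finsupp.mapDomain_injective (j2_inj Γ) (h2.trans Finsupp.mapDomain_zero.symm)
  rw [hy, hb, map_zero, map_zero, add_zero]

end P0Aux

theorem p0Stmt : P0Stmt := fun _ _ _ Γ v₀ hc hs =>
  ⟨P0Aux.surj hc v₀, P0Aux.exact1 Γ v₀ hs, P0Aux.inj2 Γ v₀ hs⟩

end Crest.Agent.R197
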