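import Crest.Agent.R197.TopDefs

/-!
# Row 197: the holonomy of a flat connection
-/

set_option autoImplicit false

noncomputable section

namespace Crest.Agent.R197

open unitInterval _root_.Topology Set

namespace Pot
variable {Z G : Type} [TopologicalSpace Z] [Group G] (p : Pot Z G)

theorem Dev.mul_left {T : Type} [TopologicalSpace T] {γ : T → Z} {c : T → G} (h : p.Dev γ c)
    (g : G) : p.Dev γ fun t => g * c t :=
  fun t => (h t).mono fun _ ht' => (congrArg _ ht').trans (mul_assoc ..).symm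

variable [TopologicalSpace G] [DiscreteTopology G]

/-- The covering space of the connection. -/
def core : FiberBundleCore Z Z G where
  baseSet z := interior {y | ∀ᶠ y' in 𝓝 y, p.u z y' = p.u z y * p.u y y'}
  isOpen_baseSet _ := isOpen_interior
  indexAt z := z
  mem_baseSet_at z := mem_interior_iff_mem_nhds.2 (p.loc z)
  coordChange i j y g := g * p.u i y * (p.u j y)⁻¹
  coordChange_self _ _ _ _ := by group
  continuousOn_coordChange i j := by
    rintro ⟨y, g⟩ ⟨⟨hi, hj⟩, -⟩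
    refine ContinuousAt.continuousWithinAt (tendsto_nhds_of_eventually_eq ?_)
    have h1 : ∀ᶠ q : Z × G in 𝓝 (y, g), q.2 = g :=
      (isOpen_discrete {g}).preimage continuous_snd |>.mem_nhds rfl
    have h2 : ∀ᶠ y' in 𝓝 y, p.u i y' = p.u i y * p.u y y' := (interior_subset hi :)
    have h3 : ∀ᶠ y' in 𝓝 y, p.u j y' = p.u j y * p.u y y' := (interior_subset hj :)
    filter_upwards [h1, (continuousAt_fst (p := (y, g))).eventually h2,
      (continuousAt_fst (p := (y, g))).eventually h3] with q h1 h2 h3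
    rw [h1, h2, h3]
    group
  coordChange_comp _ _ _ _ _ _ := by group

theorem cont_iff {T : Type} [TopologicalSpace T] (Γ : T → p.core.TotalSpace) :
    Continuous Γ ↔ Continuous (fun t => (Γ t).1) ∧ p.Dev (fun t => (Γ t).1) fun t => (Γ t).2 := by
  simp only [continuous_iff_continuousAt, FiberBundle.continuousAt_totalSpace G Γ, forall_and, Dev]
  refine and_congr_right fun _ => forall_congr' fun t => ?_
  rw [ContinuousAt, nhds_discrete G, Filter.tendsto_pure]
  refine Filter.eventually_congr (Filter.Eventually.of_forall fun t' => ?_)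
  have : ∀ (a b : Z) (g g' : G), g' * p.u b b * (p.u a b)⁻¹ = g * p.u a a * (p.u a a)⁻¹ ↔
      g' = g * p.u a b := fun a b g g' => by
    rw [p.self, p.self, mul_one, mul_one, inv_one, mul_one, mul_inv_eq_iff_eq_mul]
  exact this ..

theorem cov : IsCoveringMap (Bundle.TotalSpace.proj : p.core.TotalSpace → Z) :=
  FiberBundle.isCoveringMap

/-- Parallel transport. -/
def mon {x y : Z} (ξ : PQ x y) (g : G) : G := (p.cov.monodromy ξ ⟨⟨x, g⟩, rfl⟩).1.2

theorem exists_dev {x y : Z} (γ : Path x y) : ∃ c : I → G, p.Dev γ c := by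
  have h1 := p.cov.liftPath_lifts γ ⟨x, (1 : G)⟩ γ.source
  have h2 := ((p.cont_iff _).1 (p.cov.liftPath γ ⟨x, (1 : G)⟩ γ.source).continuous).2
  exact ⟨_, (show (fun t => (p.cov.liftPath γ ⟨x, (1 : G)⟩ γ.source t).1) = γ from h1) ▸ h2⟩

theorem mon_mk {x y : Z} (γ : Path x y) {c : I → G} (h : p.Dev γ c) :
    p.mon (.mk γ) (c 0) = c 1 := by
  have h1 : (fun t => (⟨γ t, c t⟩ : p.core.TotalSpace)) =
      p.cov.liftPath γ ⟨x, c 0⟩ γ.source :=
    (p.cov.eq_liftPath_iff _).2 ⟨(p.cont_iff _).2 ⟨γ.continuous, h⟩, rfl,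
      congrArg (fun z => (⟨z, c 0⟩ : p.core.TotalSpace)) γ.source⟩
  exact (congrArg (fun e : p.core.TotalSpace => (e.2 : G)) (congrFun h1 1)).symm

theorem mon_eq {x y : Z} (ξ : PQ x y) (g : G) : p.mon ξ g = g * p.mon ξ 1 := by
  obtain ⟨γ⟩ := ξ
  obtain ⟨c, hc⟩ := p.exists_dev γ
  have h1 := p.mon_mk γ (hc.mul_left p (g * (c 0)⁻¹))
  have h2 := p.mon_mk γ (hc.mul_left p (c 0)⁻¹)
  rw [inv_mul_cancel_right] at h1
  rw [inv_mul_cancel] at h2
  exact h1.trans ((mul_assoc ..).trans (congrArg _ h2.symm))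

theorem mon_trans {x y z : Z} (ξ : PQ x y) (ζ : PQ y z) (g : G) :
    p.mon (ξ.trans ζ) g = p.mon ζ (p.mon ξ g) := by
  unfold mon
  rw [p.cov.monodromy_trans_apply]
  generalize p.cov.monodromy ξ ⟨⟨x, g⟩, rfl⟩ = e
  obtain ⟨⟨y', g'⟩, rfl⟩ := e
  rfl

end Pot

theorem potStmt : PotStmt := by
  intro Z G _ _ p
  let _ : TopologicalSpace G := ⊥
  have : DiscreteTopology G := ⟨rfl⟩
  exact ⟨fun ξ => p.mon ξ 1, fun ξ ζ => (p.mon_trans ξ ζ 1).trans (p.mon_eq _ _), p.exists_dev,
    fun γ c hc => (p.mon_mk γ hc).symm.trans (p.mon_eq _ _)⟩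

end Crest.Agent.R197
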