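import Crest.Agent.R197.TopDefs

/-! Row 197: pushing paths and connections off the faces of a two-dimensional complex. -/

set_option autoImplicit false

noncomputable section

namespace Crest.Agent.R197

open unitInterval _root_.Topology Set Filter

namespace Retract

/-- The direction of a point of the disc. -/
def nz (z : Disc) : Circle := Circle.exp (Complex.arg z)

theorem nz_inc (w : Circle) : nz (inc w) = w := Circle.exp_arg w

theorem norm_mul_nz (z : Disc) : (‖(z : ℂ)‖ : ℂ) * (nz z : ℂ) = z := by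
  rw [nz, Circle.coe_exp]; exact Complex.norm_mul_exp_arg_mul_I _

theorem norm_inc (w : Circle) : ‖(inc w : ℂ)‖ = 1 := w.norm_coe

theorem norm_ctr : ‖(ctr : ℂ)‖ < 1 := by simp [ctr]

theorem inc_ne (w : Circle) : inc w ≠ ctr := fun h => by
  have := norm_inc w
  rw [h] at this
  exact norm_ctr.ne this

theorem eq_inc {z : Disc} (h : ¬ ‖(z : ℂ)‖ < 1) : z = inc (nz z) := by
  have h1 : ‖(z : ℂ)‖ = 1 := le_antisymm (mem_closedBall_zero_iff.1 z.2) (not_lt.1 h)
  apply Subtype.ext
  have := norm_mul_nz z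
  rw [h1, Complex.ofReal_one, one_mul] at this
  exact this.symm

theorem continuousOn_nz : ContinuousOn nz {z | z ≠ ctr} := by
  have h0 : ∀ z : Disc, z ≠ ctr → ((‖(z : ℂ)‖ : ℝ) : ℂ) ≠ 0 := fun z hz h =>
    hz (Subtype.ext (by simpa [ctr] using h))
  have h1 : ContinuousOn (fun z : Disc => (z : ℂ) / (‖(z : ℂ)‖ : ℂ)) {z | z ≠ ctr} :=
    ContinuousOn.div (by fun_prop) (by fun_prop) h0
  refine (IsInducing.subtypeVal.continuousOn_iff).2 (h1.congr fun z hz => ?_)
  rw [eq_div_iff (h0 z hz), mul_comm]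
  exact norm_mul_nz z

theorem isOpen_ne_ctr : IsOpen {z : Disc | z ≠ ctr} := isOpen_ne

theorem isOpen_int : IsOpen {z : Disc | ‖(z : ℂ)‖ < 1} :=
  isOpen_lt (by fun_prop) continuous_const

/-- The radial deformation of the disc. -/
def rho (s : I) (z : Disc) : Disc :=
  ⟨(1 - (s : ℝ)) • (z : ℂ) + (s : ℝ) • (inc (nz z) : ℂ),
    convex_closedBall (0 : ℂ) 1 z.2 (inc (nz z)).2 (one_minus_nonneg s) s.2.1 (by ring)⟩

theorem rho_zero (z : Disc) : rho 0 z = z := Subtype.ext (by simp [rho])

theorem rho_one (z : Disc) : rho 1 z = inc (nz z) := Subtype.ext (by simp [rho])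

theorem rho_inc (s : I) (w : Circle) : rho s (inc w) = inc w :=
  Subtype.ext (by simp only [rho, nz_inc]; rw [← add_smul]; simp)

theorem continuous_rho (z : Disc) : Continuous fun s => rho s z := by
  unfold rho; fun_prop

theorem continuous_rho' : Continuous fun q : {z : Disc | z ≠ ctr} × I => rho q.2 q.1 := by
  have h : Continuous fun q : {z : Disc | z ≠ ctr} × I => nz q.1 :=
    (continuousOn_iff_continuous_domRestrict.1 continuousOn_nz).comp continuous_fst
  have h1 : Continuous fun q : {z : Disc | z ≠ ctr} × I => (inc (nz q.1) : ℂ) :=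
    continuous_subtype_val.comp (inc.continuous.comp h)
  have h2 : Continuous fun q : {z : Disc | z ≠ ctr} × I => (1 - (q.2 : ℝ)) • (q.1 : ℂ) := by
    fun_prop
  have h3 : Continuous fun q : {z : Disc | z ≠ ctr} × I => (q.2 : ℝ) := by fun_prop
  exact Continuous.subtype_mk (h2.add (h3.smul h1)) _

instance : ContractibleSpace Disc :=
  (convex_closedBall (0 : ℂ) 1).contractibleSpace ⟨0, by simp⟩

instance : ContractibleSpace I := (convex_Icc (0 : ℝ) 1).contractibleSpace ⟨0, by simp⟩

theorem circ_surj : Function.Surjective circ := by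
  intro w
  refine ⟨⟨Int.fract (Complex.arg w / (2 * Real.pi)), Int.fract_nonneg _,
    (Int.fract_lt_one _).le⟩, ?_⟩
  refine Eq.trans ?_ (Circle.exp_arg w)
  refine Circle.exp_eq_exp.2 ⟨-⌊Complex.arg w / (2 * Real.pi)⌋, ?_⟩
  have := Real.pi_pos
  simp only [Int.fract, Int.cast_neg]
  field_simp
  ring

theorem eq_of_circ {α : Type} {c : I → α} (hc : c 1 = c 0) {s t : I} (h : circ s = circ t) :
    c s = c t := by
  obtain ⟨m, hm⟩ := Circle.exp_eq_exp.1 h
  have hp := Real.pi_pos
  have h1 : (s : ℝ) = t + m := by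
    have : 2 * Real.pi * ((s : ℝ) - (t + m)) = 0 := by linarith
    rcases mul_eq_zero.1 this with h | h
    · linarith
    · linarith
  have hs := s.2
  have ht := t.2
  have h2 : (m : ℝ) ≤ 1 := by linarith [hs.2, ht.1]
  have h3 : (-1 : ℝ) ≤ m := by linarith [hs.1, ht.2]
  have h4 : m ≤ 1 := by exact_mod_cast h2
  have h5 : -1 ≤ m := by exact_mod_cast h3
  interval_cases m
  · have a1 : s = 0 := Subtype.ext (by push_cast at h1 ⊢; linarith [hs.1, ht.2])
    have a2 : t = 1 := Subtype.ext (by push_cast at h1 ⊢; linarith [hs.1, ht.2])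
    rw [a1, a2, hc]
  · rw [show s = t from Subtype.ext (by simpa using h1)]
  · have a1 : s = 1 := Subtype.ext (by push_cast at h1 ⊢; linarith [hs.2, ht.1])
    have a2 : t = 0 := Subtype.ext (by push_cast at h1 ⊢; linarith [hs.2, ht.1])
    rw [a1, a2, hc]

/-- A closed development descends to the circle. -/
theorem descend {Z G : Type} [TopologicalSpace Z] [Group G] (p : Pot Z G) (a : Circle → Z)
    (c : I → G) (hc : p.Dev (fun s => a (circ s)) c) (h : c 1 = c 0) :
    ∃ c' : Circle → G, p.Dev a c' := by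
  choose sc hsc using circ_surj
  refine ⟨fun w => c (sc w), fun w => ?_⟩
  have h1 := circ.continuous.isClosedMap.eventually_nhds_fiber
    (p := fun s => c s = c (sc w) * p.u (a w) (a (circ s))) w (fun s hs => by
      have hs' : circ s = w := hs
      have := hc s
      dsimp only at this
      rwa [eq_of_circ h (hs'.trans (hsc w).symm), hs'] at this)
  filter_upwards [h1] with w' hw'
  have := hw' (sc w') (hsc w')
  rwa [hsc] at this

/-- A square of paths that lifts to a simply connected space commutes. -/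
theorem square {S X : Type} [TopologicalSpace S] [TopologicalSpace X] [SimplyConnectedSpace S]
    (φ : C(S, X)) {p q p' q' : S} (g : Path p q) (b : Path q q') (a : Path p p') (t : Path p' q')
    {x y x' y' : X} (γ : Path x y) (β : Path y y') (α : Path x x') (τ : Path x' y')
    (hγ : ∀ s, γ s = φ (g s)) (hβ : ∀ s, β s = φ (b s)) (hα : ∀ s, α s = φ (a s))
    (hτ : ∀ s, τ s = φ (t s)) :
    (Path.Homotopic.Quotient.mk γ).trans (Path.Homotopic.Quotient.mk β) =
      (Path.Homotopic.Quotient.mk α).trans (Path.Homotopic.Quotient.mk τ) := by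
  obtain rfl : x = φ p := by simpa using hγ 0
  obtain rfl : y = φ q := by simpa using hγ 1
  obtain rfl : x' = φ p' := by simpa using hτ 0
  obtain rfl : y' = φ q' := by simpa using hτ 1
  obtain rfl : γ = g.map φ.continuous := Path.ext (funext hγ)
  obtain rfl : β = b.map φ.continuous := Path.ext (funext hβ)
  obtain rfl : α = a.map φ.continuous := Path.ext (funext hα)
  obtain rfl : τ = t.map φ.continuous := Path.ext (funext hτ)
  rw [← Path.Homotopic.Quotient.mk_trans, ← Path.Homotopic.Quotient.mk_trans, ← Path.map_trans,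
    ← Path.map_trans, Path.Homotopic.Quotient.eq]
  exact (SimplyConnectedSpace.paths_homotopic _ _).map φ

theorem map_trans {Y X : Type} [TopologicalSpace Y] [TopologicalSpace X] (φ : C(Y, X))
    {a b c : Y} (ξ : PQ a b) (ζ : PQ b c) :
    (ξ.trans ζ).map φ = (ξ.map φ).trans (ζ.map φ) := by
  induction ξ using Path.Homotopic.Quotient.ind with | mk γ =>
  induction ζ using Path.Homotopic.Quotient.ind with | mk γ' =>
  rw [← Path.Homotopic.Quotient.mk_trans, ← Path.Homotopic.Quotient.mk_map, Path.map_trans]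
  rfl

variable {X : Type} [TopologicalSpace X] (K : Cx X)

theorem isOpen_of {U : Set X} (h1 : IsOpen (K.ι ⁻¹' U)) (h2 : ∀ f, IsOpen (K.face f ⁻¹' U)) :
    IsOpen U :=
  isClosed_compl_iff.1 (K.closed _ h1.isClosed_compl fun f => (h2 f).isClosed_compl)

theorem nhds_face (f : K.F) {z : Disc} (hz : ‖(z : ℂ)‖ < 1) :
    𝓝 (K.face f z) = map (K.face f) (𝓝 z) := by
  refine le_antisymm (fun U hU => ?_) (K.face f).continuous.continuousAt
  obtain ⟨V, hV, hVo, hzV⟩ := mem_nhds_iff.1 (inter_mem (mem_map.1 hU) (isOpen_int.mem_nhds hz))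
  refine mem_nhds_iff.2 ⟨K.face f '' V, ?_, isOpen_of K ?_ fun f' => ?_, mem_image_of_mem _ hzV⟩
  · rintro _ ⟨w, hw, rfl⟩
    exact (hV hw).1
  · convert isOpen_empty
    refine eq_empty_of_forall_notMem ?_
    rintro y ⟨w, hw, h⟩
    exact K.face_ne f w y (hV hw).2 h
  · by_cases hf : f = f'
    · subst hf
      convert hVo
      refine Subset.antisymm ?_ (subset_preimage_image _ _)
      rintro w' ⟨w, hw, h⟩
      exact (K.face_inj f f w w' (hV hw).2 h).2 ▸ hw
    · convert isOpen_empty
      refine eq_empty_of_forall_notMem ?_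
      rintro w' ⟨w, hw, h⟩
      exact hf (K.face_inj f f' w w' (hV hw).2 h).1

theorem exists_glue {Y : Type} (a : K.Z → Y) (b : K.F → Disc → Y)
    (h : ∀ f w, b f (inc w) = a (K.att f w)) :
    ∃ g : X → Y, (∀ y, g (K.ι y) = a y) ∧ ∀ f z, g (K.face f z) = b f z := by
  classical
  let g : X → Y := fun x => if hx : ∃ y, x = K.ι y then a hx.choose else
    b ((K.cover x).resolve_left hx).choose ((K.cover x).resolve_left hx).choose_spec.choose
  have h1 : ∀ y, g (K.ι y) = a y := fun y => by
    have hx : ∃ y', K.ι y = K.ι y' := ⟨y, rfl⟩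
    simp only [g, dif_pos hx]
    rw [← K.ι_inj hx.choose_spec]
  refine ⟨g, h1, fun f z => ?_⟩
  by_cases hz : ‖(z : ℂ)‖ < 1
  · have hx : ¬ ∃ y, K.face f z = K.ι y := fun ⟨y, hy⟩ => K.face_ne f z y hz hy
    simp only [g, dif_neg hx]
    obtain ⟨e1, e2⟩ := K.face_inj _ _ _ _ hz
      ((K.cover (K.face f z)).resolve_left hx).choose_spec.choose_spec
    rw [← e2, ← e1]
  · rw [eq_inc hz, K.face_inc, h1, h]

/-- The complement of the centres of the faces. -/
def W : Set X := {x | ∀ f, x ≠ K.face f ctr}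

theorem ι_mem_W (y : K.Z) : K.ι y ∈ W K := fun f h => K.face_ne f ctr y norm_ctr h.symm

theorem face_mem_W {f : K.F} {z : Disc} : K.face f z ∈ W K ↔ z ≠ ctr :=
  ⟨fun h hz => h f (by rw [hz]), fun h f' h' => h (K.face_inj _ _ _ _ norm_ctr h'.symm).2.symm⟩

theorem isOpen_W : IsOpen (W K) := by
  refine isOpen_of K ?_ fun f => ?_
  · convert isOpen_univ
    exact eq_univ_of_forall (ι_mem_W K)
  · convert isOpen_ne_ctr
    exact Set.ext fun z => face_mem_W K

theorem continuousOn_W {Y : Type} [TopologicalSpace Y] (g : X → Y)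
    (h1 : Continuous fun y => g (K.ι y))
    (h2 : ∀ f, ContinuousOn (fun z => g (K.face f z)) {z | z ≠ ctr}) : ContinuousOn g (W K) := by
  refine (continuousOn_open_iff (isOpen_W K)).2 fun t ht => isOpen_of K ?_ fun f => ?_
  · convert ht.preimage h1
    exact Set.ext fun y => ⟨fun h => h.2, fun h => ⟨ι_mem_W K y, h⟩⟩
  · convert (continuousOn_open_iff isOpen_ne_ctr).1 (h2 f) t ht
    exact Set.ext fun z => and_congr_left' (face_mem_W K)

theorem exists_r : ∃ r : X → K.Z, (∀ y, r (K.ι y) = y) ∧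
    (∀ f z, r (K.face f z) = K.att f (nz z)) ∧ ContinuousOn r (W K) := by
  obtain ⟨r, h1, h2⟩ := exists_glue K id (fun f z => K.att f (nz z)) fun f w => by
    simp [nz_inc]
  refine ⟨r, h1, h2, continuousOn_W K r ?_ fun f => ?_⟩
  · simp only [h1]
    exact continuous_id
  · simp only [h2]
    exact (K.att f).continuous.comp_continuousOn continuousOn_nz

theorem exists_R : ∃ R : X → C(I, X), (∀ y s, R (K.ι y) s = K.ι y) ∧
    (∀ f z s, R (K.face f z) s = K.face f (rho s z)) ∧ ContinuousOn R (W K) := by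
  obtain ⟨R, h1, h2⟩ := exists_glue K (fun y => ContinuousMap.const I (K.ι y))
    (fun f z => ⟨fun s => K.face f (rho s z), (K.face f).continuous.comp (continuous_rho z)⟩)
    fun f w => by ext s; simp [rho_inc, K.face_inc]
  refine ⟨R, fun y s => by rw [h1]; rfl, fun f z s => by rw [h2]; rfl,
    continuousOn_W K R ?_ fun f => ?_⟩
  · simp only [h1]
    exact ContinuousMap.continuous_const'.comp K.ι.continuous
  · simp only [h2]
    refine continuousOn_iff_continuous_domRestrict.2
      (ContinuousMap.continuous_of_continuous_uncurry _ ?_)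
    exact (K.face f).continuous.comp continuous_rho'

theorem exists_crd : ∃ crd : X → Disc, ∀ f (z : Disc), ‖(z : ℂ)‖ < 1 →
    crd (K.face f z) = z ∧ ContinuousAt crd (K.face f z) := by
  classical
  obtain ⟨c, -, h2⟩ := exists_glue K (fun _ => ctr) (fun _ z => if ‖(z : ℂ)‖ < 1 then z else ctr)
    fun f w => by simp [norm_inc]
  have h3 : ∀ f (z : Disc), ‖(z : ℂ)‖ < 1 → c (K.face f z) = z := fun f z hz => by
    rw [h2, if_pos hz]
  refine ⟨c, fun f z hz => ⟨h3 f z hz, ?_⟩⟩
  rw [ContinuousAt, h3 f z hz, nhds_face K f hz, tendsto_map'_iff]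
  refine tendsto_id.congr' ?_
  filter_upwards [isOpen_int.mem_nhds hz] with w hw
  exact (h3 f w hw).symm

end Retract

open Retract in
theorem extendStmt : ExtendStmt := by
  classical
  intro X G _ _ K p hp
  choose c hc using fun f => (hp f).elim fun c hc => descend p (K.att f) c hc.1 hc.2
  obtain ⟨r, r1, r2, r3⟩ := exists_r K
  obtain ⟨crd, hcrd⟩ := exists_crd K
  obtain ⟨u, u1, u2⟩ := exists_glue K (fun y y' => p.u y (r y'))
    (fun f z y' => if z = ctr then (if y' = K.face f ctr then 1 else c f (nz (crd y')))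
      else p.u (K.att f (nz z)) (r y')) fun f w => by simp [inc_ne, nz_inc]
  have u3 : ∀ x ∈ W K, ∀ y, u x y = p.u (r x) (r y) := by
    intro x hx y
    rcases K.cover x with ⟨a, rfl⟩ | ⟨f, z, rfl⟩
    · rw [u1, r1]
    · rw [u2, r2]
      exact if_neg ((face_mem_W K).1 hx)
  have u4 : ∀ f, u (K.face f ctr) (K.face f ctr) = 1 := fun f => by simp [u2]
  have u5 : ∀ f (z : Disc), ‖(z : ℂ)‖ < 1 → z ≠ ctr → u (K.face f ctr) (K.face f z) = c f (nz z) :=
    fun f z hz hz' => by
      rw [u2]
      simp only [if_true]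
      rw [if_neg ((face_mem_W K).2 hz' f), (hcrd f z hz).1]
  refine ⟨⟨u, fun x => ?_, fun x => ?_⟩, fun z z' => by simp only [u1, r1]⟩
  · by_cases hx : x ∈ W K
    · rw [u3 x hx, p.self]
    · obtain ⟨f, rfl⟩ : ∃ f, x = K.face f ctr := by simpa [W] using hx
      exact u4 f
  · by_cases hx : x ∈ W K
    · have hW := (isOpen_W K).mem_nhds hx
      filter_upwards [hW, (r3.continuousAt hW).eventually (p.loc (r x))] with y hy hy'
      filter_upwards [(r3.continuousAt ((isOpen_W K).mem_nhds hy)).eventually hy'] with y' h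
      rw [u3 x hx, u3 x hx, u3 y hy, h]
    · obtain ⟨f, rfl⟩ : ∃ f, x = K.face f ctr := by simpa [W] using hx
      rw [nhds_face K f norm_ctr, eventually_map]
      filter_upwards [isOpen_int.mem_nhds norm_ctr] with z hz
      by_cases hz' : z = ctr
      · subst hz'
        exact Eventually.of_forall fun y' => by rw [u4, one_mul]
      · rw [nhds_face K f hz, eventually_map]
        have hN := isOpen_ne_ctr.mem_nhds hz'
        filter_upwards [isOpen_int.mem_nhds hz, hN,
          (continuousOn_nz.continuousAt hN).eventually (hc f (nz z))] with w hw hw' h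
        rw [u5 f w hw hw', u5 f z hz hz', u3 _ ((face_mem_W K).2 hz'), r2, r2, h]

open Retract in
theorem surjStmt (hgen : GenStmt) : SurjStmt := by
  intro X _ K z z' ξ
  obtain ⟨r, r1, r2, r3⟩ := exists_r K
  obtain ⟨R, R1, R2, R3⟩ := exists_R K
  obtain ⟨crd, hcrd⟩ := exists_crd K
  have R0 : ∀ x, R x 0 = x := fun x => by
    rcases K.cover x with ⟨a, rfl⟩ | ⟨f, z, rfl⟩
    · rw [R1]
    · rw [R2, rho_zero]
  have R4 : ∀ x, R x 1 = K.ι (r x) := fun x => by
    rcases K.cover x with ⟨a, rfl⟩ | ⟨f, z, rfl⟩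
    · rw [R1, r1]
    · rw [R2, rho_one, r2, K.face_inc]
  have R5 : ∀ {x a} (α : Path x (K.ι a)), (∀ s, α s = R x s) → a = r x := fun α h =>
    K.ι_inj (by rw [← R4, ← h, α.target])
  have key := hgen X (fun {x y} ξ => ∀ (a b : K.Z) (α : Path x (K.ι a)) (β : Path y (K.ι b)),
    (∀ s, α s = R x s) → (∀ s, β s = R y s) → ∃ ξ₁ : PQ a b,
      ξ.trans (Path.Homotopic.Quotient.mk β) =
        (Path.Homotopic.Quotient.mk α).trans (ξ₁.map K.ι)) ?_ ?_ ξ z z' (Path.refl _)
    (Path.refl _) (fun s => by simp [R1]) (fun s => by simp [R1])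
  · obtain ⟨ξ₁, h⟩ := key
    exact ⟨ξ₁, by simpa using h.symm⟩
  · intro x y w ξ ζ h1 h2 a b α β hα hβ
    obtain ⟨ξ₁, e1⟩ := h1 a (r y) α ⟨R y, R0 y, R4 y⟩ hα fun _ => rfl
    obtain ⟨ζ₁, e2⟩ := h2 (r y) b ⟨R y, R0 y, R4 y⟩ β (fun _ => rfl) hβ
    refine ⟨ξ₁.trans ζ₁, ?_⟩
    rw [Path.Homotopic.Quotient.trans_assoc, e2, ← Path.Homotopic.Quotient.trans_assoc, e1,
      Path.Homotopic.Quotient.trans_assoc, map_trans]
  · intro x₀
    by_cases hx : x₀ ∈ W K
    · refine ⟨W K, (isOpen_W K).mem_nhds hx, fun {x y} γ hγ a b α β hα hβ => ?_⟩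
      obtain rfl := R5 α hα
      obtain rfl := R5 β hβ
      let t : Path (r x) (r y) := ⟨⟨fun s => r (γ s), r3.comp_continuous γ.continuous hγ⟩,
        by simp, by simp⟩
      have hc : Continuous fun s => R (γ s) := R3.comp_continuous γ.continuous hγ
      refine ⟨Path.Homotopic.Quotient.mk t, ?_⟩
      exact square (S := I × I) ⟨fun q => R (γ q.1) q.2,
        (hc.comp continuous_fst).eval continuous_snd⟩
        (Path.id.prod (Path.refl 0)) ((Path.refl 1).prod Path.id)
        ((Path.refl 0).prod Path.id) (Path.id.prod (Path.refl 1)) γ β α (t.map K.ι.continuous)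
        (fun s => by simp [R0]) (fun s => by simp [hβ]) (fun s => by simp [hα])
        (fun s => by simp [R4, t])
    · obtain ⟨f, rfl⟩ : ∃ f, x₀ = K.face f ctr := by simpa [W] using hx
      refine ⟨K.face f '' {z | ‖(z : ℂ)‖ < 1}, ?_, fun {x y} γ hγ a b α β hα hβ => ?_⟩
      · rw [nhds_face K f norm_ctr]
        exact image_mem_map (isOpen_int.mem_nhds norm_ctr)
      obtain rfl := R5 α hα
      obtain rfl := R5 β hβ
      have h1 : ∀ s, γ s = K.face f (crd (γ s)) := fun s => by
        obtain ⟨w, hw, h⟩ := hγ s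
        rw [← h, (hcrd f w hw).1]
      have h2 : Continuous fun s => crd (γ s) := continuous_iff_continuousAt.2 fun s => by
        obtain ⟨w, hw, h⟩ := hγ s
        exact ContinuousAt.comp (h ▸ (hcrd f w hw).2) γ.continuous.continuousAt
      have hx : x = K.face f (crd x) := by simpa using h1 0
      have hy : y = K.face f (crd y) := by simpa using h1 1
      let arc : Path (nz (crd x)) (nz (crd y)) := PathConnectedSpace.somePath _ _
      let t : Path (r x) (r y) := ⟨⟨fun s => K.att f (arc s), by fun_prop⟩,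
        by simp [← r2, ← hx], by simp [← r2, ← hy]⟩
      refine ⟨Path.Homotopic.Quotient.mk t, ?_⟩
      exact square (K.face f) (p := crd x) (q := crd y) ⟨⟨_, h2⟩, by simp, by simp⟩
        ⟨⟨_, continuous_rho (crd y)⟩, rho_zero _, rho_one _⟩
        ⟨⟨_, continuous_rho (crd x)⟩, rho_zero _, rho_one _⟩ (arc.map inc.continuous)
        γ β α (t.map K.ι.continuous) h1 (fun s => by rw [hβ, hy, R2, ← hy]; rfl)
        (fun s => by rw [hα, hx, R2, ← hx]; rfl) (fun s => (K.face_inc f _).symm)

end Crest.Agent.R197
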