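import Crest.Agent.R197.SlabB

/-!
# Row 197: the slab of the cube complex is acyclic
-/

set_option autoImplicit false
set_option linter.unusedSectionVars false

noncomputable section

namespace Crest.Agent.R197

namespace SlabAux

open Finsupp

variable {V : Type} [LinearOrder V] {Γ : SimpleGraph V}

/-- A nonempty simplex is acyclic. -/
theorem simplex_exact {D : Finset V} (hD : Γ.IsClique (D : Set V)) (hne : D.Nonempty)
    {y : Clq Γ →₀ ℤ} (hy : y ∈ supported ℤ ℤ {σ : Clq Γ | σ.1 ⊆ D}) (h0 : bdL Γ y = 0) :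
    ∃ w ∈ supported ℤ ℤ {σ : Clq Γ | σ.1 ⊆ D}, bdL Γ w = y := by
  classical
  obtain ⟨u, hu, hmin⟩ : ∃ u ∈ D, ∀ v ∈ D, ¬ v < u :=
    ⟨D.min' hne, D.min'_mem hne, fun v hv => (D.min'_le v hv).not_gt⟩
  let c : (Clq Γ →₀ ℤ) →ₗ[ℤ] (Clq Γ →₀ ℤ) := linearCombination ℤ fun σ =>
    if h : u ∉ σ.1 ∧ σ.1 ⊆ D then single ⟨insert u σ.1, hD.subset
      (Finset.coe_subset.2 (Finset.insert_subset hu h.2))⟩ 1 else 0
  have hs : ∀ σ : Finset V, σ ⊆ D → sgn σ u = 1 := fun σ hσ => by
    rw [sgn, Finset.filter_eq_empty_iff.2 fun v hv => hmin v (hσ hv)]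
    simp
  refine ⟨c y, map_mem c (fun σ hσ => ?_) hy, ?_⟩
  · simp only [c, linearCombination_single, one_smul]
    split_ifs with h
    exacts [single_mem_supported _ _ (Finset.insert_subset hu h.2), zero_mem _]
  have := map_eq (bdL Γ ∘ₗ c + c ∘ₗ bdL Γ) LinearMap.id (fun σ hσ => ?_) hy
  · simpa [h0] using this
  have hσ : σ.1 ⊆ D := hσ
  simp only [LinearMap.add_apply, LinearMap.comp_apply, bdL_single, one_smul, map_sum, map_smul, c,
    linearCombination_single, LinearMap.id_apply]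
  by_cases h : u ∈ σ.1
  · rw [dif_neg fun h' => h'.1 h, map_zero, zero_add, Finset.sum_eq_single_of_mem u h, hs _ hσ,
      dif_pos ⟨Finset.notMem_erase _ _, (Finset.erase_subset _ _).trans hσ⟩, one_smul]
    · congr 1
      exact Subtype.ext (Finset.insert_erase h)
    · intro v _ hvu
      rw [dif_neg fun h' => h'.1 (Finset.mem_erase.2 ⟨hvu.symm, h⟩), smul_zero]
  · rw [dif_pos ⟨h, hσ⟩, bdL_single, one_smul, Finset.sum_insert h,
      hs _ (Finset.insert_subset hu hσ), one_smul, add_assoc, ← Finset.sum_add_distrib,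
      Finset.sum_eq_zero, add_zero]
    · congr 1
      exact Subtype.ext (Finset.erase_insert h)
    · intro v hv
      have hvu : u ≠ v := fun e => h (e ▸ hv)
      have h1 := sgn_erase (w := v) (Finset.mem_insert_self u σ.1)
      rw [Finset.erase_insert h, if_pos (lt_of_le_of_ne (not_lt.1 (hmin v (hσ hv))) hvu)] at h1
      rw [dif_pos ⟨fun h' => h (Finset.mem_of_mem_erase h'), (Finset.erase_subset _ _).trans hσ⟩,
        h1, neg_smul, add_neg_eq_zero]
      congr 2
      exact Subtype.ext (Finset.erase_insert_of_ne hvu)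

section len

variable (L : Len Γ)

/-- The descending directions. -/
def eps (t : A Γ) (v : V) : Bool := decide (L.ℓ (t * lt Γ (v, true)) < L.ℓ t)

variable {L}

theorem eps_eq {t : A Γ} {x : V × Bool} (h : L.ℓ (t * lt Γ x) < L.ℓ t) : eps L t x.1 = x.2 := by
  obtain ⟨v, _ | _⟩ := x
  · exact decide_eq_false fun h' => (L.adj t _ _ (by simp) h h').ne rfl
  · exact decide_eq_true h

theorem par_gp (τ : Clq Γ) (x : V × Bool) (h : ∀ w ∈ τ.1, Γ.Adj w x.1) (a : A Γ) :
    L.ℓ (a * gp τ * lt Γ x) < L.ℓ (a * gp τ) ↔ L.ℓ (a * lt Γ x) < L.ℓ a := by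
  refine Finset.noncommProd_induction _ _ _
    (fun g => ∀ a, L.ℓ (a * g * lt Γ x) < L.ℓ (a * g) ↔ L.ℓ (a * lt Γ x) < L.ℓ a)
    (fun g g' hg hg' a => ?_) (by simp) (fun w hw a => L.par a (w, true) x (h w hw)) a
  rw [← mul_assoc, hg', hg]

theorem desc_iff (a : A Γ) (δ : V → Bool) {σ : Clq Γ} {v : V} (hv : v ∈ σ.1) :
    L.ℓ (a * gp (neg δ σ) * lt Γ (v, δ v)) < L.ℓ (a * gp (neg δ σ)) ↔ eps L a v = δ v := by
  have h1 := par_gp (L := L) ((neg δ σ).erase v) (v, true) (fun w hw =>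
    σ.2 (neg_subset δ σ (Finset.mem_of_mem_erase hw)) hv (Finset.ne_of_mem_erase hw)) a
  cases h : δ v
  · have h2 := L.step (a * gp ((neg δ σ).erase v)) (v, true)
    rw [← gp_erase (mem_neg.2 ⟨hv, h⟩), eps, decide_eq_false_iff_not, ← h1]
    simp only [lt, if_true, Bool.false_eq_true, if_false, ← mul_assoc, mul_inv_cancel_right] at h2 ⊢
    omega
  · rw [erase_of_notMem (by simp [mem_neg, h])] at h1
    exact h1.trans decide_eq_true_iff.symm

variable (L)

/-- The Morse function given by the length. -/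
def morseLen [Fintype V] : Morse Γ where
  ε := eps L
  lev := L.ℓ
  Al t := {σ | ∀ v ∈ σ.1, L.ℓ (t * lt Γ (v, eps L t v)) < L.ℓ t}
  inj t t' σ h h' e := by
    have key : ∀ t, (∀ v ∈ σ.1, L.ℓ (t * lt Γ (v, eps L t v)) < L.ℓ t) →
        ∀ v ∈ σ.1, eps L (cell t (eps L t) σ).1 v = eps L t v := fun t h v hv =>
      (desc_iff _ _ hv).1 (by simpa [cell] using h v hv)
    have h1 : neg (eps L t) σ = neg (eps L t') σ := neg_congr fun v hv => by
      rw [← key t h v hv, e, key t' h' v hv]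
    simpa [cell, h1] using e
  down t σ h v w hw := h w (Finset.mem_of_mem_erase hw)
  low t σ h v hv := by
    have key : ∀ w ∈ (σ.erase v).1, L.ℓ (t * lt Γ (v, eps L t v) * lt Γ (w, eps L t w)) <
        L.ℓ (t * lt Γ (v, eps L t v)) := fun w hw =>
      (L.par _ _ _ (σ.2 hv (Finset.mem_of_mem_erase hw) (Finset.ne_of_mem_erase hw).symm)).2
        (h w (Finset.mem_of_mem_erase hw))
    exact ⟨fun w hw => by rw [eps_eq (key w hw)]; exact key w hw,
      Nat.le_sub_one_of_lt (h v hv), fun w hw => eps_eq (key w hw)⟩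
  link t ht y hy h0 := by
    have h1 : {σ : Clq Γ | ∀ v ∈ σ.1, L.ℓ (t * lt Γ (v, eps L t v)) < L.ℓ t} = {σ | σ.1 ⊆
        Finset.univ.filter fun v => L.ℓ (t * lt Γ (v, eps L t v)) < L.ℓ t} := by
      simp [Finset.subset_iff]
    rw [h1] at hy ⊢
    refine simplex_exact (fun u hu v hv huv => ?_) ?_ hy h0
    · exact L.adj t (u, eps L t u) (v, eps L t v) (by simp [huv]) (by simpa using hu)
        (by simpa using hv)
    · obtain ⟨x, hx⟩ := L.desc t ht
      exact ⟨x.1, by simpa [eps_eq hx] using hx⟩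

include L in
/-- The cube complex is acyclic in positive degrees. -/
theorem exact_pos [Fintype V] {z : Cube Γ →₀ ℤ} (h : dC Γ z = 0) :
    ∃ w, z - dC Γ w ∈ supported ℤ ℤ {c : Cube Γ | c.2.1.card = 0} := by
  refine ((morseLen L).reduce (y := z) (fun c _ => ?_) (h ▸ zero_mem _)).imp fun w hw =>
    supported_mono ?_ hw
  · have h1 := fun v (hv : v ∈ c.2.1) => (desc_iff (L := L) c.1 (eps L c.1) hv).2 rfl
    have h2 := fun v (hv : v ∈ c.2.1) => eps_eq (h1 v hv)
    refine ⟨c.1 * gp (neg (eps L c.1) c.2), fun v hv => ?_, ?_⟩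
    · rw [h2 v hv]
      exact h1 v hv
    · change cell _ (eps L _) _ = _
      rw [cell, neg_congr h2, mul_inv_cancel_right]
  · rintro c ⟨t, h1, h2, -⟩
    refine Finset.card_eq_zero.2 (Finset.eq_empty_of_forall_notMem fun v hv => ?_)
    exact absurd ((h1 v hv).trans_le h2) (Nat.not_lt_zero _)

end len

theorem neg_false (σ : Clq Γ) : neg (fun _ => false) σ = σ := Subtype.ext (by simp [neg])

theorem gp_neg_true (σ : Clq Γ) : gp (neg (fun _ => true) σ) = 1 :=
  Finset.noncommProd_induction _ _ _ (· = 1) (by simp +contextual) rfl (by simp [mem_neg])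

/-- The Morse function given by the height above `2`. -/
def morseTop (h : LAcyclic Γ) : Morse Γ where
  ε _ _ := false
  lev t := (ht Γ t - 2).toNat
  Al _ := Set.univ
  inj t t' σ _ _ e := by simpa [cell] using e
  down _ _ _ _ := trivial
  low t σ _ v _ := ⟨trivial, by simp [lt]; omega, fun _ _ => rfl⟩
  link t _ y _ h0 := by simpa using h y h0

/-- The Morse function given by the depth below `0`. -/
def morseBot (h : LAcyclic Γ) (h4 : Γ.CliqueFree 4) : Morse Γ where
  ε _ _ := true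
  lev t := (-ht Γ t).toNat
  Al t := {σ | ht Γ t + σ.1.card ≤ 2}
  inj t t' σ _ _ e := by simpa [cell] using e
  down t σ h v := by
    have : (σ.erase v).1.card ≤ σ.1.card := Finset.card_erase_le
    simp only [Set.mem_ofPred_eq] at h ⊢
    omega
  low t σ h v hv := by
    have : (σ.erase v).1.card + 1 = σ.1.card := Finset.card_erase_add_one hv
    simp only [Set.mem_ofPred_eq, lt, if_true, ht_mul, ht_gen] at h ⊢
    exact ⟨by omega, by omega, fun _ _ => trivial⟩
  link t ht y _ h0 := by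
    obtain ⟨w, hw⟩ := h y h0
    refine ⟨w, fun σ _ => ?_, hw⟩
    have : σ.1.card < 4 := not_le.1 fun h' => (h4.mono h') σ.1 ⟨σ.2, rfl⟩
    simp only [Set.mem_ofPred_eq]
    omega

theorem slab_exact [Fintype V] (L : Len Γ) (h : LAcyclic Γ) (h4 : Γ.CliqueFree 4) {n : ℕ}
    (hn : n ≠ 0) {z : Cube Γ →₀ ℤ} (hz : ↑z.support ⊆ Slab Γ n) (h0 : dC Γ z = 0) :
    ∃ y : Cube Γ →₀ ℤ, ↑y.support ⊆ Slab Γ (n + 1) ∧ dC Γ y = z := by
  have hz' : z ∈ supported ℤ ℤ {c : Cube Γ | c.2.1.card = n} := fun c hc => (hz hc).1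
  obtain ⟨w, hw⟩ := exact_pos L h0
  obtain ⟨y, -, rfl⟩ := exists_card (S := Set.univ) (w := w) (by simp) hz'
    (supported_mono (fun c (hc : _ = 0) => hc.trans_ne hn.symm) hw)
  obtain ⟨w₁, hw₁⟩ := (morseTop h).reduce (y := y)
    (fun c _ => ⟨c.1 * gp c.2, trivial, by simp [morseTop, cell, neg_false]⟩)
    fun c hc => ⟨c.1 * gp c.2, trivial, by
      obtain ⟨h1, -, h2⟩ := hz hc
      simp only [morseTop, ht_mul, ht_gp, h1]
      omega, by simp [morseTop, cell, neg_false]⟩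
  obtain ⟨w₂, hw₂⟩ := (morseBot h h4).reduce (y := y - dC Γ w₁)
    (fun c hc => ⟨c.1, by
      obtain ⟨t, -, h1, h2⟩ := hw₁ hc
      rw [← h2]
      simp only [morseTop, morseBot, cell, neg_false, Set.mem_ofPred_eq, ht_mul, ht_inv,
        ht_gp] at h1 ⊢
      omega, by simp [morseBot, cell, gp_neg_true]⟩)
    (by
      rw [map_sub, dC_dC, sub_zero]
      intro c hc
      obtain ⟨h1, h2, h3⟩ := hz hc
      refine ⟨c.1, ?_, ?_, by simp [morseBot, cell, gp_neg_true]⟩ <;>
        simp only [morseBot, Set.mem_ofPred_eq, h1] <;> omega)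
  obtain ⟨y', hy', h1⟩ := exists_card hw₂ hz' (by simp [dC_dC])
  refine ⟨y', fun c hc => ?_, h1⟩
  obtain ⟨⟨t, h2, h3, h4⟩, h5⟩ := hy' hc
  obtain rfl : t = c.1 := by simpa [morseBot, cell, gp_neg_true] using congrArg Prod.fst h4
  simp only [morseBot, Set.mem_ofPred_eq, h5] at h2 h3
  exact ⟨h5, by omega, h2⟩

end SlabAux

theorem slabStmt : SlabStmt := by
  intro V _ _ Γ L h h4
  refine ⟨fun z hz h0 => SlabAux.slab_exact L h h4 one_ne_zero hz h0, fun z hz h0 => ?_⟩
  obtain ⟨y, hy, rfl⟩ := SlabAux.slab_exact L h h4 two_ne_zero hz h0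
  rw [Finsupp.support_eq_empty (f := y).1 (Finset.eq_empty_of_forall_notMem fun c hc => ?_),
    map_zero]
  obtain ⟨-, h1, h2⟩ := hy hc
  omega

end Crest.Agent.R197
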