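import Crest.Agent.R197.Defs

/-! Row 197: transfer of the dual of a face from an acyclic presentation to an aspherical one. -/

set_option autoImplicit false

noncomputable section

namespace Crest.Agent.R197

namespace Transfer

variable {H : Type} [Group H]

/-- The equivariant extension of a map given on a basis. -/
def ext {α β : Type} (c : α → (H × β →₀ ℤ)) : (H × α →₀ ℤ) →ₗ[ℤ] (H × β →₀ ℤ) :=
  Finsupp.linearCombination ℤ fun e => tr e.1 (c e.2)

@[simp] theorem ext_single {α β : Type} (c : α → (H × β →₀ ℤ)) (h : H) (a : α) (k : ℤ) :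
    ext c (Finsupp.single (h, a) k) = k • tr h (c a) := by simp [ext]

theorem ext_apply {α β : Type} (c : α → (H × β →₀ ℤ)) (z : H × α →₀ ℤ) (b : H) (r : β) :
    ext c z (b, r) = z.sum fun e k => k * c e.2 (e.1⁻¹ * b, r) := by
  rw [ext, Finsupp.linearCombination_apply, Finsupp.sum_apply]
  refine Finsupp.sum_congr fun e _ => ?_
  simp [tr_apply]

theorem lift_comp {S S' : Type} {gen : S → H} {gen' : S' → H} (ω : FreeGroup S' →* FreeGroup S)
    (hω : ∀ s, FreeGroup.lift gen (ω (FreeGroup.of s)) = gen' s) (w : FreeGroup S') :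
    FreeGroup.lift gen (ω w) = FreeGroup.lift gen' w :=
  DFunLike.congr_fun (FreeGroup.ext_hom ((FreeGroup.lift gen).comp ω) (FreeGroup.lift gen')
    (by simpa using hω)) w

theorem d2_ext (P₀ P : HPres H) (ω : FreeGroup P₀.S →* FreeGroup P.S)
    (hω : ∀ s, FreeGroup.lift P.gen (ω (FreeGroup.of s)) = P₀.gen s)
    (c : P₀.R → (H × P.R →₀ ℤ)) (hc : ∀ r, P.d2 (c r) = chain P.gen 1 (ω (P₀.rel r)))
    (T : H × P₀.R →₀ ℤ) : P.d2 (ext c T) = push P.gen ω (P₀.d2 T) := by
  induction T using Finsupp.induction_linear with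
  | zero => simp
  | add a b ha hb => simp [ha, hb]
  | single β k =>
    obtain ⟨h, r⟩ := β
    simp [HPres.d2_tr, hc, tr_chain, push_chain P.gen P₀.gen ω hω]

end Transfer

open Transfer in
theorem transferStmt : TransferStmt := by
  classical
  intro H _ P₀ P _ _ hP₀ hP ω hω r₀
  have := Fintype.ofFinite P₀.S
  have := Fintype.ofFinite P₀.R
  choose m0 hm0 using fun r : P₀.R =>
    hP.exists_d2 1 (w := ω (P₀.rel r)) (by rw [lift_comp ω hω, P₀.rel_one])
  choose σ hσ using fun s : P.S => hP₀.surj (P.gen s)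
  have hσ' : ∀ s, FreeGroup.lift P₀.gen (FreeGroup.lift σ (FreeGroup.of s)) = P.gen s := by
    simpa using hσ
  choose c hc using fun r : P.R =>
    hP₀.exact (chain P₀.gen 1 (FreeGroup.lift σ (P.rel r))) (by
      rw [HPres.d1_chain, lift_comp _ hσ', P.rel_one]; simp)
  choose k hk using fun s : P₀.S =>
    hP₀.exact (chain P₀.gen 1 (FreeGroup.lift σ (ω (FreeGroup.of s))) -
      Finsupp.single (1, s) 1) (by
        rw [map_sub, HPres.d1_chain, lift_comp _ hσ', hω]; simp)
  have hh : ∀ z : H × P₀.S →₀ ℤ, P₀.d2 (ext k z) =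
      push P₀.gen (FreeGroup.lift σ) (push P.gen ω z) - z := by
    intro z
    induction z using Finsupp.induction_linear with
    | zero => simp
    | add a b ha hb => simp only [map_add, ha, hb]; abel
    | single e n =>
      obtain ⟨h, s⟩ := e
      have h1 : push P.gen ω (Finsupp.single (h, s) n) = n • chain P.gen h (ω (.of s)) := by
        simp [push]
      rw [ext_single, map_smul, HPres.d2_tr, hk, map_sub, tr_chain, tr_single, h1, map_smul,
        push_chain P₀.gen P.gen _ hσ', smul_sub]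
      simp
  let R' : Finset P.R := Finset.univ.biUnion fun r => (m0 r).support.image Prod.snd
  refine ⟨Finsupp.onFinset (R'.biUnion fun r => (c r).support.image fun x => (x.1⁻¹, r))
    (fun β => if β.2 ∈ R' then c β.2 (β.1⁻¹, r₀) else 0) ?_,
    Finset.univ.biUnion fun s => (k s).support.image fun x => x.1⁻¹, fun T m b hm hb => ?_⟩
  · rintro ⟨x, r⟩ hx
    by_cases hr : r ∈ R'
    · simp only [hr, if_true] at hx
      exact Finset.mem_biUnion.2 ⟨r, hr, Finset.mem_image.2
        ⟨(x⁻¹, r₀), Finsupp.mem_support_iff.2 hx, by simp⟩⟩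
    · simp [hr] at hx
  have e1 : m = ext m0 T := hP.inj (by rw [hm, d2_ext P₀ P ω hω m0 hm0])
  have e2 : ext c m = T + ext k (P₀.d2 T) := hP₀.inj (by
    rw [d2_ext P P₀ _ hσ' c hc, hm, map_add, hh]; abel)
  have e3 : ext k (P₀.d2 T) (b, r₀) = 0 := by
    rw [ext_apply]
    refine Finset.sum_eq_zero fun e he => ?_
    have : k e.2 (e.1⁻¹ * b, r₀) = 0 := by
      by_contra h
      exact hb e he (Finset.mem_biUnion.2 ⟨e.2, Finset.mem_univ _, Finset.mem_image.2
        ⟨_, Finsupp.mem_support_iff.2 h, by simp⟩⟩)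
    simp [this]
  have e4 : ∀ β ∈ m.support, β.2 ∈ R' := by
    rintro ⟨x, r⟩ hβ
    by_contra hr
    refine Finsupp.mem_support_iff.1 hβ ?_
    rw [e1, ext_apply]
    refine Finset.sum_eq_zero fun e _ => ?_
    have : m0 e.2 (e.1⁻¹ * x, r) = 0 := by
      by_contra h
      exact hr (Finset.mem_biUnion.2 ⟨e.2, Finset.mem_univ _, Finset.mem_image.2
        ⟨_, Finsupp.mem_support_iff.2 h, rfl⟩⟩)
    simp [this]
  have e5 : T (b, r₀) = ext c m (b, r₀) := by rw [e2, Finsupp.add_apply, e3, add_zero]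
  rw [e5, ext_apply, Finsupp.linearCombination_apply]
  refine Finsupp.sum_congr fun β hβ => ?_
  simp [e4 β hβ]

end Crest.Agent.R197
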