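import Crest.Agent.R197.TopDefs

/-!
# Row 197: collapsing a spanning tree
-/

set_option autoImplicit false

noncomputable section

namespace Crest.Agent.R197

section Paths
variable {V E D : Type} [Group D] {o t : E → V} {u v v' : V} {l l' : List (E × Bool)}

theorem IsPath.append (h : IsPath o t u l v) (h' : IsPath o t v l' v') :
    IsPath o t u (l ++ l') v' := by
  induction h with
  | nil v => exact h'
  | pos e w v _ ih => exact .pos e _ _ (ih h')
  | neg e w v _ ih => exact .neg e _ _ (ih h')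

theorem IsPath.invRev (h : IsPath o t u l v) : IsPath o t v (FreeGroup.invRev l) u := by
  induction h with
  | nil v => exact .nil v
  | pos e w v _ ih => rw [FreeGroup.invRev_cons]; exact ih.append (.neg e _ _ (.nil _))
  | neg e w v _ ih => rw [FreeGroup.invRev_cons]; exact ih.append (.pos e _ _ (.nil _))

theorem mk_pos (e : E) (w : List (E × Bool)) :
    FreeGroup.mk ((e, true) :: w) = FreeGroup.of e * FreeGroup.mk w := rfl

theorem mk_neg (e : E) (w : List (E × Bool)) :
    FreeGroup.mk ((e, false) :: w) = (FreeGroup.of e)⁻¹ * FreeGroup.mk w := rfl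

theorem IsPath.cobdry (h : IsPath o t u l v) (lab : E → D) (a : D → V → ℤ) (d : D) :
    Finsupp.linearCombination ℤ (fun c : D × E => a (c.1 * lab c.2) (t c.2) - a c.1 (o c.2))
      (chain lab d (FreeGroup.mk l)) = a (d * FreeGroup.lift lab (FreeGroup.mk l)) v - a d u := by
  induction h generalizing d with
  | nil v => simp [← FreeGroup.one_eq_mk]
  | pos e w v _ ih => rw [mk_pos, chain_mul, map_add, ih]; simp [mul_assoc]
  | neg e w v _ ih => rw [mk_neg, chain_mul, map_add, ih]; simp [mul_assoc, chain_inv]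

theorem IsPath.relabel (h : IsPath o t u l v) (lab : E → D) (γ : V → D) (d : D) :
    Finsupp.lmapDomain ℤ ℤ (fun c : D × E => (c.1 * (γ (o c.2))⁻¹, c.2))
      (chain (fun e => (γ (o e))⁻¹ * lab e * γ (t e)) (d * γ u) (FreeGroup.mk l)) =
        chain lab d (FreeGroup.mk l) := by
  induction h generalizing d with
  | nil v => simp [← FreeGroup.one_eq_mk]
  | pos e w v _ ih =>
    rw [mk_pos, chain_mul, chain_mul, map_add, ← ih]
    simp [mul_assoc]
  | neg e w v _ ih =>
    rw [mk_neg, chain_mul, chain_mul, map_add, ← ih, chain_inv, chain_inv, map_neg]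
    simp [mul_assoc]

theorem exists_tree (v0 : V) (h : ∀ v, ∃ w, IsPath o t v0 w v) :
    ∃ (par : {v // v ≠ v0} → V) (x : {v // v ≠ v0} → E × Bool),
      (∀ v, IsPath o t v.1 [x v] (par v)) ∧
      (∀ p : V → Prop, p v0 → (∀ v, p (par v) → p v.1) → ∀ v, p v) ∧
      ∀ (M : Type) (m : M) (f : {v // v ≠ v0} → M → M),
        ∃ a : V → M, a v0 = m ∧ ∀ v, a v.1 = f v (a (par v)) := by
  classical
  have h1 : ∀ v, ∃ n, ∃ w, IsPath o t v w v0 ∧ w.length = n := fun v =>
    let ⟨_, hw⟩ := h v; ⟨_, _, hw.invRev, rfl⟩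
  have h2 : ∀ v : {v // v ≠ v0}, ∃ u x, IsPath o t v.1 [x] u ∧ Nat.find (h1 u) < Nat.find (h1 v) := by
    rintro ⟨v, hv⟩
    obtain ⟨w, hw, hl⟩ := Nat.find_spec (h1 v)
    rw [← hl]
    clear hl
    cases hw with
    | nil => exact (hv rfl).elim
    | pos e w _ h =>
      exact ⟨_, _, .pos e _ _ (.nil _), Nat.lt_succ_of_le (Nat.find_min' _ ⟨w, h, rfl⟩)⟩
    | neg e w _ h =>
      exact ⟨_, _, .neg e _ _ (.nil _), Nat.lt_succ_of_le (Nat.find_min' _ ⟨w, h, rfl⟩)⟩
  choose par x hx hd using h2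
  have wf := InvImage.wf (fun v => Nat.find (h1 v)) Nat.lt_wfRel.wf
  refine ⟨par, x, hx, fun p h0 hp v => wf.induction v fun v ih => ?_, fun M m f =>
    ⟨wf.fix fun v ih => if h : v = v0 then m else f ⟨v, h⟩ (ih _ (hd ⟨v, h⟩)), ?_, fun v => ?_⟩⟩
  · by_cases hv : v = v0
    · exact hv ▸ h0
    · exact hp ⟨v, hv⟩ (ih _ (hd ⟨v, hv⟩))
  · rw [wf.fix_eq, dif_pos rfl]
  · rw [wf.fix_eq, dif_neg v.2]

end Paths

theorem treeStmt : TreeStmt := by
  classical
  intro D _ Q
  obtain ⟨par, x, hx, hind, hrec⟩ := exists_tree Q.v0 Q.conn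
  obtain ⟨p, hp0, hp⟩ := hrec _ [] fun v w => x v :: w
  have hpath : ∀ v, IsPath Q.o Q.t v (p v) Q.v0 :=
    hind _ (hp0 ▸ .nil _) fun v h => hp v ▸ (hx v).append h
  have hmk : ∀ v, FreeGroup.mk (p v.1) = FreeGroup.mk [x v] * FreeGroup.mk (p (par v)) :=
    fun v => by rw [hp]; rfl
  obtain ⟨γ, hγ⟩ : ∃ γ : Q.V → D, ∀ v, γ v = FreeGroup.lift Q.lab (FreeGroup.mk (p v)) :=
    ⟨_, fun _ => rfl⟩
  have hγ0 : γ Q.v0 = 1 := by rw [hγ, hp0, ← FreeGroup.one_eq_mk, map_one]
  let P : HPres D := ⟨Q.E, Q.F ⊕ {v // v ≠ Q.v0}, fun e => (γ (Q.o e))⁻¹ * Q.lab e * γ (Q.t e),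
    Sum.elim (fun f => FreeGroup.mk (Q.bd f)) fun v => FreeGroup.mk [x v], by
      rintro (f | v)
      · exact ((Q.bd_path f).gauge γ Q.lab).trans (by rw [Q.rel_one]; group)
      · exact ((hx v).gauge γ Q.lab).trans (by rw [hγ, hγ, hmk, map_mul]; group)⟩
  refine ⟨P, fun d => ?_, fun w hw => ?_, (injective_iff_map_eq_zero _).2 fun y hy => ?_⟩
  · obtain ⟨w, hw, rfl⟩ := Q.surj d
    exact ⟨_, (hw.gauge γ Q.lab).trans (by rw [hγ0]; group)⟩
  · let π := QuotientGroup.mk' (Subgroup.normalClosure (Set.range P.rel))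
    have h1 : ∀ r, π (P.rel r) = 1 := fun r =>
      (QuotientGroup.eq_one_iff _).2 (Subgroup.subset_normalClosure ⟨r, rfl⟩)
    have h2 : ∀ v, π (FreeGroup.mk (p v)) = 1 :=
      hind _ (by rw [hp0, ← FreeGroup.one_eq_mk, map_one]) fun v h => by
        rw [hmk, map_mul, h, mul_one]
        exact h1 (.inr v)
    have h3 : FreeGroup.lift (fun e => π (FreeGroup.of e)) = π :=
      FreeGroup.ext_hom _ _ fun e => FreeGroup.lift_apply_of
    have h4 : ∀ w : FreeGroup Q.E, ∃ l, IsPath Q.o Q.t Q.v0 l Q.v0 ∧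
        FreeGroup.lift Q.lab (FreeGroup.mk l) = FreeGroup.lift P.gen w ∧
          π (FreeGroup.mk l) = π w := by
      intro w
      induction w using FreeGroup.induction_on with
      | C1 => exact ⟨[], .nil _, by rw [← FreeGroup.one_eq_mk, map_one, map_one], rfl⟩
      | of e =>
        refine ⟨_, (hpath _).invRev.append (.pos e _ _ (hpath _)), ?_⟩
        rw [← FreeGroup.mul_mk, ← FreeGroup.inv_mk, mk_pos]
        simp only [map_mul, map_inv, h2, ← hγ, FreeGroup.lift_apply_of, P, mul_assoc, inv_one,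
          one_mul, mul_one, and_self]
      | inv_of e ih =>
        obtain ⟨l, h, h', h''⟩ := ih
        refine ⟨_, h.invRev, ?_⟩
        rw [← FreeGroup.inv_mk, map_inv, map_inv, map_inv, map_inv, h', h'']
        exact ⟨rfl, rfl⟩
      | mul a b ha hb =>
        obtain ⟨l, h, h', h''⟩ := ha
        obtain ⟨k, g, g', g''⟩ := hb
        refine ⟨_, h.append g, ?_⟩
        rw [← FreeGroup.mul_mk, map_mul, map_mul, map_mul, map_mul, h', h'', g', g'']
        exact ⟨rfl, rfl⟩
    obtain ⟨l, h, h', h''⟩ := h4 w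
    have h5 := Q.ker _ (fun e => π (FreeGroup.of e)) (fun f => h3 ▸ h1 (.inl f)) l h (h'.trans hw)
    rw [h3, h''] at h5
    exact (QuotientGroup.eq_one_iff _).1 h5
  · have h1 : ∀ d v, y (d, .inr v) = 0 := fun d v => by
      choose a _ ha using fun d' => hrec ℤ 0 fun v' m =>
        m - if ((d', .inr v') : D × P.R) = (d, .inr v) then 1 else 0
      have h2 : (Finsupp.linearCombination ℤ fun c : D × Q.E =>
          a (c.1 * P.gen c.2) (Q.t c.2) - a c.1 (Q.o c.2)) ∘ₗ P.d2 = Finsupp.lapply (d, .inr v) := by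
        refine Finsupp.lhom_ext' fun ⟨d', r⟩ => LinearMap.ext_ring ?_
        simp only [LinearMap.comp_apply, Finsupp.lsingle_apply, P.d2_single, one_smul,
          Finsupp.lapply_apply, Finsupp.single_apply]
        have h3 := P.rel_one r
        rcases r with f | v'
        · refine ((Q.bd_path f).cobdry ..).trans ?_
          rw [show FreeGroup.lift P.gen (FreeGroup.mk (Q.bd f)) = 1 from h3]
          simp
        · refine ((hx v').cobdry ..).trans ?_
          rw [show FreeGroup.lift P.gen (FreeGroup.mk [x v']) = 1 from h3, mul_one, ha]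
          exact sub_sub_cancel ..
      have h3 := DFunLike.congr_fun h2 y
      rw [LinearMap.comp_apply, hy, map_zero] at h3
      exact h3.symm
    have h2 : Function.Injective fun β : D × Q.F =>
        ((β.1 * γ (Q.base β.2), .inl β.2) : D × P.R) := by
      rintro ⟨d, f⟩ ⟨d', f'⟩ h
      obtain ⟨h, h'⟩ := Prod.mk.inj h
      cases h'
      exact Prod.ext (mul_right_cancel h) rfl
    obtain ⟨y', rfl⟩ := (Finsupp.mem_range_mapDomain_iff _ h2 y).2 (by
      rintro ⟨d, f | v⟩ h
      · exact (h ⟨(d * (γ (Q.base f))⁻¹, f), by simp⟩).elim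
      · exact h1 d v)
    have h3 : Finsupp.linearCombination ℤ
        (fun β : D × Q.F => chain Q.lab β.1 (FreeGroup.mk (Q.bd β.2))) =
        Finsupp.lmapDomain ℤ ℤ (fun c : D × Q.E => (c.1 * (γ (Q.o c.2))⁻¹, c.2)) ∘ₗ P.d2 ∘ₗ
          Finsupp.lmapDomain ℤ ℤ fun β : D × Q.F =>
            ((β.1 * γ (Q.base β.2), .inl β.2) : D × P.R) := by
      refine Finsupp.lhom_ext' fun ⟨d, f⟩ => LinearMap.ext_ring ?_
      simp only [LinearMap.comp_apply, Finsupp.lsingle_apply, Finsupp.linearCombination_single,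
        one_smul, Finsupp.lmapDomain_apply, Finsupp.mapDomain_single, P.d2_single]
      exact ((Q.bd_path f).relabel Q.lab γ d).symm
    rw [Q.inj y' (by
      rw [h3, LinearMap.comp_apply, LinearMap.comp_apply, Finsupp.lmapDomain_apply ℤ ℤ _ y', hy,
        map_zero]), Finsupp.mapDomain_zero]

end Crest.Agent.R197
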