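import Crest.Agent.R197.TopDefs

/-!
# Row 197: winding numbers around the centre of a disc in a contractible space
-/

set_option autoImplicit false

noncomputable section

namespace Crest.Agent.R197

open unitInterval _root_.Topology Set Filter

namespace Wind

/-! ### Winding numbers of complex functions -/

/-- `L` is a continuous logarithm of `f`. -/
def IsLog (f L : I → ℂ) : Prop := Continuous L ∧ ∀ s, Complex.exp (L s) = f s

open Classical in
/-- The increment of a continuous logarithm. -/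
def wind (f : I → ℂ) : ℂ := if h : ∃ L, IsLog f L then h.choose 1 - h.choose 0 else 0

theorem const_of_exp {A : Type} [TopologicalSpace A] [PreconnectedSpace A] {L : A → ℂ}
    (hL : Continuous L) (h : ∀ a a', Complex.exp (L a) = Complex.exp (L a')) (a a' : A) :
    L a = L a' :=
  Complex.isCoveringMap_exp.const_of_comp hL (fun a a' => Subtype.ext (h a a')) a a'

theorem IsLog.wind_eq {f L : I → ℂ} (h : IsLog f L) : wind f = L 1 - L 0 := by
  have h' : ∃ L, IsLog f L := ⟨L, h⟩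
  rw [wind, dif_pos h']
  have h2 := h'.choose_spec
  have key : ∀ a, Complex.exp (h'.choose a - L a) = 1 := fun a => by
    rw [Complex.exp_sub, h2.2, ← h.2 a, div_self (Complex.exp_ne_zero _)]
  have := const_of_exp (h2.1.sub h.1) (fun a a' => (key a).trans (key a').symm) 1 0
  simp only [Pi.sub_apply] at this
  linear_combination this

theorem exists_log2 {F : I × I → ℂ} (hF : Continuous F) (h0 : ∀ q, F q ≠ 0) :
    ∃ L : I × I → ℂ, Continuous L ∧ ∀ q, Complex.exp (L q) = F q := by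
  let G : C(ℝ × ℝ, {z : ℂ // z ≠ 0}) :=
    ⟨fun q => ⟨F (projIcc 0 1 zero_le_one q.1, projIcc 0 1 zero_le_one q.2), h0 _⟩,
      (hF.comp ((continuous_projIcc.comp continuous_fst).prodMk
        (continuous_projIcc.comp continuous_snd))).subtype_mk _⟩
  obtain ⟨L, ⟨-, hL⟩, -⟩ := Complex.isCoveringMap_exp.existsUnique_continuousMap_lifts G 0
    (Complex.log (G 0)) (Subtype.ext (Complex.exp_log (G 0).2))
  refine ⟨fun q => L (q.1, q.2), by fun_prop, fun q => ?_⟩
  have := congrArg Subtype.val (congrFun hL (q.1, q.2))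
  simpa [G] using this

theorem exists_log {f : I → ℂ} (hf : Continuous f) (h0 : ∀ s, f s ≠ 0) : ∃ L, IsLog f L := by
  obtain ⟨L, h1, h2⟩ := exists_log2 (F := fun q => f q.2) (hf.comp continuous_snd) fun q => h0 _
  exact ⟨fun s => L (0, s), by fun_prop, fun s => h2 _⟩

theorem wind_homotopy {F : I × I → ℂ} (hF : Continuous F) (h0 : ∀ q, F q ≠ 0)
    (h : ∀ t t', F (t, 1) * F (t', 0) = F (t', 1) * F (t, 0)) :
    wind (fun s => F (0, s)) = wind (fun s => F (1, s)) := by
  obtain ⟨L, h1, h2⟩ := exists_log2 hF h0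
  rw [IsLog.wind_eq (L := fun s => L (0, s)) ⟨by fun_prop, fun s => h2 _⟩,
    IsLog.wind_eq (L := fun s => L (1, s)) ⟨by fun_prop, fun s => h2 _⟩]
  refine const_of_exp (L := fun t => L (t, 1) - L (t, 0)) (by fun_prop) (fun t t' => ?_) 0 1
  rw [Complex.exp_sub, Complex.exp_sub, h2, h2, h2, h2, div_eq_div_iff (h0 _) (h0 _), h]

theorem wind_trans {E : Type} [TopologicalSpace E] {g : E → ℂ} (hg : Continuous g) {x y z : E}
    (γ : Path x y) (γ' : Path y z) (h : ∀ s, g (γ s) ≠ 0) (h' : ∀ s, g (γ' s) ≠ 0) :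
    wind (fun s => g ((γ.trans γ') s)) = wind (fun s => g (γ s)) + wind (fun s => g (γ' s)) := by
  obtain ⟨L, hL⟩ := exists_log (hg.comp γ.continuous) h
  obtain ⟨L', hL'⟩ := exists_log (hg.comp γ'.continuous) h'
  have hc : Complex.exp (L 1 - L' 0) = 1 := by
    rw [Complex.exp_sub, hL.2, hL'.2]
    simp only [Function.comp, Path.target, Path.source]
    exact div_self (by simpa using h 1)
  let p : Path (L 0) (L 1) := ⟨⟨L, hL.1⟩, rfl, rfl⟩
  let p' : Path (L 1) (L' 1 + (L 1 - L' 0)) :=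
    ⟨⟨fun s => L' s + (L 1 - L' 0), hL'.1.add continuous_const⟩, by simp, rfl⟩
  have key : IsLog (fun s => g ((γ.trans γ') s)) (p.trans p') := by
    refine ⟨(p.trans p').continuous, fun s => ?_⟩
    simp only [Path.trans_apply]
    split_ifs
    · exact hL.2 _
    · change Complex.exp (L' _ + (L 1 - L' 0)) = _
      rw [Complex.exp_add, hc, mul_one]; exact hL'.2 _
  rw [key.wind_eq, IsLog.wind_eq (f := fun s => g (γ s)) hL,
    IsLog.wind_eq (f := fun s => g (γ' s)) hL', Path.target, Path.source]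
  ring

/-! ### The rank one operators -/

/-- The operator `v v^*` for `v = (z, 1 - |z|)`, in terms of `ρ = 1 - |z|`, `β = z ρ`. -/
def act (k : ℝ × ℂ) (s : ℂ × ℂ) : ℂ × ℂ :=
  (((1 - k.1) ^ 2 : ℝ) * s.1 + k.2 * s.2, (starRingEnd ℂ) k.2 * s.1 + (k.1 ^ 2 : ℝ) * s.2)

theorem continuous_act : Continuous fun q : (ℝ × ℂ) × (ℂ × ℂ) => act q.1 q.2 := by
  unfold act; fun_prop

/-- Admissible parameters. -/
def Good (k : ℝ × ℂ) : Prop :=
  0 ≤ k.1 ∧ k.1 ≤ 1 ∧ k.2 * (starRingEnd ℂ) k.2 = (((1 - k.1) * k.1) ^ 2 : ℝ)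

/-- The line belonging to `k`. -/
def InL (k : ℝ × ℂ) (s : ℂ × ℂ) : Prop := act k s = ((((1 - k.1) ^ 2 + k.1 ^ 2 : ℝ) : ℂ)) • s

theorem inL_act {k : ℝ × ℂ} (hk : Good k) (s : ℂ × ℂ) : InL k (act k s) := by
  have h := hk.2.2
  push_cast at h
  refine Prod.ext ?_ ?_ <;> simp only [act, Prod.smul_fst, Prod.smul_snd, smul_eq_mul] <;> push_cast
  · linear_combination s.1 * h
  · linear_combination s.2 * h

theorem act_ne {k k' : ℝ × ℂ} (hk : Good k) (hk' : Good k') (hd : dist k' k < 1 / 8) {s : ℂ × ℂ}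
    (hs : InL k s) (h0 : s ≠ 0) : act k' s ≠ 0 := by
  intro h
  have hn : 0 < ‖s‖ := norm_pos_iff.2 h0
  have d1 : |k'.1 - k.1| < 1 / 8 := lt_of_le_of_lt (by rw [← Real.dist_eq]; exact le_max_left _ _) hd
  have d2 : ‖k'.2 - k.2‖ < 1 / 8 := lt_of_le_of_lt (by rw [← dist_eq_norm]; exact le_max_right _ _) hd
  obtain ⟨a1, a2, -⟩ := hk
  obtain ⟨b1, b2, -⟩ := hk'
  obtain ⟨c1, c2⟩ := abs_lt.1 d1
  have e1 : |(1 - k.1) ^ 2 - (1 - k'.1) ^ 2| ≤ 1 / 4 := by rw [abs_le]; constructor <;> nlinarith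
  have e2 : |k.1 ^ 2 - k'.1 ^ 2| ≤ 1 / 4 := by rw [abs_le]; constructor <;> nlinarith
  have s1 : ‖s.1‖ ≤ ‖s‖ := norm_fst_le s
  have s2 : ‖s.2‖ ≤ ‖s‖ := norm_snd_le s
  have key : ‖act k s - act k' s‖ ≤ 3 / 8 * ‖s‖ := by
    rw [Prod.norm_def, max_le_iff]
    constructor
    · have : (act k s - act k' s).1 = (((1 - k.1) ^ 2 - (1 - k'.1) ^ 2 : ℝ) : ℂ) * s.1 -
          (k'.2 - k.2) * s.2 := by simp only [act, Prod.fst_sub]; push_cast; ring
      rw [this]
      refine (norm_sub_le _ _).trans ?_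
      rw [norm_mul, norm_mul, Complex.norm_real, Real.norm_eq_abs]
      have := mul_le_mul e1 s1 (norm_nonneg _) (by norm_num)
      have := mul_le_mul d2.le s2 (norm_nonneg _) (by norm_num)
      linarith
    · have : (act k s - act k' s).2 = ((k.1 ^ 2 - k'.1 ^ 2 : ℝ) : ℂ) * s.2 -
          (starRingEnd ℂ) (k'.2 - k.2) * s.1 := by
        simp only [act, Prod.snd_sub, map_sub]; push_cast; ring
      rw [this]
      refine (norm_sub_le _ _).trans ?_
      rw [norm_mul, norm_mul, Complex.norm_real, Real.norm_eq_abs, Complex.norm_conj]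
      have := mul_le_mul e2 s2 (norm_nonneg _) (by norm_num)
      have := mul_le_mul d2.le s1 (norm_nonneg _) (by norm_num)
      linarith
  rw [h, sub_zero, hs, norm_smul, Complex.norm_real, Real.norm_eq_abs,
    abs_of_nonneg (by positivity)] at key
  have : 1 / 2 ≤ (1 - k.1) ^ 2 + k.1 ^ 2 := by nlinarith [sq_nonneg (2 * k.1 - 1)]
  nlinarith

theorem exists_inL {k : ℝ × ℂ} (hk : Good k) : ∃ s, InL k s ∧ s ≠ 0 := by
  by_cases h : k.1 = 1
  · exact ⟨_, inL_act hk (0, 1), fun h0 => by simpa [act, h] using congrArg Prod.snd h0⟩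
  · refine ⟨_, inL_act hk (1, 0), fun h0 => h ?_⟩
    have : (1 : ℂ) - k.1 = 0 := by simpa [act] using congrArg Prod.fst h0
    exact_mod_cast (sub_eq_zero.1 this).symm

theorem fst_ne {k : ℝ × ℂ} {s : ℂ × ℂ} (hs : InL k s) (h0 : s ≠ 0) (hk : k.1 ≠ 1) : s.1 ≠ 0 := by
  intro h
  have h2 := congrArg Prod.snd hs
  simp only [act, h, Prod.smul_snd, smul_eq_mul] at h2
  push_cast at h2
  have h3 : (1 - (k.1 : ℂ)) ^ 2 * s.2 = 0 := by linear_combination -h2
  rcases mul_eq_zero.1 h3 with h4 | h4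
  · exact hk (by exact_mod_cast (sub_eq_zero.1 (pow_eq_zero_iff two_ne_zero |>.1 h4)).symm)
  · exact h0 (Prod.ext h h4)

/-- The parameters on the disc. -/
def kD (z : Disc) : ℝ × ℂ := (1 - ‖(z : ℂ)‖, (z : ℂ) * ((1 - ‖(z : ℂ)‖ : ℝ) : ℂ))

theorem good_kD (z : Disc) : Good (kD z) := by
  have h : ‖(z : ℂ)‖ ≤ 1 := mem_closedBall_zero_iff.1 z.2
  refine ⟨by simp only [kD]; linarith, by simp only [kD]; linarith [norm_nonneg (z : ℂ)], ?_⟩
  simp only [kD, map_mul, Complex.conj_ofReal]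
  have := Complex.mul_conj' (z : ℂ)
  push_cast
  linear_combination (1 - (‖(z : ℂ)‖ : ℂ)) ^ 2 * this

theorem exists_ext {E : Type} [TopologicalSpace E] [T2Space E] (φ : C(Disc, E))
    (hinj : ∀ z w : Disc, ‖(z : ℂ)‖ < 1 → φ z = φ w → z = w)
    (hop : IsOpen (φ '' {z | ‖(z : ℂ)‖ < 1})) :
    ∃ K : E → ℝ × ℂ, Continuous K ∧ (∀ z, K (φ z) = kD z) ∧ ∀ x, (∃ z, φ z = x) ∨ K x = 0 := by
  classical
  have hb : ∀ z : Disc, ¬ ‖(z : ℂ)‖ < 1 → kD z = 0 := fun z hz => by
    have h : ‖(z : ℂ)‖ = 1 := le_antisymm (mem_closedBall_zero_iff.1 z.2) (not_lt.1 hz)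
    simp [kD, h]
  let K : E → ℝ × ℂ := fun x => if h : ∃ z, φ z = x then kD h.choose else 0
  have h1 : ∀ z, K (φ z) = kD z := fun z => by
    have h : ∃ w, φ w = φ z := ⟨z, rfl⟩
    simp only [K, dif_pos h]
    by_cases hw : ‖(h.choose : ℂ)‖ < 1
    · rw [hinj _ _ hw h.choose_spec]
    · by_cases hz : ‖(z : ℂ)‖ < 1
      · rw [← hinj _ _ hz h.choose_spec.symm]
      · rw [hb _ hw, hb _ hz]
  have h2 : ∀ x, x ∉ φ '' {z | ‖(z : ℂ)‖ < 1} → K x = 0 := fun x hx => by
    by_cases h : ∃ z, φ z = x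
    · obtain ⟨z, rfl⟩ := h
      rw [h1, hb z fun hz => hx ⟨z, hz, rfl⟩]
    · simp only [K, dif_neg h]
  refine ⟨K, continuous_iff_isClosed.2 fun C hC => ?_, h1, fun x => ?_⟩
  · have : K ⁻¹' C = φ '' (kD ⁻¹' C) ∪ ((φ '' {z | ‖(z : ℂ)‖ < 1})ᶜ ∩ {_x | (0 : ℝ × ℂ) ∈ C}) := by
      ext x
      constructor
      · intro hx
        by_cases h : x ∈ φ '' {z | ‖(z : ℂ)‖ < 1}
        · obtain ⟨z, -, rfl⟩ := h
          exact Or.inl ⟨z, by rwa [mem_preimage, h1] at hx, rfl⟩
        · exact Or.inr ⟨h, by rwa [mem_preimage, h2 x h] at hx⟩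
      · rintro (⟨z, hz, rfl⟩ | ⟨h, h'⟩)
        · rwa [mem_preimage, h1]
        · rwa [mem_preimage, h2 x h]
    rw [this]
    refine (φ.continuous.isClosedMap _ (hC.preimage (by unfold kD; fun_prop))).union
      (hop.isClosed_compl.inter isClosed_const)
  · by_cases h : ∃ z, φ z = x
    · exact Or.inl h
    · exact Or.inr (by simp only [K, dif_neg h])

/-- Discrete parallel transport. -/
def sv {E : Type} (T : ℝ → E → ℝ × ℂ) (v : ℂ × ℂ) (n : ℕ) : ℕ → E → ℂ × ℂ
  | 0, _ => v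
  | k + 1, x => act (T ((k + 1 : ℕ) / n) x) (sv T v n k x)

theorem exists_sections {E : Type} [TopologicalSpace E] [ContractibleSpace E] {K : E → ℝ × ℂ}
    (hK : Continuous K) (hg : ∀ x, Good (K x)) :
    ∃ s : ℕ → E → ℂ × ℂ, (∀ n, Continuous (s n)) ∧
      ∀ (A : Type) [MetricSpace A] [CompactSpace A] (γ : A → E), Continuous γ →
        ∀ᶠ n in atTop, ∀ a, InL (K (γ a)) (s n (γ a)) ∧ s n (γ a) ≠ 0 := by
  obtain ⟨e0, ⟨H⟩⟩ := id_nullhomotopic E
  obtain ⟨v, hv, hv0⟩ := exists_inL (hg e0)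
  let T : ℝ → E → ℝ × ℂ := fun t x => K (H.symm (projIcc 0 1 zero_le_one t, x))
  refine ⟨fun n => sv T v n n, fun n => ?_, fun A _ _ γ hγ => ?_⟩
  · have : ∀ k, Continuous (sv T v n k) := fun k => by
      induction k with
      | zero => exact continuous_const
      | succ k ih =>
        exact continuous_act.comp ((hK.comp (H.symm.continuous.comp
          (continuous_const.prodMk continuous_id))).prodMk ih)
    exact this n
  · have hu : UniformContinuous fun q : I × A => K (H.symm (q.1, γ q.2)) :=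
      CompactSpace.uniformContinuous_of_continuous (by fun_prop)
    obtain ⟨δ, hδ, hu⟩ := Metric.uniformContinuous_iff.1 hu (1 / 8) (by norm_num)
    filter_upwards [(tendsto_one_div_atTop_nhds_zero_nat (𝕜 := ℝ)).eventually (gt_mem_nhds hδ),
      eventually_gt_atTop 0] with n hn hn0 a
    have hn' : (0 : ℝ) < n := by exact_mod_cast hn0
    have key : ∀ k : ℕ, InL (T (k / n) (γ a)) (sv T v n k (γ a)) ∧ sv T v n k (γ a) ≠ 0 := fun k => by
      induction k with
      | zero => exact ⟨by simpa [T, sv] using hv, hv0⟩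
      | succ k ih =>
        refine ⟨inL_act (hg _) _, act_ne (hg _) (hg _) (hu (a := (_, a)) (b := (_, a)) ?_) ih.1 ih.2⟩
        rw [Prod.dist_eq, dist_self, max_eq_left dist_nonneg]
        refine lt_of_le_of_lt ((LipschitzWith.projIcc zero_le_one).dist_le_mul _ _) ?_
        rw [NNReal.coe_one, one_mul, Real.dist_eq, Nat.cast_succ, add_div, add_sub_cancel_left,
          abs_of_pos (by positivity)]
        exact hn
    have := key n
    rw [div_self hn'.ne'] at this
    simpa [T] using this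

end Wind

open Crest.Agent.R197.Wind in
theorem windStmt : WindStmt := by
  intro E _ _ _ φ hinj hop
  obtain ⟨K, hK, hKφ, hK0⟩ := exists_ext φ hinj hop
  have hg : ∀ x, Good (K x) := fun x => by
    rcases hK0 x with ⟨z, rfl⟩ | h
    · rw [hKφ]; exact good_kD z
    · rw [h]; simp [Good]
  have hne : ∀ x, x ≠ φ ctr → (K x).1 ≠ 1 := fun x hx h => by
    rcases hK0 x with ⟨z, rfl⟩ | h'
    · rw [hKφ] at h
      have : ‖(z : ℂ)‖ = 0 := by simp only [kD] at h; linarith
      exact hx (congrArg φ (Subtype.ext (norm_eq_zero.1 this)))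
    · simp [h'] at h
  obtain ⟨s, hs, hs0⟩ := exists_sections hK hg
  have hs1 : ∀ n, Continuous fun x => (s n x).1 := fun n => (hs n).fst
  refine ⟨Germ (atTop : Filter ℕ) ℂ, inferInstance,
    fun γ => Germ.ofFun fun n => wind fun t => (s n (γ t)).1, ?_, ?_, ?_⟩
  · intro x y z γ γ' h h'
    rw [← Germ.coe_add, Germ.coe_eq]
    filter_upwards [hs0 I γ γ.continuous, hs0 I γ' γ'.continuous] with n h1 h2
    exact wind_trans (hs1 n) γ γ' (fun t => fst_ne (h1 t).1 (h1 t).2 (hne _ (h t)))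
      fun t => fst_ne (h2 t).1 (h2 t).2 (hne _ (h' t))
  · intro γ γ' F h
    rw [Germ.coe_eq]
    filter_upwards [hs0 (I × I) F F.continuous] with n h1
    have := wind_homotopy (F := fun q => (s n (F q)).1) ((hs1 n).comp F.continuous)
      (fun q => fst_ne (h1 q).1 (h1 q).2 (hne _ (h q))) fun t t' => by
        rw [F.eq_fst t (x := 1) (by simp), F.eq_fst t' (x := 1) (by simp),
          F.eq_fst t (x := 0) (by simp), F.eq_fst t' (x := 0) (by simp)]
    simpa using this
  · intro m hm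
    have key : ∀ᶠ n in atTop, wind (fun t => (s n (φ (inc (circ t)))).1) = 2 * Real.pi * Complex.I := by
      filter_upwards [hs0 Disc φ φ.continuous] with n h1
      let μ : Disc → ℂ := fun z =>
        (starRingEnd ℂ) (z : ℂ) * (s n (φ z)).1 + ((1 - ‖(z : ℂ)‖ : ℝ) : ℂ) * (s n (φ z)).2
      have hμc : Continuous μ := by have := hs n; fun_prop
      have hμ : ∀ z : Disc, (z : ℂ) * μ z = ((‖(z : ℂ)‖ ^ 2 + (1 - ‖(z : ℂ)‖) ^ 2 : ℝ) : ℂ) * (s n (φ z)).1 ∧
          ((1 - ‖(z : ℂ)‖ : ℝ) : ℂ) * μ z =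
            ((‖(z : ℂ)‖ ^ 2 + (1 - ‖(z : ℂ)‖) ^ 2 : ℝ) : ℂ) * (s n (φ z)).2 := fun z => by
        have h2 := (h1 z).1
        rw [hKφ] at h2
        have a1 := congrArg Prod.fst h2
        have a2 := congrArg Prod.snd h2
        have a3 := Complex.mul_conj' (z : ℂ)
        simp only [act, kD, Prod.smul_fst, Prod.smul_snd, smul_eq_mul, map_mul,
          Complex.conj_ofReal, μ] at a1 a2 ⊢
        push_cast at a1 a2 ⊢
        exact ⟨by linear_combination a1 + (s n (φ z)).1 * a3, by linear_combination a2⟩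
      have hμ0 : ∀ z, μ z ≠ 0 := fun z h => by
        obtain ⟨a1, a2⟩ := hμ z
        have hτ : ((‖(z : ℂ)‖ ^ 2 + (1 - ‖(z : ℂ)‖) ^ 2 : ℝ) : ℂ) ≠ 0 := by
          rw [Complex.ofReal_ne_zero]; nlinarith [sq_nonneg (2 * ‖(z : ℂ)‖ - 1)]
        rw [h, mul_zero, eq_comm, mul_eq_zero] at a1 a2
        exact (h1 z).2 (Prod.ext (a1.resolve_left hτ) (a2.resolve_left hτ))
      let r : I × I → Disc := fun q => ⟨((q.1 : ℝ) : ℂ) * circ q.2, by
        simpa [abs_of_nonneg q.1.2.1] using q.1.2.2⟩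
      have hr : Continuous r := by have := circ.continuous; fun_prop
      have w1 := wind_homotopy (F := fun q => μ (r q)) (hμc.comp hr) (fun q => hμ0 _) fun t t' => by
        have e : ∀ t, r (t, 1) = r (t, 0) := fun t => Subtype.ext (by simp [r])
        rw [e, e, mul_comm]
      have r0 : ∀ t, r (0, t) = ctr := fun t => Subtype.ext (by simp [r, ctr])
      have r1 : ∀ t, r (1, t) = inc (circ t) := fun t => Subtype.ext (by simp [r, inc])
      simp only [r0, r1] at w1
      rw [IsLog.wind_eq (L := fun _ => Complex.log (μ ctr))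
        ⟨continuous_const, fun _ => Complex.exp_log (hμ0 _)⟩, sub_self] at w1
      obtain ⟨L, hL⟩ := exists_log (f := fun t => μ (inc (circ t)))
        (hμc.comp (inc.continuous.comp circ.continuous)) fun t => hμ0 _
      rw [hL.wind_eq] at w1
      rw [IsLog.wind_eq (L := fun t => L t + ((2 * Real.pi * t : ℝ) : ℂ) * Complex.I)
        ⟨by have := hL.1; fun_prop, fun t => ?_⟩]
      · simp only [Set.Icc.coe_one, Set.Icc.coe_zero]; push_cast
        linear_combination -w1
      · have a1 := (hμ (inc (circ t))).1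
        have a2 : ‖((inc (circ t) : Disc) : ℂ)‖ = 1 := by simp [inc]
        rw [a2] at a1
        rw [Complex.exp_add, hL.2, ← Circle.coe_exp, mul_comm]
        refine Eq.trans a1 (by simp)
    have h2 : Germ.ofFun (l := (atTop : Filter ℕ)) (fun n => m • wind fun t => (s n (φ (inc (circ t)))).1)
        = Germ.ofFun fun _ => (0 : ℂ) := hm
    rw [Germ.coe_eq] at h2
    obtain ⟨n, h3, h4⟩ := (key.and h2).exists
    simp only [h3] at h4
    simpa [Real.pi_ne_zero] using h4

end Crest.Agent.R197
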