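import Crest.Agent.R197.Final
import Crest.Agent.R197.Len
import Crest.Agent.R197.Slab
import Crest.Agent.R197.P0
import Crest.Agent.R197.Cd
import Crest.Agent.R197.Core
import Crest.Agent.R197.Expand
import Crest.Agent.R197.Transfer
import Crest.Agent.R197.Geom
import Crest.Agent.R197.Extract
import Crest.Agent.R197.Gen
import Crest.Agent.R197.Pot
import Crest.Agent.R197.Tree
import Crest.Agent.R197.GraphTop
import Crest.Agent.R197.Retract
import Crest.Agent.R197.Wind
import Crest.Agent.R197.Inj
import Crest.Agent.R197.GPres
import Crest.Agent.Lib.Degree.IntHtp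
import Crest.Agent.Lib.Degree.Exists
import Crest.Agent.Lib.Degree.Word

/-! Row 197: the two long steps. -/

set_option autoImplicit false

namespace Crest.Agent.R197

open Crest.Agent.Lib.Degree

theorem presStmt' : PresStmt :=
  presStmt extractStmt (gPresStmt potStmt (graphGenStmt genStmt) graphPotStmt (surjStmt genStmt)
    extendStmt (injStmt windStmt)) treeStmt

theorem coreStmt' : CoreStmt := coreStmt (degStmt intHtp) wordDeg expandStmt

end Crest.Agent.R197
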