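import Crest.Agent.R197.ClassContr
import Crest.Agent.Lib.TwoComplex.CW

/-!
Row 197: the quotient of the cube complex by the Bestvina-Brady group is a classifying complex.
-/

set_option autoImplicit false

noncomputable section

namespace Crest.Agent.R197

namespace Cl

open Set _root_.Topology Metric Crest.Agent.Lib.TwoComplex

variable {V : Type} [LinearOrder V] {Γ : SimpleGraph V}

instance : IsCancelSMul (H Γ) (X Γ) where
  right_cancel' g h x e := by
    have : ((h⁻¹ * g : H Γ) : A Γ) • x = x := by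
      change (h⁻¹ * g) • x = x
      rw [mul_smul, e, inv_smul_smul]
    exact (inv_mul_eq_one.1 (Subtype.ext (eq_one_of_smul this))).symm

instance : ContinuousConstSMul (H Γ) (X Γ) := ⟨fun g => continuous_const_smul (g : A Γ)⟩

instance [Fintype V] : ProperlyDiscontinuousSMul (H Γ) (X Γ) where
  finite_disjoint_inter_image hC hL :=
    Finite.preimage (f := Subtype.val) Subtype.val_injective.injOn
      (ProperlyDiscontinuousSMul.finite_disjoint_inter_image (Γ := A Γ) hC hL)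

variable (Γ) in
/-- The orbit space. -/
abbrev Y : Type := Quotient (MulAction.orbitRel (H Γ) (X Γ))

/-- The covering map. -/
abbrev prj (x : X Γ) : Y Γ := Quotient.mk _ x

theorem prj_eq {x x' : X Γ} (h : prj x = prj x') : ∃ g : A Γ, ht Γ g = 0 ∧ g • x' = x := by
  obtain ⟨g, hg⟩ := MulAction.orbitRel_apply.1 (Quotient.exact h)
  exact ⟨g, (mem_H Γ).1 g.2, hg⟩

theorem prj_pt (v₀ : V) (a : A Γ) (σ : Clq Γ) (y : V → ℝ) :
    prj (pt a σ y) = prj (pt (gen Γ v₀ ^ ht Γ a) σ y) := by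
  refine Quotient.sound (MulAction.orbitRel_apply.2
    ⟨⟨a * (gen Γ v₀ ^ ht Γ a)⁻¹, (mem_H Γ).2 (by simp)⟩, ?_⟩)
  change (a * (gen Γ v₀ ^ ht Γ a)⁻¹) • pt _ σ y = _
  rw [smul_pt, inv_mul_cancel_right]

variable (Γ) in
/-- The cells. -/
abbrev Cell (n : ℕ) : Type := ℤ × {σ : Clq Γ // σ.1.card = n}

/-- The numbering of the directions of a cell. -/
def num {n : ℕ} (σ : {σ : Clq Γ // σ.1.card = n}) : σ.1.1 ≃ Fin n := σ.1.1.equivFinOfCardEq σ.2

/-- The cube coordinates. -/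
def par {n : ℕ} (σ : {σ : Clq Γ // σ.1.card = n}) (x : Fin n → ℝ) (v : V) : ℝ :=
  if h : v ∈ σ.1.1 then (x (num σ ⟨v, h⟩) + 1) / 2 else 0

theorem continuous_par {n : ℕ} (σ : {σ : Clq Γ // σ.1.card = n}) : Continuous (par σ) := by
  refine continuous_pi fun v => ?_
  unfold par
  split_ifs <;> fun_prop

theorem par_num {n : ℕ} (σ : {σ : Clq Γ // σ.1.card = n}) (x : Fin n → ℝ) (i : Fin n) :
    par σ x ((num σ).symm i) = (x i + 1) / 2 := by
  simp [par]

theorem par_closed {n : ℕ} (σ : {σ : Clq Γ // σ.1.card = n}) {x : Fin n → ℝ}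
    (hx : x ∈ closedBall (0 : Fin n → ℝ) 1) (v : V) : 0 ≤ par σ x v ∧ par σ x v ≤ 1 := by
  unfold par
  split_ifs with h
  · have := abs_le.1 (abs_le_of_closedBall hx (num σ ⟨v, h⟩))
    constructor <;> linarith
  · simp

theorem par_open {n : ℕ} (σ : {σ : Clq Γ // σ.1.card = n}) {x : Fin n → ℝ}
    (hx : x ∈ ball (0 : Fin n → ℝ) 1) {v : V} (h : v ∈ σ.1.1) : 0 < par σ x v ∧ par σ x v < 1 := by
  rw [par, dif_pos h]
  have := abs_lt.1 (abs_lt_of_ball hx (num σ ⟨v, h⟩))
  constructor <;> linarith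

/-- The characteristic maps. -/
def chr (v₀ : V) (n : ℕ) (i : Cell Γ n) : C(Fin n → ℝ, Y Γ) :=
  ⟨fun x => prj (pt (gen Γ v₀ ^ i.1) i.2.1 (par i.2 x)),
    continuous_quotient_mk'.comp ((continuous_pt _ _).comp (continuous_par _))⟩

theorem mem_cell (v₀ : V) (a : A Γ) (σ : Clq Γ) {y : V → ℝ} (hy : ∀ v ∈ σ.1, 0 ≤ y v ∧ y v ≤ 1) :
    prj (pt a σ y) ∈ chr v₀ σ.1.card (ht Γ a, ⟨σ, rfl⟩) '' closedBall 0 1 := by
  refine ⟨fun i => 2 * y ((num ⟨σ, rfl⟩).symm i) - 1, ?_, ?_⟩
  · rw [mem_closedBall_zero_iff, pi_norm_le_iff_of_nonneg zero_le_one]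
    intro i
    have := hy _ ((num ⟨σ, rfl⟩).symm i).2
    exact abs_le.2 ⟨by linarith [this.1], by linarith [this.2]⟩
  · rw [prj_pt v₀ a]
    exact congrArg prj (pt_congr fun v hv => by simp [par, hv])

theorem exists_cw [Fintype V] (v₀ : V) (h4 : Γ.CliqueFree 4) :
    ∃ _ : CWComplex (univ : Set (Y Γ)),
      ∀ n, 3 < n → IsEmpty (RelCWComplex.cell (univ : Set (Y Γ)) n) := by
  have hinj : ∀ n (i : Cell Γ n), ∀ x ∈ ball (0 : Fin n → ℝ) 1,
      ∀ x' ∈ closedBall (0 : Fin n → ℝ) 1, chr v₀ n i x = chr v₀ n i x' → x = x' := by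
    rintro n ⟨k, σ⟩ x hx x' hx' h
    obtain ⟨g, -, e⟩ := prj_eq h
    obtain ⟨g', hg', h'⟩ := exists_ab (Γ := Γ) σ.1.1 fun v => ⌊par σ x' v⌋
    rw [smul_pt, pt_mul _ hg'] at e
    have h1 := (height_unique (fun v hv => by
      rw [h' v hv]; exact ⟨Int.fract_nonneg _, Int.fract_lt_one _⟩)
      (fun v hv => ⟨(par_open σ hx hv).1.le, (par_open σ hx hv).2⟩) e).2
    funext i
    have hv := ((num σ).symm i).2
    have h2 := h1 ((num σ).symm i)
    rw [if_pos hv, if_pos hv, h' _ hv] at h2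
    have h3 := par_closed σ hx' ((num σ).symm i)
    have h4 := (par_open σ hx hv).1
    have h5 : ⌊par σ x' ((num σ).symm i)⌋ = 0 := by
      refine Int.floor_eq_zero_iff.2 ⟨h3.1, lt_of_le_of_ne h3.2 fun h6 => ?_⟩
      rw [h6] at h2
      simp only [Int.floor_one, Int.cast_one, sub_self] at h2
      exact h4.ne h2
    rw [h5, par_num, par_num] at h2
    simp only [Int.cast_zero, sub_zero] at h2
    linarith
  have hi : ∀ n i, InjOn (chr (Γ := Γ) v₀ n i) (ball 0 1) := fun n i x hx y hy h =>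
    hinj n i x hx y (ball_subset_closedBall hy) h
  refine ⟨{ cell := Cell Γ
            map := fun n i => (hi n i).toPartialEquiv (chr v₀ n i) (ball 0 1)
            source_eq := fun _ _ => rfl
            continuousOn := fun n i => (chr v₀ n i).continuous.continuousOn
            continuousOn_symm := fun n i =>
              continuousOn_symm_of_inj (chr v₀ n i) (hinj n i) (hi n i)
            pairwiseDisjoint' := ?_
            mapsTo' := ?_
            closed' := ?_
            union' := ?_ }, ?_⟩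
  · rintro ⟨n, k, σ⟩ - ⟨n', k', σ'⟩ - hne
    rw [Function.onFun, Set.disjoint_left]
    rintro _ ⟨x, hx, rfl⟩ ⟨x', hx', h⟩
    obtain ⟨g, hg, e⟩ := prj_eq h
    rw [smul_pt] at e
    obtain ⟨h1, h2⟩ := height_unique
      (fun v hv => ⟨(par_open σ hx hv).1.le, (par_open σ hx hv).2⟩)
      (fun v hv => ⟨(par_open σ' hx' hv).1.le, (par_open σ' hx' hv).2⟩) e
    have hk : k = k' := by simpa [hg] using congrArg (ht Γ) h1
    have hσ : σ.1 = σ'.1 := by
      refine Subtype.ext (Finset.ext fun v => ?_)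
      have := h2 v
      by_cases hv : v ∈ σ.1.1 <;> by_cases hv' : v ∈ σ'.1.1 <;> simp only [hv, hv', if_true,
        if_false] at this ⊢
      · exact absurd this (par_open σ hx hv).1.ne'
      · exact absurd this (par_open σ' hx' hv').1.ne
    obtain ⟨σ, rfl⟩ := σ
    obtain ⟨σ', rfl⟩ := σ'
    obtain rfl : σ = σ' := hσ
    exact hne (by rw [hk])
  · rintro n ⟨k, σ⟩
    classical
    refine ⟨fun m => ({k, k + 1} : Finset ℤ) ×ˢ Finset.univ, fun x hx => ?_⟩
    obtain ⟨i, hi⟩ := exists_abs_eq_of_sphere hx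
    have hx' := sphere_subset_closedBall hx
    set v := (num σ).symm i
    obtain ⟨j, hj, hj'⟩ : ∃ j : ℤ, (j = 0 ∨ j = 1) ∧ par σ x v = j := by
      rcases (abs_eq zero_le_one).1 hi with h | h
      · exact ⟨1, Or.inr rfl, by rw [par_num, h]; norm_num⟩
      · exact ⟨0, Or.inl rfl, by rw [par_num, h]; norm_num⟩
    have e : pt (gen Γ v₀ ^ k) σ.1 (par σ x) =
        pt (gen Γ v₀ ^ k * gen Γ v ^ j) (σ.1.erase v) (par σ x) := by
      rw [pt_mul _ (zpow_mem (gen_mem v.2) j), pt_shrink _ (τ := σ.1.erase v)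
        (Finset.erase_subset _ _) fun w hw hw' => ?_]
      · refine pt_congr fun w hw => ?_
        simp [(Finset.ne_of_mem_erase hw).symm]
      · obtain rfl : w = v := by
          by_contra h; exact hw' (Finset.mem_erase.2 ⟨h, hw⟩)
        simp [hj']
    have h1 := mem_cell v₀ (gen Γ v₀ ^ k * gen Γ v ^ j) (σ.1.erase v)
      fun w _ => par_closed σ hx' w
    rw [← e] at h1
    simp only [mem_iUnion]
    refine ⟨_, ?_, _, ?_, h1⟩
    · exact (Finset.card_erase_lt_of_mem v.2).trans_eq σ.2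
    · rcases hj with rfl | rfl <;> simp
  · intro C _ hC
    have hlf := locallyFinite_cubes (Γ := Γ) (fun p : A Γ × Clq Γ => p.1)
      (fun b => ((finite_singleton b).prod (finite_univ (α := Clq Γ))).subset
        fun p hp => ⟨hp, trivial⟩) (fun p => p.2) (fun _ => Icc 0 1)
      fun p y hy v _ => abs_le.2 ⟨by linarith [show (0 : ℝ) ≤ y v from hy.1 v], hy.2 v⟩
    rw [← isQuotientMap_quotient_mk'.isClosed_preimage]
    change IsClosed (prj ⁻¹' C)
    have e : prj ⁻¹' C = ⋃ p : A Γ × Clq Γ, pt p.1 p.2 '' Icc 0 1 ∩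
        prj ⁻¹' (C ∩ chr v₀ p.2.1.card (ht Γ p.1, ⟨p.2, rfl⟩) '' closedBall 0 1) := by
      refine Subset.antisymm (fun x hx => ?_) (iUnion_subset fun p x hx => hx.2.1)
      obtain ⟨a, σ, y, hy, rfl⟩ := exists_height x
      refine mem_iUnion.2 ⟨(a, σ), ⟨fun v => if v ∈ σ.1 then y v else 0, ⟨fun v => ?_, fun v => ?_⟩,
        pt_congr fun v hv => if_pos hv⟩, hx, mem_cell v₀ a σ fun v hv => ⟨(hy v hv).1, (hy v hv).2.le⟩⟩
      · dsimp only
        split_ifs with hv
        · exact (hy v hv).1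
        · exact le_rfl
      · dsimp only
        split_ifs with hv
        · exact (hy v hv).2.le
        · exact zero_le_one
    rw [e]
    exact (hlf.subset fun p => inter_subset_left).isClosed_iUnion fun p =>
      (isCompact_Icc.image (continuous_pt _ _)).isClosed.inter
        ((hC _ _).preimage continuous_quotient_mk')
  · refine eq_univ_of_forall fun z => ?_
    obtain ⟨x, rfl⟩ := Quotient.mk_surjective z
    obtain ⟨a, σ, y, hy, rfl⟩ := exists_height x
    exact mem_iUnion₂.2 ⟨_, _, mem_cell v₀ a σ fun v hv => ⟨(hy v hv).1, (hy v hv).2.le⟩⟩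
  · intro n hn
    exact ⟨fun i : Cell Γ n => h4.mono hn i.2.1.1 ⟨i.2.1.2, i.2.2⟩⟩

end Cl

theorem classStmt : ClassStmt := by
  intro V _ _ Γ v₀ L h4
  obtain ⟨cw, hdim⟩ := Cl.exists_cw v₀ h4
  have hc := Cl.contractible L
  have hp := isQuotientCoveringMap_quotientMk_of_properlyDiscontinuousSMul (G := H Γ) (E := Cl.X Γ)
  exact ⟨Cl.Y Γ, inferInstance, cw, inferInstance, hdim,
    ⟨Cl.X Γ, inferInstance, Cl.prj, hc, hp.isCoveringMap, hp.surjective⟩,
    Cl.prj (Cl.pt 1 ⟨∅, by simp⟩ 0),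
    ⟨(hp.fundamentalGroupEquiv ⟨Cl.pt 1 ⟨∅, by simp⟩ 0, rfl⟩).trans (MulEquiv.inv' (H Γ)).symm⟩⟩

end Crest.Agent.R197
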