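import Crest.Agent.R197.ClassSpace

/-!
Row 197: the cube complex is contractible.
-/

set_option autoImplicit false

noncomputable section

namespace Crest.Agent.R197.Cl

open Set _root_.Topology

local notation "I" => unitInterval

variable {V : Type} [LinearOrder V] {Γ : SimpleGraph V} (L : Len Γ)

/-- The sign of a letter. -/
def sgB (e : Bool) : ℤ := if e then 1 else -1

theorem ab_lt (w v : V) (e : Bool) : ab Γ w (lt Γ (v, e)) = if v = w then sgB e else 0 := by
  cases e <;> simp [lt, sgB]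
  split_ifs <;> simp

omit [LinearOrder V] in
theorem lt_mem {σ : Finset V} {v : V} (h : v ∈ σ) (e : Bool) : lt Γ (v, e) ∈ K Γ σ := by
  cases e
  · exact inv_mem (gen_mem h)
  · exact gen_mem h

theorem len_desc (ε : V → Bool) (M : Finset V) : Γ.IsClique (M : Set V) → ∀ t : A Γ,
    (∀ v ∈ M, L.ℓ (t * lt Γ (v, ε v)) < L.ℓ t) → ∀ g ∈ K Γ M, (∀ v ∈ M, ab Γ v g = sgB (ε v)) →
      L.ℓ (t * g) + M.card ≤ L.ℓ t := by
  induction M using Finset.induction_on with
  | empty =>
    intro _ t _ g hg _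
    have : g = 1 := by simpa [K] using hg
    simp [this]
  | insert v M hv ih =>
    intro hc t ht g hg hab
    have h1 : (lt Γ (v, ε v))⁻¹ * g ∈ K Γ M := by
      refine mem_K_of_ab hc (Finset.subset_insert _ _)
        (mul_mem (inv_mem (lt_mem (by simp) _)) hg) fun w hw hw' => ?_
      obtain rfl : w = v := (Finset.mem_insert.1 hw).resolve_right hw'
      simp [ab_lt, hab w hw]
    have h2 := ih (hc.subset (by simp)) (t * lt Γ (v, ε v)) (fun w hw => by
      have hvw : v ≠ w := by rintro rfl; exact hv hw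
      exact (L.par t (v, ε v) (w, ε w) (hc (by simp) (by simp [hw]) hvw)).2
        (ht w (by simp [hw]))) _ h1 (fun w hw => by
      have hvw : v ≠ w := by rintro rfl; exact hv hw
      simp [ab_lt, hvw, hab w (by simp [hw])])
    rw [mul_assoc, mul_inv_cancel_left] at h2
    have := ht v (by simp)
    rw [Finset.card_insert_of_notMem hv]
    omega

/-- The descending direction at `t` along `v`. -/
def sg (t : A Γ) (v : V) : ℤ :=
  if L.ℓ (t * lt Γ (v, true)) < L.ℓ t then 1 else if L.ℓ (t * lt Γ (v, false)) < L.ℓ t then -1 else 0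

omit [LinearOrder V] in
theorem sg_eq {t : A Γ} {v : V} {e : Bool} (h : L.ℓ (t * lt Γ (v, e)) < L.ℓ t) :
    sg L t v = sgB e := by
  cases e
  · have : ¬ L.ℓ (t * lt Γ (v, true)) < L.ℓ t := fun h' =>
      Γ.irrefl (L.adj t (v, true) (v, false) (by simp) h' h)
    simp [sg, sgB, this, h]
  · simp [sg, sgB, h]

omit [LinearOrder V] in
theorem sg_spec {t : A Γ} {v : V} (h : sg L t v ≠ 0) : ∃ e, L.ℓ (t * lt Γ (v, e)) < L.ℓ t := by
  unfold sg at h
  split_ifs at h with h1 h2
  · exact ⟨_, h1⟩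
  · exact ⟨_, h2⟩
  · exact absurd rfl h

omit [LinearOrder V] in
theorem sg_cases (t : A Γ) (v : V) : sg L t v = 1 ∨ sg L t v = -1 ∨ sg L t v = 0 := by
  unfold sg; split_ifs <;> simp

variable [Fintype V]

/-- The descending clique. -/
def D (t : A Γ) : Clq Γ := ⟨Finset.univ.filter fun v => sg L t v ≠ 0, by
  intro v hv w hw hvw
  simp only [Finset.coe_filter, Finset.mem_univ, true_and, mem_ofPred_eq] at hv hw
  obtain ⟨e, he⟩ := sg_spec L hv
  obtain ⟨e', he'⟩ := sg_spec L hw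
  exact L.adj t (v, e) (w, e') (fun h => hvw (congrArg Prod.fst h)) he he'⟩

omit [LinearOrder V] in
theorem mem_D {t : A Γ} {v : V} : v ∈ (D L t).1 ↔ sg L t v ≠ 0 := by simp [D]

/-- The parameter domain of the descending cube. -/
def Q (t : A Γ) : Set (V → ℝ) := univ.pi fun v => uIcc 0 (sg L t v : ℝ)

omit [LinearOrder V] [Fintype V] in
theorem isCompact_Q (t : A Γ) : IsCompact (Q L t) := isCompact_univ_pi fun _ => isCompact_uIcc

omit [LinearOrder V] [Fintype V] in
theorem mem_Q {t : A Γ} {y : V → ℝ} : y ∈ Q L t ↔ ∀ v, |y v| ≤ 1 ∧ y v = sg L t v * |y v| := by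
  refine forall_congr' fun v => ?_
  simp only [mem_univ, true_imp_iff]
  rcases sg_cases L t v with h | h | h <;> rw [h] <;> push_cast
  · rw [uIcc_of_le zero_le_one, one_mul, eq_comm, abs_eq_self]
    exact ⟨fun h => ⟨abs_le.2 ⟨by linarith [h.1], h.2⟩, h.1⟩, fun h => ⟨h.2, (abs_le.1 h.1).2⟩⟩
  · rw [uIcc_of_ge (by norm_num), neg_one_mul, eq_comm, neg_eq_iff_eq_neg, abs_eq_neg_self]
    exact ⟨fun h => ⟨abs_le.2 ⟨h.1, by linarith [h.2]⟩, h.2⟩, fun h => ⟨(abs_le.1 h.1).1, h.2⟩⟩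
  · simp only [uIcc_self, mem_singleton_iff, zero_mul]
    exact ⟨fun h => ⟨by simp [h], h⟩, fun h => h.2⟩

theorem len_supp {t : A Γ} {y : V → ℝ} (hy : y ∈ Q L t) {b : A Γ} (hb : (pt t (D L t) y).1 b ≠ 0) :
    b = t ∨ L.ℓ b < L.ℓ t := by
  obtain ⟨h1, h2⟩ := pt_ne_zero.1 hb
  let M := (D L t).1.filter fun v => ab Γ v (t⁻¹ * b) ≠ 0
  have hM : M ⊆ (D L t).1 := Finset.filter_subset _ _
  have h3 : t⁻¹ * b ∈ K Γ M := mem_K_of_ab (D L t).2 hM h1 fun v hv hv' => by
    by_contra h; exact hv' (Finset.mem_filter.2 ⟨hv, h⟩)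
  have : ∀ v, ∃ e, v ∈ (D L t).1 → L.ℓ (t * lt Γ (v, e)) < L.ℓ t := by
    intro v
    by_cases hv : v ∈ (D L t).1
    · obtain ⟨e, he⟩ := sg_spec L ((mem_D L).1 hv)
      exact ⟨e, fun _ => he⟩
    · exact ⟨true, fun h => absurd h hv⟩
  choose ε hε using this
  have h4 := len_desc L ε M ((D L t).2.subset (Finset.coe_subset.2 hM)) t
    (fun v hv => hε v (hM hv)) _ h3 (fun v hv => by
      obtain ⟨hv1, hv2⟩ := Finset.mem_filter.1 hv
      obtain ⟨h5, h6⟩ := (mem_Q L).1 hy v
      have h7 := abs_lt.1 (h2 v hv1)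
      have h8 := abs_nonneg (y v)
      rw [sg_eq L (hε v hv1)] at h6
      generalize ab Γ v (t⁻¹ * b) = n at *
      cases he : ε v <;> simp only [he, sgB, if_true, Bool.false_eq_true, if_false] at h6 ⊢ <;>
        push_cast at h6
      · have : (-2 : ℝ) < n := by linarith
        have : (n : ℝ) < 1 := by linarith
        have : -2 < n := by exact_mod_cast ‹(-2 : ℝ) < n›
        have : n < 1 := by exact_mod_cast ‹(n : ℝ) < 1›
        omega
      · have : (-1 : ℝ) < n := by linarith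
        have : (n : ℝ) < 2 := by linarith
        have : -1 < n := by exact_mod_cast ‹(-1 : ℝ) < n›
        have : n < 2 := by exact_mod_cast ‹(n : ℝ) < 2›
        omega)
  rw [mul_inv_cancel_left] at h4
  rcases M.eq_empty_or_nonempty with h | h
  · left
    rw [h] at h3
    have : t⁻¹ * b = 1 := by simpa [K] using h3
    exact (inv_mul_eq_one.1 this).symm
  · right
    have := h.card_pos
    omega

theorem finite_supp (x : X Γ) : {b | x.1 b ≠ 0}.Finite := by
  obtain ⟨a, ha⟩ := exists_ne_zero x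
  exact (finite_Nb.preimage (f := fun b => a⁻¹ * b) (mul_right_injective _).injOn).subset
    fun b hb => mem_Nb' x ha hb

theorem exists_top (x : X Γ) : ∃ t, x.1 t ≠ 0 ∧ ∃ y ∈ Q L t, x = pt t (D L t) y := by
  obtain ⟨t, ht, hmax⟩ := exists_max_image _ L.ℓ (finite_supp x) (exists_ne_zero x)
  refine ⟨t, ht, ?_⟩
  obtain ⟨σ, y, hy, rfl⟩ := exists_pt_at x ht
  have key : ∀ v ∈ σ.1, y v ≠ 0 → y v = sg L t v * |y v| := by
    intro v hv h
    have k : ∀ e, y v = sgB e * |y v| → y v = sg L t v * |y v| := by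
      intro e he
      have h1 : (pt t σ y).1 (t * lt Γ (v, e)) ≠ 0 := by
        rw [pt_ne_zero, inv_mul_cancel_left]
        refine ⟨lt_mem hv e, fun w hw => ?_⟩
        rw [ab_lt]
        split_ifs with hvw
        · subst hvw
          have := abs_pos.2 h
          have := hy v hv
          cases e <;> simp only [sgB, if_true, Bool.false_eq_true, if_false] at he ⊢ <;>
            push_cast at he ⊢ <;> rw [abs_lt] <;> constructor <;> linarith
        · simpa using hy w hw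
      have h2 := hmax _ h1
      have h3 := L.step t (v, e)
      rw [sg_eq L (e := e) (by omega)]
      exact he
    rcases le_total 0 (y v) with h' | h'
    · exact k true (by simp [sgB, abs_of_nonneg h'])
    · exact k false (by simp [sgB, abs_of_nonpos h'])
  let τ : Clq Γ := ⟨σ.1.filter fun v => y v ≠ 0,
    σ.2.subset (Finset.coe_subset.2 (Finset.filter_subset _ _))⟩
  have hτ : ∀ v, v ∈ τ.1 ↔ v ∈ σ.1 ∧ y v ≠ 0 := fun v => Finset.mem_filter
  refine ⟨fun v => if v ∈ τ.1 then y v else 0, (mem_Q L).2 fun v => ?_, ?_⟩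
  · split_ifs with hv
    · exact ⟨(hy v ((hτ v).1 hv).1).le, key v ((hτ v).1 hv).1 ((hτ v).1 hv).2⟩
    · simp
  · rw [pt_shrink t (τ := τ) (Finset.filter_subset _ _) fun v hv hv' => by
      by_contra h; exact hv' ((hτ v).2 ⟨hv, h⟩)]
    rw [pt_shrink t (σ := D L t) (τ := τ) (fun v hv => (mem_D L).2 fun h => ?_)
      fun v _ hv' => if_neg hv']
    · exact pt_congr fun v hv => (if_pos hv).symm
    · have := key v ((hτ v).1 hv).1 ((hτ v).1 hv).2
      rw [h] at this
      exact ((hτ v).1 hv).2 (by simpa using this)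

/-- The pushed coordinates. -/
def mv (t : A Γ) (y : V → ℝ) (u : ℝ) : V → ℝ := fun v => y v + u * (1 - ‖y‖) * sg L t v

omit [LinearOrder V] in
theorem norm_le_of_Q {t : A Γ} {y : V → ℝ} (hy : y ∈ Q L t) : ‖y‖ ≤ 1 :=
  (pi_norm_le_iff_of_nonneg zero_le_one).2 fun v => ((mem_Q L).1 hy v).1

omit [LinearOrder V] in
theorem abs_mv {t : A Γ} {y : V → ℝ} (hy : y ∈ Q L t) (u : ℝ) (v : V) :
    mv L t y u v = sg L t v * (|y v| + u * (1 - ‖y‖)) := by
  rw [mul_add, ← ((mem_Q L).1 hy v).2, mv]; ring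

omit [LinearOrder V] in
theorem mv_mem {t : A Γ} {y : V → ℝ} (hy : y ∈ Q L t) (u : I) : mv L t y u ∈ Q L t := by
  refine (mem_Q L).2 fun v => ?_
  have h1 := norm_le_of_Q L hy
  have h2 : |y v| ≤ ‖y‖ := norm_le_pi_norm y v
  have h3 : 0 ≤ |y v| + u * (1 - ‖y‖) := add_nonneg (abs_nonneg _) (mul_nonneg u.2.1 (by linarith))
  have h4 : |y v| + u * (1 - ‖y‖) ≤ 1 := by nlinarith [u.2.2]
  rw [abs_mv L hy, abs_mul, abs_of_nonneg h3]
  rcases sg_cases L t v with h | h | h <;> simp [h, h4]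

theorem mv_one {t : A Γ} (ht : L.ℓ t ≠ 0) {y : V → ℝ} (hy : y ∈ Q L t) :
    (pt t (D L t) (mv L t y 1)).1 t = 0 := by
  by_contra h
  have h1 := (pt_ne_zero.1 h).2
  simp only [inv_mul_cancel, ab_one, Int.cast_zero, sub_zero] at h1
  obtain ⟨⟨v₀, e⟩, h0⟩ := L.desc t ht
  have hv₀ : v₀ ∈ (D L t).1 := (mem_D L).2 (by rw [sg_eq L h0]; cases e <;> simp [sgB])
  obtain ⟨v, hv, hmax⟩ := Finset.exists_max_image (D L t).1 (fun v => |y v|) ⟨v₀, hv₀⟩
  have h2 : ‖y‖ ≤ |y v| := (pi_norm_le_iff_of_nonneg (abs_nonneg _)).2 fun w => by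
    by_cases hw : w ∈ (D L t).1
    · exact hmax w hw
    · have := ((mem_Q L).1 hy w).2
      rw [not_not.1 (mt (mem_D L).2 hw)] at this
      simp only [Int.cast_zero, zero_mul] at this
      simp [this]
  have h3 := h1 v hv
  rw [abs_mv L hy, abs_mul] at h3
  have h4 : |(sg L t v : ℝ)| = 1 := by
    rcases sg_cases L t v with h | h | h
    · simp [h]
    · simp [h]
    · exact absurd h ((mem_D L).1 hv)
  rw [h4, one_mul] at h3
  linarith [(abs_lt.1 h3).2]

open Classical in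
/-- The push out of the level `n`. -/
def R (n : ℕ) (p : X Γ × I) : X Γ :=
  if h : ∃ t, L.ℓ t = n ∧ p.1.1 t ≠ 0 then
    pt h.choose (D L h.choose) (mv L h.choose (coord h.choose p.1) p.2) else p.1

/-- The part of level at most `n`. -/
def Xn (n : ℕ) : Set (X Γ) := {x | ∀ b, x.1 b ≠ 0 → L.ℓ b ≤ n}

theorem R_low {n : ℕ} {x : X Γ} (hx : x ∈ Xn L n) (u : I) : R L (n + 1) (x, u) = x := by
  refine dif_neg ?_
  rintro ⟨t, h1, h2⟩
  have := hx t h2
  omega

theorem R_pt {t : A Γ} {y : V → ℝ} (hy : y ∈ Q L t) (u : I) :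
    R L (L.ℓ t) (pt t (D L t) y, u) = pt t (D L t) (mv L t y u) := by
  unfold R
  split_ifs with h
  · have h1 : h.choose = t := (len_supp L hy h.choose_spec.2).resolve_right h.choose_spec.1.not_lt
    have h2 := h.choose_spec.2
    rw [h1] at h2 ⊢
    have h3 := (pt_ne_zero.1 h2).2
    simp only [inv_mul_cancel, ab_one, Int.cast_zero, sub_zero] at h3
    congr 2
    funext v
    rw [coord_pt _ _ h3]
    split_ifs with hv
    · rfl
    · have := ((mem_Q L).1 hy v).2
      rw [not_not.1 (mt (mem_D L).2 hv)] at this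
      simpa using this.symm
  · have h1 : ‖y‖ = 1 := by
      refine le_antisymm (norm_le_of_Q L hy) (not_lt.1 fun h2 => h ⟨t, rfl, ?_⟩)
      exact pt_self_ne_zero fun v _ => (norm_le_pi_norm y v).trans_lt h2
    exact pt_congr fun v _ => by simp [mv, h1]

theorem pt_mem_Xn {t : A Γ} {y : V → ℝ} (hy : y ∈ Q L t) {n : ℕ} (h : L.ℓ t ≤ n) :
    pt t (D L t) y ∈ Xn L n := by
  intro b hb
  rcases len_supp L hy hb with rfl | h'
  · exact h
  · omega

theorem continuousOn_image_prod {Y Z W : Type} [TopologicalSpace Y] [TopologicalSpace Z]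
    [TopologicalSpace W] [T2Space Z] {c : Y → Z} (hc : Continuous c) {S : Set Y} (hS : IsCompact S)
    {f : Z × I → W} {g : Y × I → W} (hg : Continuous g) (h : ∀ y ∈ S, ∀ u, f (c y, u) = g (y, u)) :
    ContinuousOn f ((c '' S) ×ˢ univ) := by
  rw [continuousOn_iff_isClosed]
  intro F hF
  refine ⟨Prod.map c id '' (S ×ˢ univ ∩ g ⁻¹' F), (((hS.prod isCompact_univ).inter_right
    (hF.preimage hg)).image (hc.prodMap continuous_id)).isClosed, ?_⟩
  ext ⟨z, u⟩
  constructor
  · rintro ⟨h1, ⟨y, hy, rfl⟩, -⟩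
    exact ⟨⟨(y, u), ⟨⟨hy, trivial⟩, by rwa [mem_preimage, ← h y hy]⟩, rfl⟩, ⟨y, hy, rfl⟩, trivial⟩
  · rintro ⟨⟨⟨y, u'⟩, ⟨⟨hy, -⟩, h1⟩, h2⟩, h3⟩
    obtain ⟨rfl, rfl⟩ := Prod.ext_iff.1 h2
    exact ⟨by rwa [mem_preimage, Prod.map_fst, Prod.map_snd, id, h y hy], h3⟩

theorem R_spec (n : ℕ) : ContinuousOn (R L (n + 1)) (Xn L (n + 1) ×ˢ univ) ∧
    ∀ x ∈ Xn L (n + 1), (∀ u, R L (n + 1) (x, u) ∈ Xn L (n + 1)) ∧ R L (n + 1) (x, 0) = x ∧
      R L (n + 1) (x, 1) ∈ Xn L n := by
  constructor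
  · have hlf := (locallyFinite_cubes (Γ := Γ) (fun t : {t : A Γ // L.ℓ t ≤ n + 1} => t.1)
      (fun b => (finite_singleton b).preimage Subtype.val_injective.injOn) (fun t => D L t.1)
      (fun t => Q L t.1) fun t y hy v _ => ((mem_Q L).1 hy v).1).prod_right fun _ => (univ : Set I)
    refine (hlf.continuousOn_iUnion (fun t => ((isCompact_Q L _).image
      (continuous_pt _ _)).isClosed.prod isClosed_univ) fun t => ?_).mono ?_
    · obtain ⟨t, ht⟩ := t
      rcases ht.eq_or_lt with h | h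
      · refine continuousOn_image_prod (continuous_pt _ _) (isCompact_Q L _)
          (g := fun p => pt t (D L t) (mv L t p.1 p.2)) ((continuous_pt _ _).comp ?_)
          fun y hy u => (congrArg (fun k => R L k (pt t (D L t) y, u)) h.symm).trans (R_pt L hy u)
        unfold mv; fun_prop
      · exact continuousOn_image_prod (continuous_pt _ _) (isCompact_Q L _)
          (g := fun p => pt t (D L t) p.1) ((continuous_pt _ _).comp continuous_fst)
          fun y hy u => R_low L (pt_mem_Xn L hy (Nat.le_of_lt_succ h)) u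
    · rintro ⟨x, u⟩ ⟨hx, -⟩
      obtain ⟨t, ht, y, hy, rfl⟩ := exists_top L x
      exact mem_iUnion.2 ⟨⟨t, hx t ht⟩, ⟨y, hy, rfl⟩, trivial⟩
  · intro x hx
    obtain ⟨t, ht, y, hy, rfl⟩ := exists_top L x
    rcases (hx t ht).eq_or_lt with h | h
    · rw [← h]
      simp only [R_pt L hy]
      refine ⟨fun u => pt_mem_Xn L (mv_mem L hy u) le_rfl, ?_, fun b hb => ?_⟩
      · congr 1; funext v; simp [mv]
      · rcases len_supp L (mv_mem L hy 1) hb with rfl | h'
        · exact absurd (mv_one L (by omega) hy) hb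
        · omega
    · have h1 := pt_mem_Xn L hy (show L.ℓ t ≤ n by omega)
      simp only [R_low L h1]
      exact ⟨fun _ => hx, trivial, h1⟩

/-- The time change. -/
def tc (n : ℕ) (u : I) : I := projIcc 0 1 zero_le_one (2 ^ (n + 1) * (u : ℝ) - 1)

theorem continuous_tc (n : ℕ) : Continuous (tc n) := continuous_projIcc.comp (by fun_prop)

theorem tc_zero {n : ℕ} {u : I} (h : 2 ^ (n + 1) * (u : ℝ) ≤ 1) : tc n u = 0 :=
  projIcc_of_le_left _ (by linarith)

theorem tc_one {n : ℕ} {u : I} (h : 1 ≤ 2 ^ n * (u : ℝ)) : tc n u = 1 :=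
  projIcc_of_right_le _ (by rw [pow_succ]; linarith)

/-- The contraction of the part of level at most `n`. -/
def G : ℕ → X Γ × I → X Γ
  | 0, p => p.1
  | n + 1, p => if 2 ^ n * (p.2 : ℝ) ≤ 1 then R L (n + 1) (p.1, tc n p.2)
      else G n (R L (n + 1) (p.1, 1), p.2)

theorem G_succ (n : ℕ) (x : X Γ) (u : I) : G L (n + 1) (x, u) =
    if 2 ^ n * (u : ℝ) ≤ 1 then R L (n + 1) (x, tc n u) else G L n (R L (n + 1) (x, 1), u) := rfl

theorem G_small {n : ℕ} {x : X Γ} (hx : x ∈ Xn L n) {u : I} (h : 2 ^ n * (u : ℝ) ≤ 1) :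
    G L n (x, u) = x := by
  cases n with
  | zero => rfl
  | succ n =>
    have h1 : 2 ^ n * (u : ℝ) ≤ 1 := by
      have : 0 ≤ 2 ^ n * (u : ℝ) := mul_nonneg (by positivity) u.2.1
      rw [pow_succ] at h; linarith
    rw [G_succ, if_pos h1, tc_zero h, ((R_spec L n).2 x hx).2.1]

theorem G_large {n : ℕ} {x : X Γ} (hx : x ∈ Xn L (n + 1)) {u : I} (h : 1 ≤ 2 ^ n * (u : ℝ)) :
    G L (n + 1) (x, u) = G L n (R L (n + 1) (x, 1), u) := by
  rw [G_succ]
  split_ifs with h1
  · rw [tc_one h, G_small L ((R_spec L n).2 x hx).2.2 h1]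
  · rfl

theorem G_low {n : ℕ} {x : X Γ} (hx : x ∈ Xn L n) (u : I) {m : ℕ} (h : n ≤ m) :
    G L m (x, u) = G L n (x, u) := by
  induction h with
  | refl => rfl
  | @step m h ih =>
    have hm : x ∈ Xn L m := fun b hb => (hx b hb).trans h
    rw [← ih, G_succ, R_low L hm, R_low L hm]
    split_ifs with h1
    · rw [G_small L hm h1]
    · rfl

omit [Fintype V] in
theorem isClosed_Xn (n : ℕ) : IsClosed (Xn L n) := by
  rw [Xn, ofPred_forall]
  refine isClosed_iInter fun b => ?_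
  by_cases h : L.ℓ b ≤ n
  · simp [h]
  · simpa [h] using isClosed_eq (continuous_val b) continuous_const

theorem G_spec (n : ℕ) : ContinuousOn (G L n) (Xn L n ×ˢ univ) ∧
    ∀ x ∈ Xn L n, G L n (x, 1) ∈ Xn L 0 := by
  induction n with
  | zero => exact ⟨continuousOn_fst, fun x hx => hx⟩
  | succ n ih =>
    constructor
    · have c1 : ContinuousOn (G L (n + 1)) (Xn L (n + 1) ×ˢ {u : I | 2 ^ n * (u : ℝ) ≤ 1}) := by
        refine ContinuousOn.congr (f := fun p => R L (n + 1) (p.1, tc n p.2)) ?_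
          fun p hp => (G_succ L n p.1 p.2).trans (if_pos (show 2 ^ n * (p.2 : ℝ) ≤ 1 from hp.2))
        exact (R_spec L n).1.comp (continuous_fst.prodMk
          ((continuous_tc n).comp continuous_snd)).continuousOn fun p hp => ⟨hp.1, trivial⟩
      have c2 : ContinuousOn (G L (n + 1)) (Xn L (n + 1) ×ˢ {u : I | 1 ≤ 2 ^ n * (u : ℝ)}) := by
        refine ContinuousOn.congr (f := fun p => G L n (R L (n + 1) (p.1, 1), p.2)) ?_
          fun p hp => G_large L hp.1 hp.2
        refine ih.1.comp (ContinuousOn.prodMk ?_ continuousOn_snd)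
          fun p hp => ⟨((R_spec L n).2 _ hp.1).2.2, trivial⟩
        exact (R_spec L n).1.comp (continuous_fst.prodMk continuous_const).continuousOn
          fun p hp => ⟨hp.1, trivial⟩
      refine (c1.union_of_isClosed c2
        ((isClosed_Xn L _).prod (isClosed_le (by fun_prop) continuous_const))
        ((isClosed_Xn L _).prod (isClosed_le continuous_const (by fun_prop)))).mono ?_
      rintro ⟨x, u⟩ ⟨hx, -⟩
      exact (le_total (2 ^ n * (u : ℝ)) 1).imp (fun h => ⟨hx, h⟩) fun h => ⟨hx, h⟩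
    · intro x hx
      rw [G_large L hx (by simpa using one_le_pow₀ (one_le_two (α := ℝ)))]
      exact ih.2 _ ((R_spec L n).2 x hx).2.2

theorem exists_Xn_nhds (x : X Γ) : ∃ n, Xn L n ∈ 𝓝 x := by
  obtain ⟨a, ha⟩ := exists_ne_zero x
  obtain ⟨n, hn⟩ := ((finite_Nb.preimage (f := fun b => a⁻¹ * b)
    (mul_right_injective _).injOn).image L.ℓ).bddAbove
  exact ⟨n, Filter.mem_of_superset (U_mem_nhds ha) fun x' hx' b hb =>
    hn ⟨b, mem_Nb' x' hx' hb, rfl⟩⟩

theorem eq_of_Xn_zero {x : X Γ} (hx : x ∈ Xn L 0) : x = pt 1 ⟨∅, by simp⟩ 0 := by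
  obtain ⟨t, ht, y, -, rfl⟩ := exists_top L x
  obtain rfl : t = 1 := L.eq_one t (Nat.le_zero.1 (hx t ht))
  have h0 := Nat.le_zero.1 (hx 1 ht)
  have : D L 1 = ⟨∅, by simp⟩ := by
    refine Subtype.ext (Finset.eq_empty_of_forall_notMem fun v hv => ?_)
    obtain ⟨e, he⟩ := sg_spec L ((mem_D L).1 hv)
    omega
  rw [this]
  exact pt_congr (by simp)

include L in
theorem contractible : ContractibleSpace (X Γ) := by
  choose N hN using exists_Xn_nhds L
  have hN' : ∀ x, x ∈ Xn L (N x) := fun x => mem_of_mem_nhds (hN x)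
  have hc : Continuous fun p : I × X Γ => G L (N p.2) (p.2, p.1) := by
    refine continuous_iff_continuousAt.2 fun p => ?_
    have h1 : ContinuousAt (G L (N p.2)) (p.2, p.1) :=
      (G_spec L _).1.continuousAt (prod_mem_nhds (hN _) Filter.univ_mem)
    refine (ContinuousAt.comp (f := Prod.swap) h1 continuous_swap.continuousAt).congr ?_
    filter_upwards [continuous_snd.continuousAt.preimage_mem_nhds (hN p.2)] with q hq
    exact (G_low L hq _ (le_max_left _ (N q.2))).symm.trans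
      (G_low L (hN' _) _ (le_max_right _ _))
  rw [contractible_iff_id_nullhomotopic]
  exact ⟨pt 1 ⟨∅, by simp⟩ 0, ⟨⟨⟨_, hc⟩, fun x => G_small L (hN' x) (by simp),
    fun x => eq_of_Xn_zero L ((G_spec L _).2 x (hN' x))⟩⟩⟩

end Crest.Agent.R197.Cl
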