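import Crest.Agent.R197.Defs

/-!
Row 197: the cube complex of a right-angled Artin group as a space of weight functions.
-/

set_option autoImplicit false

noncomputable section

namespace Crest.Agent.R197.Cl

open Set _root_.Topology

variable {V : Type} [LinearOrder V] {Γ : SimpleGraph V}

/-! ### The flats -/

variable (Γ) in
/-- The subgroup generated by the generators in `σ`. -/
def K (σ : Finset V) : Subgroup (A Γ) := Subgroup.closure (gen Γ '' σ)

omit [LinearOrder V] in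
theorem gen_mem {σ : Finset V} {v : V} (h : v ∈ σ) : gen Γ v ∈ K Γ σ :=
  Subgroup.subset_closure ⟨v, h, rfl⟩

omit [LinearOrder V] in
theorem K_mono {σ τ : Finset V} (h : τ ⊆ σ) : K Γ τ ≤ K Γ σ :=
  Subgroup.closure_mono (image_mono (Finset.coe_subset.2 h))

theorem ab_eq_zero {σ : Finset V} {g : A Γ} (hg : g ∈ K Γ σ) {v : V} (hv : v ∉ σ) :
    ab Γ v g = 0 := by
  induction hg using Subgroup.closure_induction with
  | mem g hg =>
    obtain ⟨w, hw, rfl⟩ := hg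
    rw [ab_gen, if_neg (by rintro rfl; exact hv hw)]
  | one => simp
  | mul g h _ _ hg hh => simp [hg, hh]
  | inv g _ hg => simp [hg]

theorem split_insert {σ : Finset V} {v : V} (hc : Γ.IsClique ((insert v σ : Finset V) : Set V))
    (hv : v ∉ σ) {g : A Γ} (hg : g ∈ K Γ (insert v σ)) :
    ∃ k : ℤ, ∃ g' ∈ K Γ σ, g = gen Γ v ^ k * g' := by
  have hcomm : ∀ g' ∈ K Γ σ, Commute (gen Γ v) g' := by
    intro g' hg'
    induction hg' using Subgroup.closure_induction with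
    | mem g hg =>
      obtain ⟨w, hw, rfl⟩ := hg
      exact gen_comm (hc (by simp) (by simp [Finset.mem_coe.1 hw]) (by rintro rfl; exact hv hw))
    | one => exact Commute.one_right _
    | mul g h _ _ hg hh => exact hg.mul_right hh
    | inv g _ hg => exact hg.inv_right
  induction hg using Subgroup.closure_induction with
  | mem g hg =>
    obtain ⟨w, hw, rfl⟩ := hg
    rcases Finset.mem_insert.1 hw with rfl | hw
    · exact ⟨1, 1, one_mem _, by simp⟩
    · exact ⟨0, _, gen_mem hw, by simp⟩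
  | one => exact ⟨0, 1, one_mem _, by simp⟩
  | mul g h _ _ hg hh =>
    obtain ⟨k, g', hg', rfl⟩ := hg
    obtain ⟨l, h', hh', rfl⟩ := hh
    refine ⟨k + l, g' * h', mul_mem hg' hh', ?_⟩
    rw [zpow_add, mul_assoc, ← mul_assoc g', ← ((hcomm g' hg').zpow_left l).eq]
    simp only [mul_assoc]
  | inv g _ hg =>
    obtain ⟨k, g', hg', rfl⟩ := hg
    refine ⟨-k, g'⁻¹, inv_mem hg', ?_⟩
    rw [mul_inv_rev, ← zpow_neg, ((hcomm _ (inv_mem hg')).zpow_left (-k)).eq]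

theorem eq_one_of_ab {σ : Finset V} (hc : Γ.IsClique (σ : Set V)) {g : A Γ} (hg : g ∈ K Γ σ)
    (h : ∀ v ∈ σ, ab Γ v g = 0) : g = 1 := by
  induction σ using Finset.induction_on generalizing g with
  | empty => simpa [K] using hg
  | insert v σ hv ih =>
    obtain ⟨k, g', hg', rfl⟩ := split_insert hc hv hg
    have hk : k = 0 := by simpa [ab_eq_zero hg' hv] using h v (by simp)
    subst hk
    rw [zpow_zero, one_mul] at h ⊢
    exact ih (hc.subset (by simp)) hg' fun w hw => h w (by simp [hw])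

theorem eq_of_ab {σ : Finset V} (hc : Γ.IsClique (σ : Set V)) {g g' : A Γ} (hg : g ∈ K Γ σ)
    (hg' : g' ∈ K Γ σ) (h : ∀ v ∈ σ, ab Γ v g = ab Γ v g') : g = g' := by
  have := eq_one_of_ab hc (mul_mem (inv_mem hg) hg') fun v hv => by simp [h v hv]
  exact inv_mul_eq_one.1 this

theorem exists_ab (σ : Finset V) (n : V → ℤ) : ∃ g ∈ K Γ σ, ∀ v ∈ σ, ab Γ v g = n v := by
  induction σ using Finset.induction_on with
  | empty => exact ⟨1, one_mem _, by simp⟩
  | insert v σ hv ih =>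
    obtain ⟨g, hg, h⟩ := ih
    refine ⟨gen Γ v ^ n v * g, mul_mem (zpow_mem (gen_mem (by simp)) _)
      (K_mono (Finset.subset_insert _ _) hg), fun w hw => ?_⟩
    rcases Finset.mem_insert.1 hw with rfl | hw
    · simp [ab_eq_zero hg hv]
    · have : v ≠ w := by rintro rfl; exact hv hw
      simp [this, h w hw]

theorem mem_K_of_ab {σ τ : Finset V} (hc : Γ.IsClique (σ : Set V)) (hτ : τ ⊆ σ) {g : A Γ}
    (hg : g ∈ K Γ σ) (h : ∀ v ∈ σ, v ∉ τ → ab Γ v g = 0) : g ∈ K Γ τ := by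
  obtain ⟨g', hg', h'⟩ := exists_ab (Γ := Γ) τ fun v => ab Γ v g
  rw [eq_of_ab hc hg (K_mono hτ hg') fun v hv => ?_]
  · exact hg'
  · by_cases hv' : v ∈ τ
    · exact (h' v hv').symm
    · rw [h v hv hv', ab_eq_zero hg' hv']

/-! ### The space -/

/-- The hat function. -/
def hat (r : ℝ) : ℝ := max 0 (1 - |r|)

theorem hat_nonneg (r : ℝ) : 0 ≤ hat r := le_max_left _ _

theorem hat_ne_zero {r : ℝ} : hat r ≠ 0 ↔ |r| < 1 := by
  simp [hat]

theorem hat_of_le {r : ℝ} (h : |r| ≤ 1) : hat r = 1 - |r| := max_eq_right (by linarith)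

theorem hat_of_ge {r : ℝ} (h : 1 ≤ |r|) : hat r = 0 := max_eq_left (by linarith)

theorem continuous_hat : Continuous hat := by unfold hat; fun_prop

open Classical in
/-- The weights of the point with coordinates `y` in the flat through `1` with directions `σ`. -/
def w0 (σ : Clq Γ) (y : V → ℝ) (g : A Γ) : ℝ :=
  if g ∈ K Γ σ.1 then ∏ v ∈ σ.1, hat (y v - ab Γ v g) else 0

theorem w0_pos {σ : Clq Γ} (y : V → ℝ) {g : A Γ} (h : g ∈ K Γ σ.1) :
    w0 σ y g = ∏ v ∈ σ.1, hat (y v - ab Γ v g) := if_pos h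

theorem w0_neg {σ : Clq Γ} (y : V → ℝ) {g : A Γ} (h : g ∉ K Γ σ.1) : w0 σ y g = 0 := if_neg h

/-- The weights of the point with coordinates `y` in the flat through `a` with directions `σ`. -/
def wt (a : A Γ) (σ : Clq Γ) (y : V → ℝ) (b : A Γ) : ℝ := w0 σ y (a⁻¹ * b)

variable (Γ) in
/-- The cube complex. -/
def X : Type := {β : A Γ → ℝ // ∃ a σ y, β = wt a σ y}

instance : TopologicalSpace (X Γ) := inferInstanceAs (TopologicalSpace (Subtype _))

instance : T2Space (X Γ) := inferInstanceAs (T2Space (Subtype _))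

/-- A point of the cube complex. -/
def pt (a : A Γ) (σ : Clq Γ) (y : V → ℝ) : X Γ := ⟨wt a σ y, a, σ, y, rfl⟩

theorem pt_surj (x : X Γ) : ∃ a σ y, x = pt a σ y := by
  obtain ⟨_, a, σ, y, rfl⟩ := x
  exact ⟨a, σ, y, rfl⟩

theorem continuous_val (b : A Γ) : Continuous fun x : X Γ => x.1 b :=
  (continuous_apply b).comp continuous_subtype_val

theorem continuous_pt (a : A Γ) (σ : Clq Γ) : Continuous (pt a σ) := by
  refine Continuous.subtype_mk (continuous_pi fun b => ?_) _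
  unfold wt w0
  split_ifs
  · exact continuous_finsetProd _ fun v _ => continuous_hat.comp (by fun_prop)
  · exact continuous_const

theorem pt_ne_zero {a : A Γ} {σ : Clq Γ} {y : V → ℝ} {b : A Γ} : (pt a σ y).1 b ≠ 0 ↔
    a⁻¹ * b ∈ K Γ σ.1 ∧ ∀ v ∈ σ.1, |y v - ab Γ v (a⁻¹ * b)| < 1 := by
  simp only [pt, wt, w0]
  split_ifs with h
  · simp [h, Finset.prod_ne_zero_iff, ← hat_ne_zero]
  · simp [h]

theorem pt_congr {a : A Γ} {σ : Clq Γ} {y y' : V → ℝ} (h : ∀ v ∈ σ.1, y v = y' v) :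
    pt a σ y = pt a σ y' := by
  refine Subtype.ext (funext fun b => ?_)
  simp only [pt, wt, w0]
  rw [Finset.prod_congr rfl fun v hv => by rw [h v hv]]

theorem pt_mul (a : A Γ) {σ : Clq Γ} {g : A Γ} (hg : g ∈ K Γ σ.1) (y : V → ℝ) :
    pt a σ y = pt (a * g) σ fun v => y v - ab Γ v g := by
  refine Subtype.ext (funext fun b => ?_)
  simp only [pt, wt, mul_inv_rev, mul_assoc]
  by_cases h : a⁻¹ * b ∈ K Γ σ.1
  · rw [w0_pos _ h, w0_pos _ (mul_mem (inv_mem hg) h)]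
    refine Finset.prod_congr rfl fun v _ => ?_
    congr 1
    simp only [ab_mul, ab_inv]; push_cast; ring
  · rw [w0_neg _ h, w0_neg _ (by rwa [Subgroup.mul_mem_cancel_left _ (inv_mem hg)])]

theorem pt_shrink (a : A Γ) {σ τ : Clq Γ} (hτ : τ.1 ⊆ σ.1) {y : V → ℝ}
    (h : ∀ v ∈ σ.1, v ∉ τ.1 → y v = 0) : pt a σ y = pt a τ y := by
  refine Subtype.ext (funext fun b => ?_)
  simp only [pt, wt]
  by_cases h1 : a⁻¹ * b ∈ K Γ τ.1
  · rw [w0_pos _ h1, w0_pos _ (K_mono hτ h1)]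
    refine (Finset.prod_subset hτ fun v hv hv' => ?_).symm
    simp [h v hv hv', ab_eq_zero h1 hv', hat]
  · rw [w0_neg _ h1]
    by_contra h2
    obtain ⟨h3, h4⟩ := (pt_ne_zero (a := a) (σ := σ) (y := y) (b := b)).1 h2
    refine h1 (mem_K_of_ab σ.2 hτ h3 fun v hv hv' => ?_)
    have := h4 v hv
    rw [h v hv hv', zero_sub, abs_neg] at this
    exact Int.abs_lt_one_iff.1 (by exact_mod_cast this)

/-- The coordinates of a point seen from the vertex `a`. -/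
def coord (a : A Γ) (x : X Γ) (v : V) : ℝ :=
  (x.1 (a * gen Γ v) - x.1 (a * (gen Γ v)⁻¹)) /
    (x.1 a + x.1 (a * gen Γ v) + x.1 (a * (gen Γ v)⁻¹))

theorem coord_pt (a : A Γ) (σ : Clq Γ) {y : V → ℝ} (hy : ∀ v ∈ σ.1, |y v| < 1) (v : V) :
    coord a (pt a σ y) v = if v ∈ σ.1 then y v else 0 := by
  split_ifs with hv
  · have e : ∀ k : ℤ, (pt a σ y).1 (a * gen Γ v ^ k) =
        hat (y v - k) * ∏ w ∈ σ.1.erase v, hat (y w) := by
      intro k
      simp only [pt, wt, inv_mul_cancel_left]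
      rw [w0_pos _ (zpow_mem (gen_mem hv) k), ← Finset.mul_prod_erase _ _ hv]
      congr 1
      · simp
      · refine Finset.prod_congr rfl fun w hw => ?_
        simp [(Finset.ne_of_mem_erase hw).symm]
    have e0 := e 0
    have e1 := e 1
    have e2 := e (-1)
    rw [zpow_zero, mul_one] at e0
    rw [zpow_one] at e1
    rw [zpow_neg_one] at e2
    have hP : ∏ w ∈ σ.1.erase v, hat (y w) ≠ 0 := Finset.prod_ne_zero_iff.2 fun w hw =>
      hat_ne_zero.2 (hy w (Finset.mem_of_mem_erase hw))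
    obtain ⟨h1, h2⟩ := abs_lt.1 (hy v hv)
    rw [coord, e0, e1, e2, ← sub_mul, ← add_mul, ← add_mul, mul_div_mul_right _ _ hP]
    push_cast
    rw [sub_zero, hat_of_le (hy v hv).le]
    rcases le_total 0 (y v) with h | h
    · rw [hat_of_le (abs_le.2 ⟨by linarith, by linarith⟩), hat_of_ge (le_abs.2 (Or.inl (by linarith))),
        abs_of_nonneg h, abs_of_nonpos (by linarith)]
      ring_nf
    · rw [hat_of_ge (le_abs.2 (Or.inr (by linarith))), hat_of_le (abs_le.2 ⟨by linarith, by linarith⟩),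
        abs_of_nonpos h, abs_of_nonneg (by linarith)]
      ring_nf
  · have h1 : gen Γ v ∉ K Γ σ.1 := fun h => by simpa using ab_eq_zero h hv
    simp [coord, pt, wt, w0, h1]

/-- Recentring at a vertex of the support. -/
theorem exists_pt_at (x : X Γ) {b : A Γ} (hb : x.1 b ≠ 0) :
    ∃ σ y, (∀ v ∈ σ.1, |y v| < 1) ∧ x = pt b σ y := by
  obtain ⟨a, σ, y, rfl⟩ := pt_surj x
  obtain ⟨h1, h2⟩ := pt_ne_zero.1 hb
  exact ⟨σ, _, h2, by rw [pt_mul a h1, mul_inv_cancel_left]⟩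

theorem pt_self_ne_zero {a : A Γ} {σ : Clq Γ} {y : V → ℝ} (hy : ∀ v ∈ σ.1, |y v| < 1) :
    (pt a σ y).1 a ≠ 0 := pt_ne_zero.2 ⟨by simp, by simpa using hy⟩

/-- The height normal form. -/
theorem exists_height (x : X Γ) : ∃ a σ y, (∀ v ∈ σ.1, 0 ≤ y v ∧ y v < 1) ∧ x = pt a σ y := by
  obtain ⟨a, σ, y, rfl⟩ := pt_surj x
  obtain ⟨g, hg, h⟩ := exists_ab (Γ := Γ) σ.1 fun v => ⌊y v⌋
  refine ⟨_, σ, _, fun v hv => ?_, pt_mul a hg y⟩
  rw [h v hv]
  exact ⟨Int.fract_nonneg _, Int.fract_lt_one _⟩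

theorem height_unique {a a' : A Γ} {σ σ' : Clq Γ} {y y' : V → ℝ}
    (hy : ∀ v ∈ σ.1, 0 ≤ y v ∧ y v < 1) (hy' : ∀ v ∈ σ'.1, 0 ≤ y' v ∧ y' v < 1)
    (h : pt a σ y = pt a' σ' y') :
    a = a' ∧ ∀ v, (if v ∈ σ.1 then y v else 0) = if v ∈ σ'.1 then y' v else 0 := by
  have k1 : ∀ {σ : Clq Γ} {y : V → ℝ}, (∀ v ∈ σ.1, 0 ≤ y v ∧ y v < 1) → ∀ v ∈ σ.1, |y v| < 1 :=
    fun hy v hv => abs_lt.2 ⟨by linarith [(hy v hv).1], (hy v hv).2⟩
  have k2 : ∀ {a b : A Γ} {σ : Clq Γ} {y : V → ℝ}, (∀ v ∈ σ.1, 0 ≤ y v ∧ y v < 1) →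
      (pt a σ y).1 b ≠ 0 → ∀ v, 0 ≤ ab Γ v (a⁻¹ * b) := by
    intro a b σ y hy hb v
    obtain ⟨h1, h2⟩ := pt_ne_zero.1 hb
    by_cases hv : v ∈ σ.1
    · have : (-1 : ℝ) < ab Γ v (a⁻¹ * b) := by linarith [(abs_lt.1 (h2 v hv)).2, (hy v hv).1]
      have : -1 < ab Γ v (a⁻¹ * b) := by exact_mod_cast this
      omega
    · rw [ab_eq_zero h1 hv]
  have h1 : (pt a σ y).1 a' ≠ 0 := h ▸ pt_self_ne_zero (k1 hy')
  have h2 : (pt a' σ' y').1 a ≠ 0 := h ▸ pt_self_ne_zero (k1 hy)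
  have h3 : a = a' := by
    refine inv_mul_eq_one.1 (eq_one_of_ab σ.2 (pt_ne_zero.1 h1).1 fun v _ => ?_)
    have := k2 hy h1 v
    have := k2 hy' h2 v
    simp only [ab_mul, ab_inv] at *
    omega
  subst h3
  exact ⟨rfl, fun v => by rw [← coord_pt a σ (k1 hy), h, coord_pt a σ' (k1 hy')]⟩

theorem exists_ne_zero (x : X Γ) : ∃ b, x.1 b ≠ 0 := by
  obtain ⟨a, σ, y, hy, rfl⟩ := exists_height x
  exact ⟨a, pt_self_ne_zero fun v hv => abs_lt.2 ⟨by linarith [(hy v hv).1], (hy v hv).2⟩⟩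

/-! ### The action -/

instance : MulAction (A Γ) (X Γ) where
  smul h x := ⟨fun b => x.1 (h⁻¹ * b), by
    obtain ⟨_, a, σ, y, rfl⟩ := x
    exact ⟨h * a, σ, y, funext fun b => by simp only [wt, mul_inv_rev, mul_assoc]⟩⟩
  one_smul x := Subtype.ext (funext fun b => congrArg x.1 (by simp))
  mul_smul g h x := Subtype.ext (funext fun b => congrArg x.1 (by simp [mul_assoc]))

theorem smul_val (h : A Γ) (x : X Γ) (b : A Γ) : (h • x).1 b = x.1 (h⁻¹ * b) := rfl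

theorem smul_pt (h a : A Γ) (σ : Clq Γ) (y : V → ℝ) : h • pt a σ y = pt (h * a) σ y :=
  Subtype.ext (funext fun b => by simp only [smul_val, pt, wt, mul_inv_rev, mul_assoc])

instance : ContinuousConstSMul (A Γ) (X Γ) :=
  ⟨fun _ => Continuous.subtype_mk (continuous_pi fun _ => continuous_val _) _⟩

theorem eq_one_of_smul {h : A Γ} {x : X Γ} (e : h • x = x) : h = 1 := by
  obtain ⟨a, σ, y, hy, rfl⟩ := exists_height x
  rw [smul_pt] at e
  exact mul_eq_right.1 (height_unique hy hy e).1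

/-! ### Local finiteness -/

variable [Fintype V]

variable (Γ) in
/-- The small elements of the flats. -/
def Nb : Set (A Γ) := {g | ∃ σ : Clq Γ, g ∈ K Γ σ.1 ∧ ∀ v ∈ σ.1, |ab Γ v g| ≤ 1}

theorem finite_Nb : (Nb Γ).Finite := by
  rw [Nb, ofPred_exists]
  refine finite_iUnion fun σ => ?_
  refine Finite.of_finite_image (f := fun g v => ab Γ v g) ?_ ?_
  · refine (Finite.pi' (t := fun _ : V => Icc (-1 : ℤ) 1) fun _ => finite_Icc _ _).subset ?_
    rintro _ ⟨g, ⟨h1, h2⟩, rfl⟩ v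
    by_cases hv : v ∈ σ.1
    · exact abs_le.1 (h2 v hv)
    · simp [ab_eq_zero h1 hv]
  · intro g hg g' hg' h
    exact eq_of_ab σ.2 hg.1 hg'.1 fun v _ => congrFun h v

omit [Fintype V] in
theorem mem_Nb {a : A Γ} {σ : Clq Γ} {y : V → ℝ} (hy : ∀ v ∈ σ.1, |y v| ≤ 1) {b : A Γ}
    (hb : (pt a σ y).1 b ≠ 0) : a⁻¹ * b ∈ Nb Γ := by
  obtain ⟨h1, h2⟩ := pt_ne_zero.1 hb
  refine ⟨σ, h1, fun v hv => ?_⟩
  have h3 := abs_lt.1 (h2 v hv)
  have h4 := abs_le.1 (hy v hv)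
  have : |(ab Γ v (a⁻¹ * b) : ℝ)| < 2 := abs_lt.2 ⟨by linarith, by linarith⟩
  have : |ab Γ v (a⁻¹ * b)| < 2 := by exact_mod_cast this
  omega

omit [Fintype V] in
theorem mem_Nb' (x : X Γ) {a b : A Γ} (ha : x.1 a ≠ 0) (hb : x.1 b ≠ 0) : a⁻¹ * b ∈ Nb Γ := by
  obtain ⟨σ, y, hy, rfl⟩ := exists_pt_at x ha
  exact mem_Nb (fun v hv => (hy v hv).le) hb

omit [Fintype V] in
theorem U_mem_nhds {x : X Γ} {b : A Γ} (hb : x.1 b ≠ 0) : {x' : X Γ | x'.1 b ≠ 0} ∈ 𝓝 x :=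
  (isOpen_ne_fun (continuous_val b) continuous_const).mem_nhds hb

theorem finite_base (b : A Γ) : {a : A Γ | a⁻¹ * b ∈ Nb Γ}.Finite :=
  finite_Nb.preimage (f := fun a => a⁻¹ * b) fun a _ a' _ h => by simpa using h

theorem locallyFinite_cubes {ι : Type} (a : ι → A Γ) (ha : ∀ b, {i | a i = b}.Finite)
    (σ : ι → Clq Γ) (Q : ι → Set (V → ℝ)) (hQ : ∀ i, ∀ y ∈ Q i, ∀ v ∈ (σ i).1, |y v| ≤ 1) :
    LocallyFinite fun i => pt (a i) (σ i) '' Q i := by
  intro x
  obtain ⟨b, hb⟩ := exists_ne_zero x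
  refine ⟨_, U_mem_nhds hb, ((finite_base b).biUnion fun c _ => ha c).subset ?_⟩
  rintro i ⟨_, ⟨y, hy, rfl⟩, h⟩
  exact mem_biUnion (mem_Nb (hQ i y hy) h) rfl

instance : WeaklyLocallyCompactSpace (X Γ) where
  exists_compact_mem_nhds x := by
    obtain ⟨b, hb⟩ := exists_ne_zero x
    refine ⟨⋃ σ : Clq Γ, pt b σ '' Metric.closedBall 0 1, isCompact_iUnion fun σ =>
      (isCompact_closedBall _ _).image (continuous_pt _ _),
      Filter.mem_of_superset (U_mem_nhds hb) fun x' hx' => ?_⟩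
    obtain ⟨σ, y, hy, rfl⟩ := exists_pt_at x' hx'
    refine mem_iUnion.2 ⟨σ, fun v => if v ∈ σ.1 then y v else 0, ?_,
      pt_congr fun v hv => if_pos hv⟩
    rw [mem_closedBall_zero_iff, pi_norm_le_iff_of_nonneg zero_le_one]
    intro v
    split_ifs with hv
    · exact (hy v hv).le
    · simp

omit [Fintype V] in
theorem exists_cover {C : Set (X Γ)} (hC : IsCompact C) :
    ∃ s : Finset (A Γ), ∀ x ∈ C, ∃ b ∈ s, x.1 b ≠ 0 := by
  obtain ⟨s, hs⟩ := hC.elim_finite_subcover (fun b : A Γ => {x' : X Γ | x'.1 b ≠ 0})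
    (fun b => isOpen_ne_fun (continuous_val b) continuous_const)
    fun x _ => mem_iUnion.2 (exists_ne_zero x)
  exact ⟨s, fun x hx => by simpa using hs hx⟩

instance : ProperlyDiscontinuousSMul (A Γ) (X Γ) where
  finite_disjoint_inter_image {C L} hC hL := by
    obtain ⟨s, hs⟩ := exists_cover hC
    obtain ⟨t, ht⟩ := exists_cover hL
    refine (s.finite_toSet.biUnion fun b _ => t.finite_toSet.biUnion fun c _ =>
      (finite_base c).preimage (f := fun g => g * b) (mul_left_injective b).injOn).subset ?_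
    rintro g ⟨_, ⟨x, hx, rfl⟩, hx'⟩
    obtain ⟨b, hb, hb'⟩ := hs x hx
    obtain ⟨c, hc, hc'⟩ := ht _ hx'
    refine mem_biUnion hb (mem_biUnion hc ?_)
    exact mem_Nb' (g • x) (by simpa [smul_val] using hb') hc'

end Crest.Agent.R197.Cl
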