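import Crest.Agent.R197.Defs

/-!
# Row 197, the analytic core: first order expansions and the local degree
-/

set_option autoImplicit false

noncomputable section

namespace Crest.Agent.R197

open Crest.Agent.Lib.Degree Set Filter _root_.Topology Asymptotics
open scoped Quaternion ContDiff

/-- The real part, as a quaternion. -/
def reL : ℍ[ℝ] →L[ℝ] ℍ[ℝ] :=
  LinearMap.toContinuousLinearMap
    { toFun := fun q => (q.re : ℍ[ℝ])
      map_add' := fun a b => by simp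
      map_smul' := fun r a => by simp [Quaternion.coe_mul_eq_smul] }

theorem reL_apply (q : ℍ[ℝ]) : reL q = (q.re : ℍ[ℝ]) := rfl

theorem reL_reL (q : ℍ[ℝ]) : reL (reL q) = reL q := by simp [reL_apply]

theorem reL_coe (r : ℝ) : reL (r : ℍ[ℝ]) = (r : ℍ[ℝ]) := by simp [reL_apply]

theorem S3.coe_inv (q : S3) : ((q⁻¹ : S3) : ℍ[ℝ]) = star (q : ℍ[ℝ]) := rfl

theorem S3.inv_sub (q : S3) : ((q⁻¹ : S3) : ℍ[ℝ]) - 1 + ((q : ℍ[ℝ]) - 1) =
    ((q⁻¹ : S3) : ℍ[ℝ]) * (((q : ℍ[ℝ]) - 1) * ((q : ℍ[ℝ]) - 1)) := by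
  have h : ((q⁻¹ : S3) : ℍ[ℝ]) * (q : ℍ[ℝ]) = 1 := by
    rw [← Submonoid.coe_mul, inv_mul_cancel, OneMemClass.coe_one]
  have : ((q⁻¹ : S3) : ℍ[ℝ]) * (((q : ℍ[ℝ]) - 1) * ((q : ℍ[ℝ]) - 1)) =
      (((q⁻¹ : S3) : ℍ[ℝ]) * (q : ℍ[ℝ])) * (q : ℍ[ℝ]) -
        2 * (((q⁻¹ : S3) : ℍ[ℝ]) * (q : ℍ[ℝ])) + ((q⁻¹ : S3) : ℍ[ℝ]) := by noncomm_ring
  rw [this, h]
  noncomm_ring

theorem S3.reL_sub (q : S3) : reL ((q : ℍ[ℝ]) - 1) =
    (2⁻¹ : ℝ) • (((q⁻¹ : S3) : ℍ[ℝ]) - 1 + ((q : ℍ[ℝ]) - 1)) := by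
  rw [S3.coe_inv, reL_apply]
  ext <;> simp
  ring

theorem S3.norm_conj (g x : S3) : ‖((g * x * g⁻¹ : S3) : ℍ[ℝ]) - 1‖ = ‖(x : ℍ[ℝ]) - 1‖ := by
  have h : (g : ℍ[ℝ]) * ((g⁻¹ : S3) : ℍ[ℝ]) = 1 := by
    rw [← Submonoid.coe_mul, mul_inv_cancel, OneMemClass.coe_one]
  have : ((g * x * g⁻¹ : S3) : ℍ[ℝ]) - 1 = (g : ℍ[ℝ]) * ((x : ℍ[ℝ]) - 1) * ((g⁻¹ : S3) : ℍ[ℝ]) := by
    rw [mul_sub, sub_mul, mul_one, h, Submonoid.coe_mul, Submonoid.coe_mul]
  rw [this, norm_mul, norm_mul, S3.norm_coe, S3.norm_coe, one_mul, mul_one]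

section Exp
variable {X : Type} (l : Filter X) (p : X → ℝ)

/-- `f = 1 + a + o(p)` with `a = O(p)`. -/
structure Exp (f a : X → ℍ[ℝ]) : Prop where
  small : (fun x => f x - 1 - a x) =o[l] p
  big : a =O[l] p

variable {l p} {f g a b : X → ℍ[ℝ]}

theorem Exp.isBigO (h : Exp l p f a) : (fun x => f x - 1) =O[l] p := by
  simpa using h.small.isBigO.add h.big

theorem mul_small (hp : Tendsto p l (𝓝 0)) (hf : f =O[l] p) (hg : g =O[l] p) :
    (fun x => f x * g x) =o[l] p := by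
  have h1 : g =o[l] fun _ => (1 : ℝ) := hg.trans_isLittleO ((isLittleO_one_iff ℝ).2 hp)
  simpa using hf.mul_isLittleO h1

theorem Exp.mul (hp : Tendsto p l (𝓝 0)) (hf : Exp l p f a) (hg : Exp l p g b) :
    Exp l p (fun x => f x * g x) (fun x => a x + b x) := by
  refine ⟨?_, hf.big.add hg.big⟩
  refine (((mul_small hp hf.isBigO hg.isBigO).add hf.small).add hg.small).congr_left fun x => ?_
  noncomm_ring

theorem Exp.one : Exp l p (fun _ => 1) (fun _ => 0) :=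
  ⟨by simp, isBigO_zero p l⟩

theorem Exp.congr (h : Exp l p f a) (hf : ∀ᶠ x in l, f x = g x) (ha : ∀ x, a x = b x) :
    Exp l p g b := by
  obtain rfl : a = b := funext ha
  refine ⟨h.small.congr' ?_ EventuallyEq.rfl, h.big⟩
  filter_upwards [hf] with x hx
  rw [hx]

theorem inv_small (hp : Tendsto p l (𝓝 0)) {q : X → S3}
    (h : (fun x => (q x : ℍ[ℝ]) - 1) =O[l] p) :
    (fun x => (((q x)⁻¹ : S3) : ℍ[ℝ]) - 1 + ((q x : ℍ[ℝ]) - 1)) =o[l] p := by
  refine IsBigO.trans_isLittleO (IsBigO.of_bound 1 (Eventually.of_forall fun x => ?_))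
    (mul_small hp h h)
  rw [S3.inv_sub, norm_mul, S3.norm_coe]

theorem Exp.inv (hp : Tendsto p l (𝓝 0)) {q : X → S3} (h : Exp l p (fun x => (q x : ℍ[ℝ])) a) :
    Exp l p (fun x => (((q x)⁻¹ : S3) : ℍ[ℝ])) (fun x => -a x) := by
  refine ⟨((inv_small hp h.isBigO).sub h.small).congr_left fun x => ?_, h.big.neg_left⟩
  abel

theorem Exp.zpow (hp : Tendsto p l (𝓝 0)) {q : X → S3} (h : Exp l p (fun x => (q x : ℍ[ℝ])) a)
    (k : ℤ) : Exp l p (fun x => ((q x ^ k : S3) : ℍ[ℝ])) (fun x => k • a x) := by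
  induction k using Int.induction_on with
  | zero => exact Exp.one.congr (Eventually.of_forall fun x => by simp) fun x => by simp
  | succ n ih =>
    exact (ih.mul hp h).congr (Eventually.of_forall fun x => by
      rw [zpow_add_one, Submonoid.coe_mul]) fun x => by rw [add_smul, one_smul]
  | pred n ih =>
    exact (ih.mul hp (h.inv hp)).congr (Eventually.of_forall fun x => by
      rw [zpow_sub_one, Submonoid.coe_mul]) fun x => by
        rw [sub_smul, one_smul, sub_eq_add_neg]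

theorem re_small (hp : Tendsto p l (𝓝 0)) {q : X → S3}
    (h : (fun x => (q x : ℍ[ℝ]) - 1) =O[l] p) :
    (fun x => reL ((q x : ℍ[ℝ]) - 1)) =o[l] p :=
  ((inv_small hp h).const_smul_left (2⁻¹ : ℝ)).congr_left fun x => (S3.reL_sub (q x)).symm

/-- Polar decomposition to first order. -/
theorem exp_polar (hp : Tendsto p l (𝓝 0)) {r : X → ℝ} {q : X → S3} (hr : ∀ x, 0 ≤ r x)
    (h : (fun x => r x • (q x : ℍ[ℝ]) - 1) =O[l] p) :
    Exp l p (fun x => (r x : ℍ[ℝ])) (fun x => reL (r x • (q x : ℍ[ℝ]) - 1)) ∧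
    Exp l p (fun x => (q x : ℍ[ℝ]))
      (fun x => r x • (q x : ℍ[ℝ]) - 1 - reL (r x • (q x : ℍ[ℝ]) - 1)) := by
  have h1 : (fun x => (r x : ℍ[ℝ]) - 1) =O[l] p := by
    refine IsBigO.trans (IsBigO.of_bound 1 (Eventually.of_forall fun x => ?_)) h
    have := abs_norm_sub_norm_le (r x • (q x : ℍ[ℝ])) 1
    rw [norm_smul, S3.norm_coe, mul_one, norm_one, Real.norm_of_nonneg (hr x)] at this
    rw [one_mul, ← Quaternion.coe_one, ← Quaternion.coe_sub, Quaternion.norm_coe,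
      Quaternion.coe_one]
    exact this
  have h2 : (fun x => (q x : ℍ[ℝ]) - 1) =O[l] p := by
    have h3 : (fun x => ((r x : ℍ[ℝ]) - 1) * (q x : ℍ[ℝ])) =O[l] p := by
      refine IsBigO.trans (IsBigO.of_bound 1 (Eventually.of_forall fun x => ?_)) h1
      rw [norm_mul, S3.norm_coe, one_mul, mul_one]
    refine (h.sub h3).congr_left fun x => ?_
    rw [← Quaternion.coe_mul_eq_smul]
    noncomm_ring
  have h4 := mul_small hp h1 h2
  have h5 := re_small hp h2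
  have h6 : (fun x => reL (((r x : ℍ[ℝ]) - 1) * ((q x : ℍ[ℝ]) - 1))) =o[l] p :=
    (reL.isBigO_comp _ l).trans_isLittleO h4
  have h7 : (fun x => reL (r x • (q x : ℍ[ℝ]) - 1)) =O[l] p := (reL.isBigO_comp _ l).trans h
  have e1 : ∀ x, r x • (q x : ℍ[ℝ]) - 1 = ((r x : ℍ[ℝ]) - 1) + ((q x : ℍ[ℝ]) - 1) +
      ((r x : ℍ[ℝ]) - 1) * ((q x : ℍ[ℝ]) - 1) := fun x => by
    rw [← Quaternion.coe_mul_eq_smul]
    noncomm_ring
  have e2 : ∀ x, reL ((r x : ℍ[ℝ]) - 1) = (r x : ℍ[ℝ]) - 1 := fun x => by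
    rw [← Quaternion.coe_one, ← Quaternion.coe_sub, reL_coe]
  refine ⟨⟨(h5.add h6).neg_left.congr_left fun x => ?_, h7⟩,
    ⟨((h5.add h6).sub h4).congr_left fun x => ?_, h.sub h7⟩⟩
  · rw [e1, map_add, map_add, e2]
    abel
  · rw [e1, map_add, map_add, e2]
    abel

end Exp

/-! ## The local degree -/

section Local
variable {ι : Type}

theorem isCompact_sph : IsCompact {u : ι → ℍ[ℝ] | ∀ i, ‖u i‖ = 1} := by
  have : {u : ι → ℍ[ℝ] | ∀ i, ‖u i‖ = 1} = Set.pi univ fun _ => Metric.sphere 0 1 := by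
    ext u; simp
  rw [this]
  exact isCompact_univ_pi fun _ => isCompact_sphere _ _

theorem sph_subset : {u : ι → ℍ[ℝ] | ∀ i, ‖u i‖ = 1} ⊆ U0 ι := fun u hu i => by
  rw [← norm_ne_zero_iff, hu i]; exact one_ne_zero

variable [Fintype ι]

theorem isCompact_Z (w : ι → FreeGroup ι) : IsCompact {u | u ∈ U0 ι ∧ rad w u = 1} := by
  have : {u | u ∈ U0 ι ∧ rad w u = 1} = {u ∈ {u : ι → ℍ[ℝ] | ∀ i, ‖u i‖ = 1} | rad w u = 1} := by
    ext u
    refine ⟨fun h => ⟨fun i => ?_, h.2⟩, fun h => ⟨sph_subset h.1, h.2⟩⟩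
    rw [← norm_rad w, h.2, Pi.one_apply, norm_one]
  rw [this]
  exact isCompact_sph.of_isClosed_subset (isCompact_sph.isClosed.isClosed_eq
    ((contDiffOn_rad w).continuousOn.mono sph_subset) continuousOn_const) (sep_subset _ _)

/-- The filter of nonzero tuples with `rad w` near `1`. -/
def near (w : ι → FreeGroup ι) : Filter (ι → ℍ[ℝ]) := comap (rad w) (𝓝 1) ⊓ 𝓟 (U0 ι)

theorem tendsto_near (w : ι → FreeGroup ι) :
    Tendsto (fun u => ‖rad w u - 1‖) (near w) (𝓝 0) :=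
  tendsto_iff_norm_sub_tendsto_zero.1 (tendsto_comap.mono_left inf_le_left)

omit [Fintype ι] in
theorem mem_near (w : ι → FreeGroup ι) : ∀ᶠ u in near w, u ∈ U0 ι :=
  mem_inf_of_right (mem_principal_self _)

theorem local_deg [DecidableEq ι] (hW : WordDegStmt) (D : Deg (ι → ℍ[ℝ]))
    (w w' : ι → FreeGroup ι) (hdet : (Matrix.of fun i j => expo (w' i) j).det ≠ 0)
    (L : (ι → ℍ[ℝ]) ≃L[ℝ] (ι → ℍ[ℝ])) {Ω : Set (ι → ℍ[ℝ])} (hΩ : IsOpen Ω) (hΩU : Ω ⊆ U0 ι)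
    (hZ : ∀ u ∈ U0 ι, rad w' u = 1 → u ∈ Ω) (hZ' : ∀ u ∈ Ω, rad w u = 1 → rad w' u = 1)
    (ho : (fun u => rad w u - 1 - L (rad w' u - 1)) =o[near w'] fun u => ‖rad w' u - 1‖) :
    D.deg (fun u => rad w u - 1) Ω ≠ 0 := by
  obtain ⟨c, hc, hcL⟩ : ∃ c : ℝ, 0 < c ∧ ∀ p, ‖p‖ ≤ c * ‖L p‖ := by
    refine ⟨‖(L.symm : (ι → ℍ[ℝ]) →L[ℝ] (ι → ℍ[ℝ]))‖ + 1, by positivity, fun p => ?_⟩
    have := (L.symm : (ι → ℍ[ℝ]) →L[ℝ] (ι → ℍ[ℝ])).le_opNorm (L p)
    simp only [ContinuousLinearEquiv.coe_coe, ContinuousLinearEquiv.symm_apply_apply] at this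
    nlinarith [norm_nonneg (L p)]
  have h1 := ho.bound (c := 1 / (2 * c)) (by positivity)
  rw [near, eventually_inf_principal, eventually_comap, Metric.eventually_nhds_iff] at h1
  obtain ⟨r, hr, h1⟩ := h1
  set N : Set (ι → ℍ[ℝ]) := Ω ∩ rad w' ⁻¹' Metric.ball 1 r with hN
  have hNo : IsOpen N :=
    ((contDiffOn_rad w').continuousOn.mono hΩU).isOpen_inter_preimage hΩ Metric.isOpen_ball
  have hNU : N ⊆ U0 ι := inter_subset_left.trans hΩU
  have hb : ∀ u ∈ N, ‖rad w u - 1 - L (rad w' u - 1)‖ ≤ 1 / (2 * c) * ‖rad w' u - 1‖ := by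
    intro u hu
    simpa using h1 hu.2 u rfl (hNU hu)
  have hZN : ∀ u ∈ U0 ι, rad w' u = 1 → u ∈ N := fun u hu h =>
    ⟨hZ u hu h, by simp [h, hr]⟩
  have hz : ∀ u ∈ U0 ι, rad w' u = 1 → rad w u = 1 := fun u hu h => by
    have := hb u (hZN u hu h)
    simpa [h, sub_eq_zero] using this
  have sm : ∀ v : ι → FreeGroup ι, ContDiffOn ℝ ∞ (fun u => rad v u - 1) (U0 ι) := fun v =>
    (contDiffOn_rad v).sub contDiffOn_const
  have a1 : Adm (fun u => rad w u - 1) Ω := by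
    refine ⟨hΩ, (sm w).mono hΩU, ?_⟩
    refine Eq.subst (Set.ext fun u => Iff.symm ?_) (isCompact_Z w')
    simp only [mem_ofPred_eq, sub_eq_zero]
    exact ⟨fun h => ⟨hΩU h.1, hZ' u h.1 h.2⟩, fun h => ⟨hZ u h.1 h.2, hz u h.1 h.2⟩⟩
  have a2 : Adm (fun u => rad w' u - 1) (U0 ι) := by
    refine ⟨isOpen_U0, sm w', ?_⟩
    simpa only [sub_eq_zero] using isCompact_Z w'
  have a3 : Adm (fun u => rad w' u - 1) N := by
    refine ⟨hNo, (sm w').mono hNU, ?_⟩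
    refine Eq.subst (Set.ext fun u => Iff.symm ?_) (isCompact_Z w')
    simp only [mem_ofPred_eq, sub_eq_zero]
    exact ⟨fun h => ⟨hNU h.1, h.2⟩, fun h => ⟨hZN u h.1 h.2, h.2⟩⟩
  have e1 : D.deg (fun u => rad w u - 1) Ω = D.deg (fun u => rad w u - 1) N :=
    D.excision a1 hNo inter_subset_left fun u hu h =>
      hZN u (hΩU hu) (hZ' u hu (sub_eq_zero.1 h))
  have e2 : D.deg (fun u => rad w' u - 1) (U0 ι) = D.deg (fun u => rad w' u - 1) N :=
    D.excision a2 hNo hNU fun u hu h => hZN u hu (sub_eq_zero.1 h)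
  have e3 := D.htp (fun p => L (rad w' p.2 - 1) +
      p.1 • (rad w p.2 - 1 - L (rad w' p.2 - 1))) N hNo ?_ ?_
  · have e4 := D.lin L a3 (e2 ▸ hW ι D w' hdet)
    simp only [zero_smul, add_zero, one_smul, add_sub_cancel] at e3
    rw [e1, ← e3]
    exact e4
  · have s1 : ∀ v : ι → FreeGroup ι,
        ContDiffOn ℝ ∞ (fun p : ℝ × (ι → ℍ[ℝ]) => rad v p.2 - 1) (univ ×ˢ N) := fun v =>
      (sm v).comp contDiffOn_snd fun p hp => hNU hp.2
    have s2 := L.contDiff.comp_contDiffOn (s1 w')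
    exact s2.add (contDiffOn_fst.smul ((s1 w).sub s2))
  · convert (isCompact_Icc (a := (0 : ℝ)) (b := 1)).prod (isCompact_Z w') using 1
    ext ⟨t, u⟩
    simp only [mem_ofPred_eq, mem_prod]
    refine and_congr_right fun ht => ⟨fun h => ⟨hNU h.1, ?_⟩, fun h => ⟨hZN u h.1 h.2, ?_⟩⟩
    · have h2 := hb u h.1
      have h3 := hcL (rad w' u - 1)
      have h4 : ‖L (rad w' u - 1)‖ ≤ ‖rad w u - 1 - L (rad w' u - 1)‖ := by
        rw [eq_neg_of_add_eq_zero_left h.2, norm_neg, norm_smul, ← eq_neg_of_add_eq_zero_left h.2,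
          Real.norm_of_nonneg ht.1]
        exact mul_le_of_le_one_left (norm_nonneg _) ht.2
      have h5 : c * (1 / (2 * c) * ‖rad w' u - 1‖) = ‖rad w' u - 1‖ / 2 := by field_simp
      have h6 := mul_le_mul_of_nonneg_left (h4.trans h2) hc.le
      have h7 : ‖rad w' u - 1‖ ≤ 0 := by linarith
      exact sub_eq_zero.1 (norm_le_zero_iff.1 h7)
    · simp [h.2, hz u h.1 h.2]

end Local

/-! ## A nonsingular minor -/

theorem exists_minor {B X : Type} [Fintype B] [DecidableEq B] (v : B → X →₀ ℤ)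
    (hv : LinearIndependent ℤ v) :
    ∃ j : B → X, Function.Injective j ∧ (Matrix.of fun β β' => v β (j β')).det ≠ 0 := by
  let c : (X →₀ ℤ) →ₗ[ℤ] (X → ℚ) :=
    { toFun := fun z x => (z x : ℚ)
      map_add' := fun a b => by ext; simp
      map_smul' := fun a b => by ext; simp }
  have hc : Function.Injective c := fun a b h => by
    ext x
    exact Int.cast_injective (α := ℚ) (congrFun h x)
  have h1 : LinearIndependent ℚ fun β x => (v β x : ℚ) :=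
    (LinearIndependent.iff_fractionRing ℤ ℚ).1 (hv.map' c (LinearMap.ker_eq_bot.2 hc))
  have h2 := span_flip_eq_top_iff_linearIndependent.2 h1
  obtain ⟨κ, a, ha, hs, hi⟩ := exists_linearIndependent' ℚ (flip fun β x => (v β x : ℚ))
  rw [h2] at hs
  let b := Module.Basis.mk hi hs.ge
  let e : κ ≃ B := b.indexEquiv (Pi.basisFun ℚ B)
  refine ⟨a ∘ e.symm, ha.comp e.symm.injective, fun h => ?_⟩
  have h3 : LinearIndependent ℚ (Matrix.of fun β β' => (v β (a (e.symm β')) : ℚ)).col :=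
    hi.comp _ e.symm.injective
  have h4 := ((Matrix.isUnit_iff_isUnit_det _).1
    (Matrix.linearIndependent_cols_iff_isUnit.1 h3)).ne_zero
  apply h4
  have h5 := (Int.castRingHom ℚ).map_det (Matrix.of fun β β' => v β ((a ∘ e.symm) β'))
  rw [h, map_zero] at h5
  exact h5.symm

end Crest.Agent.R197
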