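import Crest.Prelude.Def_ClassifyingComplex
import Crest.Agent.Lib.Degree.Defs

/-!
# Row 197 (S0300): algebraic definitions and the statements of the steps

* `hol`, `chain`: holonomy of a connection on the Cayley graph along a word, the edge chain;
* `HPres`: generators and relators, `d1`, `d2`, `Acyclic`, `Asph`;
* `A Γ`, `H Γ`: the right-angled Artin group and its Bestvina-Brady subgroup; `Len`;
* `Cube`, `dC`: the cube complex; `P0`: the homological presentation of `H Γ`;
* `Config`: the data of the analytic core.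
-/

set_option autoImplicit false

noncomputable section

namespace Crest.Agent.R197

open Crest.Agent.Lib.Degree
open scoped Quaternion

/-! ## Holonomy -/

section Hol
variable {H S S' G G' : Type} [Group H] [Group G] [Group G']

/-- The holonomy of the connection `φ` on the Cayley graph along the word `w` read from `h`. -/
def hol (gen : S → H) (φ : H × S → G) (h : H) (w : FreeGroup S) : G :=
  (FreeGroup.lift (fun s => (⟨fun x => φ (x⁻¹, s), gen s⟩ : G ≀ᵣ H)) w).left h⁻¹

variable (gen : S → H) (φ : H × S → G)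

theorem lift_right (w : FreeGroup S) :
    (FreeGroup.lift (fun s => (⟨fun x => φ (x⁻¹, s), gen s⟩ : G ≀ᵣ H)) w).right =
      FreeGroup.lift gen w := by
  induction w using FreeGroup.induction_on with
  | C1 => simp
  | of s => simp
  | inv_of s h => simp
  | mul a b ha hb => simp [ha, hb]

@[simp] theorem hol_one (h : H) : hol gen φ h 1 = 1 := by simp [hol]

@[simp] theorem hol_of (h : H) (s : S) : hol gen φ h (FreeGroup.of s) = φ (h, s) := by simp [hol]

theorem hol_mul (h : H) (w w' : FreeGroup S) :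
    hol gen φ h (w * w') = hol gen φ h w * hol gen φ (h * FreeGroup.lift gen w) w' := by
  simp [hol, lift_right]

theorem hol_inv (h : H) (w : FreeGroup S) :
    hol gen φ h w⁻¹ = (hol gen φ (h * (FreeGroup.lift gen w)⁻¹) w)⁻¹ := by
  simp [hol, lift_right]

theorem hol_map (f : G →* G') (h : H) (w : FreeGroup S) :
    f (hol gen φ h w) = hol gen (fun e => f (φ e)) h w := by
  induction w using FreeGroup.induction_on generalizing h with
  | C1 => simp
  | of s => simp
  | inv_of s ih => simp [hol_inv]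
  | mul a b ha hb => simp [hol_mul, ha, hb]

theorem hol_translate (b h : H) (w : FreeGroup S) :
    hol gen (fun e => φ (b * e.1, e.2)) h w = hol gen φ (b * h) w := by
  induction w using FreeGroup.induction_on generalizing h with
  | C1 => simp
  | of s => simp
  | inv_of s ih => simp [hol_inv, mul_assoc]
  | mul a b ha hb => simp [hol_mul, ha, hb, mul_assoc]

theorem hol_comp (gen' : S' → H) (ω : FreeGroup S' →* FreeGroup S)
    (hω : ∀ s, FreeGroup.lift gen (ω (FreeGroup.of s)) = gen' s) (h : H) (w : FreeGroup S') :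
    hol gen φ h (ω w) = hol gen' (fun e => hol gen φ e.1 (ω (FreeGroup.of e.2))) h w := by
  have h1 : ∀ w, FreeGroup.lift gen (ω w) = FreeGroup.lift gen' w := fun w =>
    DFunLike.congr_fun (FreeGroup.ext_hom ((FreeGroup.lift gen).comp ω) (FreeGroup.lift gen')
      (by simpa using hω)) w
  induction w using FreeGroup.induction_on generalizing h with
  | C1 => simp
  | of s => simp
  | inv_of s ih => simp [hol_inv, hω]
  | mul a b ha hb => simp [hol_mul, ha, hb, h1]

/-- A connection that does not depend on the position is a homomorphism. -/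
theorem hol_const (ψ : S → G) (h : H) (w : FreeGroup S) :
    hol gen (fun e => ψ e.2) h w = FreeGroup.lift ψ w := by
  induction w using FreeGroup.induction_on generalizing h with
  | C1 => simp
  | of s => simp
  | inv_of s ih => simp [hol_inv]
  | mul a b ha hb => simp [hol_mul, ha, hb]

theorem hol_conj (h : H) (u w : FreeGroup S) (hw : FreeGroup.lift gen w = 1) :
    hol gen φ h (u * w * u⁻¹) =
      hol gen φ h u * hol gen φ (h * FreeGroup.lift gen u) w * (hol gen φ h u)⁻¹ := by
  simp [hol_mul, hol_inv, hw]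

/-- The `1`-chain of the path that reads `w` from `h`. -/
def chain (h : H) (w : FreeGroup S) : H × S →₀ ℤ :=
  (hol gen (fun e => Multiplicative.ofAdd (Finsupp.single e (1 : ℤ))) h w).toAdd

@[simp] theorem chain_one (h : H) : chain gen h 1 = 0 := by simp [chain]

@[simp] theorem chain_of (h : H) (s : S) :
    chain gen h (FreeGroup.of s) = Finsupp.single (h, s) 1 := by simp [chain]

theorem chain_mul (h : H) (w w' : FreeGroup S) :
    chain gen h (w * w') = chain gen h w + chain gen (h * FreeGroup.lift gen w) w' := by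
  simp [chain, hol_mul]

theorem chain_inv (h : H) (w : FreeGroup S) :
    chain gen h w⁻¹ = -chain gen (h * (FreeGroup.lift gen w)⁻¹) w := by
  simp [chain, hol_inv]

theorem chain_conj (h : H) (u w : FreeGroup S) (hw : FreeGroup.lift gen w = 1) :
    chain gen h (u * w * u⁻¹) = chain gen (h * FreeGroup.lift gen u) w := by
  simp [chain_mul, chain_inv, hw]

/-- Abelian holonomy is the pairing with the chain. -/
theorem hol_eq_linearCombination {M : Type} [AddCommGroup M] (a : H × S → M) (h : H)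
    (w : FreeGroup S) :
    (hol gen (fun e => Multiplicative.ofAdd (a e)) h w).toAdd =
      Finsupp.linearCombination ℤ a (chain gen h w) := by
  induction w using FreeGroup.induction_on generalizing h with
  | C1 => simp
  | of s => simp
  | inv_of s ih => simp [hol_inv, chain_inv]
  | mul a b ha hb => simp [hol_mul, chain_mul, ha, hb]

/-- Left translation of chains. -/
def tr {α : Type} (b : H) : (H × α →₀ ℤ) →ₗ[ℤ] (H × α →₀ ℤ) :=
  Finsupp.lmapDomain ℤ ℤ fun e => (b * e.1, e.2)

@[simp] theorem tr_single {α : Type} (b h : H) (a : α) (k : ℤ) :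
    tr b (Finsupp.single (h, a) k) = Finsupp.single (b * h, a) k := by
  simp [tr]

theorem tr_apply {α : Type} (b : H) (z : H × α →₀ ℤ) (h : H) (a : α) :
    tr b z (h, a) = z (b⁻¹ * h, a) := by
  have : Function.Injective fun e : H × α => (b * e.1, e.2) := by
    rintro ⟨x, y⟩ ⟨x', y'⟩ h
    simpa using h
  have h1 := Finsupp.mapDomain_apply this z (b⁻¹ * h, a)
  simpa [tr] using h1

theorem tr_tr {α : Type} (b c : H) (z : H × α →₀ ℤ) : tr b (tr c z) = tr (b * c) z := by
  ext ⟨h, a⟩
  simp [tr_apply, mul_assoc]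

@[simp] theorem tr_one {α : Type} (z : H × α →₀ ℤ) : tr (1 : H) z = z := by
  ext ⟨h, a⟩
  simp [tr_apply]

theorem tr_chain (b h : H) (w : FreeGroup S) : tr b (chain gen h w) = chain gen (b * h) w := by
  induction w using FreeGroup.induction_on generalizing h with
  | C1 => simp
  | of s => simp
  | inv_of s ih => simp [chain_inv, mul_assoc]
  | mul a b ha hb => simp [chain_mul, ha, hb, mul_assoc]

/-- The chain map induced by a substitution. -/
def push (ω : FreeGroup S' →* FreeGroup S) : (H × S' →₀ ℤ) →ₗ[ℤ] (H × S →₀ ℤ) :=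
  Finsupp.linearCombination ℤ fun e => chain gen e.1 (ω (FreeGroup.of e.2))

theorem push_chain (gen' : S' → H) (ω : FreeGroup S' →* FreeGroup S)
    (hω : ∀ s, FreeGroup.lift gen (ω (FreeGroup.of s)) = gen' s) (h : H) (w : FreeGroup S') :
    push gen ω (chain gen' h w) = chain gen h (ω w) := by
  rw [push, ← hol_eq_linearCombination, chain, hol_comp gen _ gen' ω hω]
  rfl

end Hol

/-! ## Presentations -/

/-- Generators and relators over a group `H`. -/
structure HPres (H : Type) [Group H] where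
  S : Type
  R : Type
  gen : S → H
  rel : R → FreeGroup S
  rel_one : ∀ r, FreeGroup.lift gen (rel r) = 1

namespace HPres
variable {H : Type} [Group H] (P : HPres H)

/-- The boundary of edges of the Cayley complex. -/
def d1 : (H × P.S →₀ ℤ) →ₗ[ℤ] (H →₀ ℤ) :=
  Finsupp.linearCombination ℤ fun e => Finsupp.single (e.1 * P.gen e.2) 1 - Finsupp.single e.1 1

/-- The boundary of faces of the Cayley complex. -/
def d2 : (H × P.R →₀ ℤ) →ₗ[ℤ] (H × P.S →₀ ℤ) :=
  Finsupp.linearCombination ℤ fun β => chain P.gen β.1 (P.rel β.2)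

@[simp] theorem d1_single (h : H) (s : P.S) (k : ℤ) : P.d1 (Finsupp.single (h, s) k) =
    k • (Finsupp.single (h * P.gen s) 1 - Finsupp.single h 1) := by simp [d1]

@[simp] theorem d2_single (h : H) (r : P.R) (k : ℤ) :
    P.d2 (Finsupp.single (h, r) k) = k • chain P.gen h (P.rel r) := by simp [d2]

theorem d1_chain (h : H) (w : FreeGroup P.S) : P.d1 (chain P.gen h w) =
    Finsupp.single (h * FreeGroup.lift P.gen w) 1 - Finsupp.single h 1 := by
  induction w using FreeGroup.induction_on generalizing h with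
  | C1 => simp
  | of s => simp
  | inv_of s ih => simp [chain_inv]
  | mul a b ha hb => simp [chain_mul, ha, hb, mul_assoc]

theorem d1_d2 (y : H × P.R →₀ ℤ) : P.d1 (P.d2 y) = 0 := by
  induction y using Finsupp.induction_linear with
  | zero => simp
  | add a b ha hb => simp [ha, hb]
  | single β k => obtain ⟨h, r⟩ := β; simp [d1_chain, P.rel_one]

theorem d2_tr (b : H) (y : H × P.R →₀ ℤ) : P.d2 (tr b y) = tr b (P.d2 y) := by
  induction y using Finsupp.induction_linear with
  | zero => simp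
  | add a b ha hb => simp [ha, hb]
  | single β k => obtain ⟨h, r⟩ := β; simp [tr_chain]

/-- The Cayley complex is acyclic. -/
structure Acyclic : Prop where
  surj : Function.Surjective (FreeGroup.lift P.gen)
  exact : ∀ z, P.d1 z = 0 → ∃ y, P.d2 y = z
  inj : Function.Injective P.d2

/-- An aspherical presentation: the Cayley complex is simply connected and has no `2`-cycles. -/
structure Asph : Prop where
  surj : Function.Surjective (FreeGroup.lift P.gen)
  ker : ∀ w, FreeGroup.lift P.gen w = 1 → w ∈ Subgroup.normalClosure (Set.range P.rel)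
  inj : Function.Injective P.d2

variable {P} in
theorem Asph.exists_d2 (hP : P.Asph) (h : H) {w : FreeGroup P.S}
    (hw : FreeGroup.lift P.gen w = 1) : ∃ m, P.d2 m = chain P.gen h w := by
  have h1 : ∀ w ∈ Subgroup.closure (Group.conjugatesOfSet (Set.range P.rel)),
      FreeGroup.lift P.gen w = 1 ∧ ∃ m, P.d2 m = chain P.gen h w := by
    intro w hw
    induction hw using Subgroup.closure_induction with
    | mem x hx =>
      obtain ⟨_, ⟨r, rfl⟩, hc⟩ := Group.mem_conjugatesOfSet_iff.1 hx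
      obtain ⟨u, rfl⟩ := isConj_iff.1 hc
      exact ⟨by simp [P.rel_one], Finsupp.single (h * FreeGroup.lift P.gen u, r) 1, by
        simp [chain_conj _ _ _ _ (P.rel_one r)]⟩
    | one => exact ⟨by simp, 0, by simp⟩
    | mul x y _ _ hx hy =>
      obtain ⟨hx, m, hm⟩ := hx
      obtain ⟨hy, m', hm'⟩ := hy
      exact ⟨by simp [hx, hy], m + m', by simp [chain_mul, hx, hm, hm']⟩
    | inv x _ hx =>
      obtain ⟨hx, m, hm⟩ := hx
      exact ⟨by simp [hx], -m, by simp [chain_inv, hx, hm]⟩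
  exact (h1 w (hP.ker w hw)).2

/-- The curvature of `φ` at the face `β`, read from `1` along the word `Q β`. -/
def curv {G : Type} [Group G] (Q : H × P.R → FreeGroup P.S) (φ : H × P.S → G) (β : H × P.R) : G :=
  hol P.gen φ 1 (Q β * P.rel β.2 * (Q β)⁻¹)

end HPres

/-! ## Right-angled Artin groups -/

section RAAG
variable {V : Type} (Γ : SimpleGraph V)

/-- The commutation relators. -/
def rels : Set (FreeGroup V) :=
  {r | ∃ u v, Γ.Adj u v ∧ r = FreeGroup.of u * FreeGroup.of v * (FreeGroup.of u)⁻¹ *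
    (FreeGroup.of v)⁻¹}

/-- The right-angled Artin group. -/
abbrev A : Type := PresentedGroup (rels Γ)

/-- The standard generators. -/
def gen (v : V) : A Γ := PresentedGroup.of v

variable {Γ} in
theorem gen_comm {u v : V} (h : Γ.Adj u v) : Commute (gen Γ u) (gen Γ v) := by
  have h1 : PresentedGroup.mk (rels Γ) (FreeGroup.of u * FreeGroup.of v * (FreeGroup.of u)⁻¹ *
      (FreeGroup.of v)⁻¹) = 1 := PresentedGroup.one_of_mem ⟨u, v, h, rfl⟩
  simp only [map_mul, map_inv] at h1
  exact commutatorElement_eq_one_iff_commute.1 h1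

/-- The homomorphism out of `A Γ` given by commuting images. -/
def liftA {G : Type} [Group G] (f : V → G) (hf : ∀ u v, Γ.Adj u v → Commute (f u) (f v)) :
    A Γ →* G :=
  PresentedGroup.toGroup (f := f) (by
    rintro _ ⟨u, v, h, rfl⟩
    simp only [map_mul, map_inv, FreeGroup.lift_apply_of]
    exact commutatorElement_eq_one_iff_commute.2 (hf u v h))

@[simp] theorem liftA_gen {G : Type} [Group G] (f : V → G)
    (hf : ∀ u v, Γ.Adj u v → Commute (f u) (f v)) (v : V) : liftA Γ f hf (gen Γ v) = f v :=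
  PresentedGroup.toGroup.of _

/-- The height homomorphism. -/
def htHom : A Γ →* Multiplicative ℤ :=
  liftA Γ (fun _ => Multiplicative.ofAdd 1) fun _ _ _ => Commute.refl _

/-- The height. -/
def ht (a : A Γ) : ℤ := (htHom Γ a).toAdd

@[simp] theorem ht_one : ht Γ 1 = 0 := by simp [ht]
@[simp] theorem ht_gen (v : V) : ht Γ (gen Γ v) = 1 := by simp [ht, htHom]
@[simp] theorem ht_mul (a b : A Γ) : ht Γ (a * b) = ht Γ a + ht Γ b := by simp [ht]
@[simp] theorem ht_inv (a : A Γ) : ht Γ a⁻¹ = -ht Γ a := by simp [ht]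
@[simp] theorem ht_pow (a : A Γ) (n : ℕ) : ht Γ (a ^ n) = n * ht Γ a := by simp [ht]
@[simp] theorem ht_zpow (a : A Γ) (n : ℤ) : ht Γ (a ^ n) = n * ht Γ a := by simp [ht]

/-- The exponent sum of the generator `x`, as a homomorphism. -/
def abHom [DecidableEq V] (x : V) : A Γ →* Multiplicative ℤ :=
  liftA Γ (fun v => Multiplicative.ofAdd (if v = x then 1 else 0)) fun _ _ _ => Commute.all _ _

/-- The exponent sum of the generator `x`. -/
def ab [DecidableEq V] (x : V) (a : A Γ) : ℤ := (abHom Γ x a).toAdd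

section
variable [DecidableEq V] (x : V)
@[simp] theorem ab_one : ab Γ x 1 = 0 := by simp [ab]
@[simp] theorem ab_gen (v : V) : ab Γ x (gen Γ v) = if v = x then 1 else 0 := by simp [ab, abHom]
@[simp] theorem ab_mul (a b : A Γ) : ab Γ x (a * b) = ab Γ x a + ab Γ x b := by simp [ab]
@[simp] theorem ab_inv (a : A Γ) : ab Γ x a⁻¹ = -ab Γ x a := by simp [ab]
@[simp] theorem ab_pow (a : A Γ) (n : ℕ) : ab Γ x (a ^ n) = n * ab Γ x a := by simp [ab]
@[simp] theorem ab_zpow (a : A Γ) (n : ℤ) : ab Γ x (a ^ n) = n * ab Γ x a := by simp [ab]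
end

/-- The Bestvina-Brady group. -/
abbrev H : Subgroup (A Γ) := (htHom Γ).ker

theorem mem_H {a : A Γ} : a ∈ H Γ ↔ ht Γ a = 0 := by simp [H, ht, MonoidHom.mem_ker]

/-- The value of a letter. -/
def lt (x : V × Bool) : A Γ := if x.2 then gen Γ x.1 else (gen Γ x.1)⁻¹

/-- A length function with the properties of the word length. -/
structure Len where
  ℓ : A Γ → ℕ
  eq_one : ∀ a, ℓ a = 0 → a = 1
  step : ∀ a x, ℓ (a * lt Γ x) = ℓ a + 1 ∨ ℓ (a * lt Γ x) + 1 = ℓ a
  desc : ∀ a, ℓ a ≠ 0 → ∃ x, ℓ (a * lt Γ x) < ℓ a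
  adj : ∀ a x y, x ≠ y → ℓ (a * lt Γ x) < ℓ a → ℓ (a * lt Γ y) < ℓ a → Γ.Adj x.1 y.1
  par : ∀ a x y, Γ.Adj x.1 y.1 →
    (ℓ (a * lt Γ x * lt Γ y) < ℓ (a * lt Γ x) ↔ ℓ (a * lt Γ y) < ℓ a)

/-- Cliques, the empty one included. -/
abbrev Clq : Type := {σ : Finset V // Γ.IsClique (σ : Set V)}

variable [LinearOrder V]

variable {Γ} in
/-- Remove a vertex from a clique. -/
def Clq.erase (σ : Clq Γ) (v : V) : Clq Γ :=
  ⟨σ.1.erase v, σ.2.subset (Finset.coe_subset.2 (Finset.erase_subset _ _))⟩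

/-- The sign of `v` in `σ`. -/
def sgn (σ : Finset V) (v : V) : ℤ := (-1) ^ (σ.filter (· < v)).card

/-- The augmented simplicial boundary of the flag complex. -/
def bdL : (Clq Γ →₀ ℤ) →ₗ[ℤ] (Clq Γ →₀ ℤ) :=
  Finsupp.linearCombination ℤ fun σ => ∑ v ∈ σ.1, sgn σ.1 v • Finsupp.single (σ.erase v) 1

/-- The flag complex is acyclic. -/
def LAcyclic : Prop := ∀ y, bdL Γ y = 0 → ∃ w, bdL Γ w = y

/-- The cubes: a bottom vertex and a clique of directions. -/
abbrev Cube : Type := A Γ × Clq Γ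

/-- The cubical boundary. -/
def dC : (Cube Γ →₀ ℤ) →ₗ[ℤ] (Cube Γ →₀ ℤ) :=
  Finsupp.linearCombination ℤ fun c => ∑ v ∈ c.2.1, sgn c.2.1 v •
    (Finsupp.single (c.1 * gen Γ v, c.2.erase v) 1 - Finsupp.single (c.1, c.2.erase v) 1)

/-- The `n`-cubes with all heights in `[0, 2]`. -/
def Slab (n : ℕ) : Set (Cube Γ) := {c | c.2.1.card = n ∧ 0 ≤ ht Γ c.1 ∧ ht Γ c.1 + n ≤ 2}

/-- The slab `[0, 2]` of the cube complex is acyclic in degrees one and two. -/
def SlabExact : Prop :=
  (∀ z : Cube Γ →₀ ℤ, ↑z.support ⊆ Slab Γ 1 → dC Γ z = 0 →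
    ∃ y : Cube Γ →₀ ℤ, ↑y.support ⊆ Slab Γ 2 ∧ dC Γ y = z) ∧
  ∀ z : Cube Γ →₀ ℤ, ↑z.support ⊆ Slab Γ 2 → dC Γ z = 0 → z = 0

/-- Increasing edges. -/
abbrev E2 : Type := {p : V × V // p.1 < p.2 ∧ Γ.Adj p.1 p.2}

/-- Increasing triangles. -/
abbrev E3 : Type := {p : V × V × V // p.1 < p.2.1 ∧ p.2.1 < p.2.2 ∧ Γ.Adj p.1 p.2.1 ∧
  Γ.Adj p.2.1 p.2.2 ∧ Γ.Adj p.1 p.2.2}

/-- The generators of `H Γ`: the edges of the slab, after collapsing the `v₀`-edges. -/
def gen0 (v₀ : V) : Bool × V → H Γ
  | (false, v) => ⟨gen Γ v * (gen Γ v₀)⁻¹, (mem_H Γ).2 (by simp)⟩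
  | (true, v) => ⟨gen Γ v₀ * gen Γ v * (gen Γ v₀)⁻¹ * (gen Γ v₀)⁻¹, (mem_H Γ).2 (by simp)⟩

/-- The relators: the squares of the slab and the `v₀`-edges. -/
def rel0 (v₀ : V) : E2 Γ ⊕ Bool → FreeGroup (Bool × V)
  | .inl p => .of (false, p.1.1) * .of (true, p.1.2) * (.of (true, p.1.1))⁻¹ *
      (.of (false, p.1.2))⁻¹
  | .inr k => .of (k, v₀)

/-- The homological presentation of the Bestvina-Brady group. -/
def P0 (v₀ : V) : HPres (H Γ) where
  S := Bool × V
  R := E2 Γ ⊕ Bool
  gen := gen0 Γ v₀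
  rel := rel0 Γ v₀
  rel_one := by
    rintro (⟨⟨u, v⟩, h1, h2⟩ | _ | _)
    · apply Subtype.ext
      have := (gen_comm h2).eq
      simp only [rel0, map_mul, map_inv, FreeGroup.lift_apply_of, gen0, Subgroup.coe_mul,
        Subgroup.coe_inv, Subgroup.coe_one]
      calc _ = gen Γ u * gen Γ v * (gen Γ v * gen Γ u)⁻¹ := by group
        _ = 1 := by rw [this]; group
    · apply Subtype.ext
      simp [rel0, gen0]
    · apply Subtype.ext
      simp [rel0, gen0]

end RAAG

/-! ## The data of the analytic core -/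

/-- Edge paths in a directed multigraph. -/
inductive IsPath {V E : Type} (o t : E → V) : V → List (E × Bool) → V → Prop
  | nil (v : V) : IsPath o t v [] v
  | pos (e : E) (w : List (E × Bool)) (v : V) :
      IsPath o t (t e) w v → IsPath o t (o e) ((e, true) :: w) v
  | neg (e : E) (w : List (E × Bool)) (v : V) :
      IsPath o t (o e) w v → IsPath o t (t e) ((e, false) :: w) v

/-- Gauge covariance of the holonomy along a path. -/
theorem IsPath.gauge {V E G : Type} [Group G] {o t : E → V} {v v' : V} {w : List (E × Bool)}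
    (h : IsPath o t v w v') (γ : V → G) (ψ : E → G) :
    FreeGroup.lift (fun e => (γ (o e))⁻¹ * ψ e * γ (t e)) (FreeGroup.mk w) =
      (γ v)⁻¹ * FreeGroup.lift ψ (FreeGroup.mk w) * γ v' := by
  induction h with
  | nil v => simp
  | pos e w v _ ih =>
    simp only [FreeGroup.lift_mk, List.map_cons, List.prod_cons, cond_true] at ih ⊢
    rw [ih]; group
  | neg e w v _ ih =>
    simp only [FreeGroup.lift_mk, List.map_cons, List.prod_cons, cond_false] at ih ⊢
    rw [ih]; group

/-- The holonomy along a realised path. -/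
theorem IsPath.hol_eq {V E H S G : Type} [Group H] [Group G] {o t : E → V} {v v' : V}
    {w : List (E × Bool)} (h : IsPath o t v w v') (gen : S → H) (φ : H × S → G) (pos : V → H)
    (word : E → FreeGroup S) (hw : ∀ e, pos (o e) * FreeGroup.lift gen (word e) = pos (t e)) :
    pos v * FreeGroup.lift gen (FreeGroup.lift word (FreeGroup.mk w)) = pos v' ∧
      hol gen φ (pos v) (FreeGroup.lift word (FreeGroup.mk w)) =
        FreeGroup.lift (fun e => hol gen φ (pos (o e)) (word e)) (FreeGroup.mk w) := by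
  induction h with
  | nil v => simp
  | pos e w v _ ih =>
    simp only [FreeGroup.lift_mk, List.map_cons, List.prod_cons, cond_true] at ih ⊢
    rw [map_mul, ← mul_assoc, hol_mul, hw, ih.2]
    exact ⟨ih.1, rfl⟩
  | neg e w v _ ih =>
    simp only [FreeGroup.lift_mk, List.map_cons, List.prod_cons, cond_false] at ih ⊢
    have h1 : pos (t e) * (FreeGroup.lift gen (word e))⁻¹ = pos (o e) := by rw [← hw]; group
    rw [map_mul, ← mul_assoc, hol_mul, hol_inv, map_inv, h1, ih.2]
    exact ⟨ih.1, rfl⟩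

/-- The prescribed curvature. -/
def presc {B T G : Type} [Group G] (col : B → Option T) (eps : B → ℤ) (x : T → G) (β : B) : G :=
  (col β).elim 1 fun τ => x τ ^ eps β

/-- A finite `2`-complex `K` drawn in the Cayley complex, with curvature centres and a path of
almost flat connections. -/
structure Config {H : Type} [Group H] (P : HPres H) (C η : ℝ) where
  V : Type
  E : Type
  T : Type
  [fV : Fintype V]
  [fE : Fintype E]
  [fT : Fintype T]
  [dT : DecidableEq T]
  card : Fintype.card E + 1 = Fintype.card V + Fintype.card T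
  v0 : V
  o : E → V
  t : E → V
  conn : ∀ v, ∃ w, IsPath o t v0 w v
  pos : V → H
  word : E → FreeGroup P.S
  pos_word : ∀ e, pos (o e) * FreeGroup.lift P.gen (word e) = pos (t e)
  base : T → V
  bd : T → List (E × Bool)
  bd_path : ∀ τ, IsPath o t (base τ) (bd τ) (base τ)
  Q : H × P.R → FreeGroup P.S
  Q_spec : ∀ β, FreeGroup.lift P.gen (Q β) = β.1
  col : H × P.R → Option T
  eps : H × P.R → ℤ
  F0 : Finset (H × P.R)
  key : ∀ (φ : H × P.S → S3) (x : T → S3) (ρ : ℝ), 0 ≤ ρ → (∀ τ, ‖(x τ : ℍ[ℝ]) - 1‖ ≤ ρ) →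
    (∀ β ∈ F0, P.curv Q φ β = presc col eps x β) → ∀ τ, ∃ g : S3,
      ‖((hol P.gen φ (pos (base τ)) (FreeGroup.lift word (FreeGroup.mk (bd τ))) : S3) : ℍ[ℝ]) -
        ((g * x τ * g⁻¹ : S3) : ℍ[ℝ])‖ ≤ C * ρ ^ 2
  lin : ∀ (τ' : T) (m : H × P.R →₀ ℤ),
    P.d2 m = chain P.gen (pos (base τ')) (FreeGroup.lift word (FreeGroup.mk (bd τ'))) →
      ∀ τ, Finsupp.linearCombination ℤ (fun β => if col β = some τ then eps β else 0) m =
        if τ = τ' then 1 else 0
  ψ : ℝ → E → S3
  ψ_cont : ∀ e, Continuous fun s => ψ s e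
  ψ_zero : ∀ e, ψ 0 e = 1
  ψ_small : ∀ s ∈ Set.Icc (0 : ℝ) 1, ∀ τ,
    ‖((FreeGroup.lift (ψ s) (FreeGroup.mk (bd τ)) : S3) : ℍ[ℝ]) - 1‖ ≤ η
  ψ_flat : ∀ τ, FreeGroup.lift (ψ 1) (FreeGroup.mk (bd τ)) = 1
  ψ_ne : ¬ ∃ γ : V → S3, ∀ e, ψ 1 e = (γ (o e))⁻¹ * γ (t e)

/-! ## The steps -/

/-- The numbers game: a length function, and residual finiteness. -/
def LenStmt : Prop :=
  ∀ (V : Type) [Fintype V] [DecidableEq V] (Γ : SimpleGraph V),
    Nonempty (Len Γ) ∧ Group.ResiduallyFinite (A Γ)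

/-- The slab is acyclic. -/
def SlabStmt : Prop :=
  ∀ (V : Type) [Fintype V] [LinearOrder V] (Γ : SimpleGraph V),
    Len Γ → LAcyclic Γ → Γ.CliqueFree 4 → SlabExact Γ

/-- The presentation `P0` is acyclic. -/
def P0Stmt : Prop :=
  ∀ (V : Type) [Fintype V] [LinearOrder V] (Γ : SimpleGraph V) (v₀ : V),
    Γ.Preconnected → SlabExact Γ → (P0 Γ v₀).Acyclic

/-- An acyclic presentation gives cohomological dimension at most two. -/
def CdStmt : Prop :=
  ∀ (G : Type) [Group G] (P : HPres G), P.Acyclic →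
    ∀ (A : Rep ℤ G) (n : ℕ), 3 ≤ n → CategoryTheory.Limits.IsZero (groupCohomology A n)

/-- A pair of commuting elements detected by characters gives a nonzero `H²`. -/
def H2Stmt : Prop :=
  ∀ (G : Type) [Group G] (g h : G) (f f' : G →* Multiplicative ℤ), Commute g h →
    (f g).toAdd * (f' h).toAdd ≠ (f h).toAdd * (f' g).toAdd →
      ∃ A : Rep ℤ G, ¬ CategoryTheory.Limits.IsZero (groupCohomology A 2)

/-- The three-dimensional classifying complex. -/
def ClassStmt : Prop :=
  ∀ (V : Type) [Fintype V] [LinearOrder V] (Γ : SimpleGraph V), V → Len Γ → Γ.CliqueFree 4 →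
    Crest.Topology.HasClassifyingComplex (H Γ) 3

/-- A two-dimensional classifying complex gives an aspherical presentation. -/
def PresStmt : Prop :=
  ∀ (G : Type) [Group G], Crest.Topology.HasClassifyingComplex G 2 → ∃ P : HPres G, P.Asph

/-- Second order expansion of the holonomy of a null-homotopic loop. -/
def ExpandStmt : Prop :=
  ∀ (H : Type) [Group H] (P : HPres H), P.Asph → ∀ Q : H × P.R → FreeGroup P.S,
    (∀ β, FreeGroup.lift P.gen (Q β) = β.1) → ∀ n, FreeGroup.lift P.gen n = 1 →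
      ∃ (F : Finset (H × P.R)) (C : ℝ) (m : H × P.R →₀ ℤ), 0 ≤ C ∧ m.support ⊆ F ∧
        P.d2 m = chain P.gen 1 n ∧
        ∀ (φ : H × P.S → S3) (ρ : ℝ), 0 ≤ ρ →
          (∀ β ∈ F, ‖((P.curv Q φ β : S3) : ℍ[ℝ]) - 1‖ ≤ ρ) →
          ‖((hol P.gen φ 1 n : S3) : ℍ[ℝ]) - 1‖ ≤ C * ρ ∧
          ‖((hol P.gen φ 1 n : S3) : ℍ[ℝ]) - 1 -
            Finsupp.linearCombination ℤ (fun β => ((P.curv Q φ β : S3) : ℍ[ℝ]) - 1) m‖ ≤
              C * ρ ^ 2

/-- Transfer of the dual of a face from a finite acyclic presentation to an aspherical one. -/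
def TransferStmt : Prop :=
  ∀ (H : Type) [Group H] (P₀ P : HPres H) [Finite P₀.S] [Finite P₀.R], P₀.Acyclic → P.Asph →
    ∀ ω : FreeGroup P₀.S →* FreeGroup P.S,
      (∀ s, FreeGroup.lift P.gen (ω (FreeGroup.of s)) = P₀.gen s) → ∀ r₀ : P₀.R,
        ∃ (ε : H × P.R →₀ ℤ) (B : Finset H), ∀ (T : H × P₀.R →₀ ℤ) (m : H × P.R →₀ ℤ) (b : H),
          P.d2 m = push P.gen ω (P₀.d2 T) → (∀ e ∈ (P₀.d2 T).support, b⁻¹ * e.1 ∉ B) →
            Finsupp.linearCombination ℤ (fun β => ε (b⁻¹ * β.1, β.2)) m = T (b, r₀)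

/-- The analytic core. -/
def CoreStmt : Prop :=
  ∀ (H : Type) [Group H] (P : HPres H), P.Asph → ∀ C η : ℝ, 0 < C → 0 ≤ η → 4 * C * η < 1 →
    IsEmpty (Config P C η)

/-- A flag acyclic complex with a nontrivial flat connection. -/
structure LData (V : Type) [Fintype V] [LinearOrder V] (Γ : SimpleGraph V) [DecidableRel Γ.Adj]
    where
  conn : Γ.Preconnected
  dim : Γ.CliqueFree 4
  acyc : LAcyclic Γ
  card : Fintype.card (E2 Γ) + 1 = Fintype.card V + Fintype.card (E3 Γ)
  tri : E3 Γ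
  θ : V → V → S3
  re : ∀ u v, u < v → Γ.Adj u v → 4 / 5 ≤ (θ u v : ℍ[ℝ]).re
  flat : ∀ u v w, u < v → v < w → Γ.Adj u v → Γ.Adj v w → Γ.Adj u w → θ u v * θ v w = θ u w
  ne : ¬ ∃ γ : V → S3, ∀ u v, u < v → Γ.Adj u v → θ u v = (γ u)⁻¹ * γ v

/-- The barycentric subdivision of the spine of the Poincaré sphere. -/
def LStmt : Prop :=
  ∃ (Γ : SimpleGraph (Fin 21)) (_ : DecidableRel Γ.Adj), Nonempty (LData (Fin 21) Γ)

/-- The scaled copies of the flag complex. -/
def GeomStmt : Prop :=
  ∀ (V : Type) [Fintype V] [LinearOrder V] (Γ : SimpleGraph V) [DecidableRel Γ.Adj] (v₀ : V),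
    LData V Γ → (P0 Γ v₀).Acyclic → ∀ P : HPres (H Γ), P.Asph →
      ∃ C : ℝ, 0 < C ∧ ∀ η : ℝ, 0 < η → Nonempty (Config P C η)

end Crest.Agent.R197
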