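import Crest.Agent.R197.GeomDefs
import Crest.Agent.R197.Expand

/-! Row 197: lattice points of the scaled flag complex, powers of unit quaternions. -/

set_option autoImplicit false

noncomputable section

namespace Crest.Agent.R197

open Crest.Agent.Lib.Degree
open scoped Quaternion

namespace Geom

open Expand

theorem norm_pow_sub (y : S3) (k : ℕ) : ‖((y ^ k : S3) : ℍ[ℝ]) - 1‖ ≤ k * ‖(y : ℍ[ℝ]) - 1‖ := by
  induction k with
  | zero => simp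
  | succ k ih =>
    rw [pow_succ]
    refine (norm_mul_sub _ _).trans ?_
    push_cast at ih ⊢
    linarith

theorem norm_pow_sub_sub (y : S3) (k : ℕ) :
    ‖((y ^ k : S3) : ℍ[ℝ]) - 1 - (k : ℤ) • ((y : ℍ[ℝ]) - 1)‖ ≤ k ^ 2 * ‖(y : ℍ[ℝ]) - 1‖ ^ 2 := by
  induction k with
  | zero => simp
  | succ k ih =>
    have h1 := norm_mul_sub_sub (y ^ k) y ((k : ℤ) • ((y : ℍ[ℝ]) - 1)) ((y : ℍ[ℝ]) - 1)
    have h2 := norm_pow_sub y k
    have h3 := norm_nonneg ((y : ℍ[ℝ]) - 1)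
    rw [pow_succ, Nat.cast_succ, add_smul, one_smul]
    refine h1.trans ?_
    rw [sub_self, norm_zero, add_zero]
    have h4 := mul_le_mul_of_nonneg_right h2 h3
    have h5 : (0 : ℝ) ≤ k := Nat.cast_nonneg k
    push_cast at ih h4 ⊢
    nlinarith [sq_nonneg ‖(y : ℍ[ℝ]) - 1‖]

theorem norm_zpow_sub (y : S3) (k : ℤ) :
    ‖((y ^ k : S3) : ℍ[ℝ]) - 1‖ ≤ |(k : ℝ)| * ‖(y : ℍ[ℝ]) - 1‖ := by
  obtain ⟨n, rfl | rfl⟩ := k.eq_nat_or_neg
  · simpa using norm_pow_sub y n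
  · rw [zpow_neg, norm_inv_sub]
    simpa using norm_pow_sub y n

theorem norm_zpow_sub_sub (y : S3) (k : ℤ) :
    ‖((y ^ k : S3) : ℍ[ℝ]) - 1 - k • ((y : ℍ[ℝ]) - 1)‖ ≤
      2 * (k : ℝ) ^ 2 * ‖(y : ℍ[ℝ]) - 1‖ ^ 2 := by
  obtain ⟨n, rfl | rfl⟩ := k.eq_nat_or_neg
  · rw [zpow_natCast]
    refine (norm_pow_sub_sub y n).trans ?_
    push_cast
    nlinarith [sq_nonneg ((n : ℝ) * ‖(y : ℍ[ℝ]) - 1‖)]
  · rw [zpow_neg, zpow_natCast, neg_smul]
    refine (norm_inv_sub_sub _ _).trans ?_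
    have h1 := norm_pow_sub_sub y n
    have h2 := norm_pow_sub y n
    have h3 := mul_le_mul h2 h2 (norm_nonneg _) ((norm_nonneg _).trans h2)
    push_cast at h1 h3 ⊢
    nlinarith

section
variable {H : Type} [Group H]

theorem lc_tr {α M : Type} [AddCommGroup M] (f : H × α → M) (b : H) (m : H × α →₀ ℤ) :
    Finsupp.linearCombination ℤ f (tr b m) =
      Finsupp.linearCombination ℤ (fun β => f (b * β.1, β.2)) m := by
  induction m using Finsupp.induction_linear with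
  | zero => simp
  | add a b ha hb => simp [ha, hb]
  | single β k => obtain ⟨h, r⟩ := β; simp

theorem lc_congr {α M : Type} [AddCommGroup M] {f g : α → M} {m : α →₀ ℤ}
    (h : ∀ β ∈ m.support, f β = g β) :
    Finsupp.linearCombination ℤ f m = Finsupp.linearCombination ℤ g m := by
  simp only [Finsupp.linearCombination_apply]
  exact Finsupp.sum_congr fun β hβ => by rw [h β hβ]

theorem lc_eq_zero {α M : Type} [AddCommGroup M] {f : α → M} {m : α →₀ ℤ}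
    (h : ∀ β ∈ m.support, f β = 0) : Finsupp.linearCombination ℤ f m = 0 := by
  rw [lc_congr (g := fun _ => 0) h]
  simp [Finsupp.linearCombination_apply]

variable {P : HPres H}

theorem fill_support (hP : P.Asph) {κ w : FreeGroup P.S} {Z : Multiset H}
    (h : Fill P.gen κ w Z) (hκ : FreeGroup.lift P.gen κ = 1) {mκ m : H × P.R →₀ ℤ}
    (h1 : P.d2 mκ = chain P.gen 1 κ) {p : H} (h2 : P.d2 m = chain P.gen p w) :
    ∀ β ∈ m.support, ∃ z ∈ Z, ∃ β' ∈ mκ.support, β = (p * z * β'.1, β'.2) := by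
  have h3 : m = (Z.map fun z => tr (p * z) mκ).sum := by
    apply hP.inj
    rw [h2, h.chain_eq hκ, map_multiset_sum, Multiset.map_map]
    congr 1
    refine Multiset.map_congr rfl fun z _ => ?_
    simp [HPres.d2_tr, h1, tr_chain]
  rintro ⟨k, r⟩ hβ
  by_contra hc
  push Not at hc
  apply Finsupp.mem_support_iff.1 hβ
  rw [h3]
  change Finsupp.applyAddHom (k, r) _ = 0
  rw [map_multiset_sum, Multiset.map_map]
  refine Multiset.sum_eq_zero fun t ht => ?_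
  obtain ⟨z, hz, rfl⟩ := Multiset.mem_map.1 ht
  by_contra hne
  rw [Function.comp_apply, Finsupp.applyAddHom_apply, tr_apply] at hne
  exact hc z hz _ (Finsupp.mem_support_iff.2 hne) (by simp [mul_assoc])

theorem curv_eq {G : Type} [Group G] {Q : H × P.R → FreeGroup P.S}
    (hQ : ∀ β, FreeGroup.lift P.gen (Q β) = β.1) (φ : H × P.S → G) (β : H × P.R) :
    P.curv Q φ β = hol P.gen φ 1 (Q β) * hol P.gen φ β.1 (P.rel β.2) *
      (hol P.gen φ 1 (Q β))⁻¹ := by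
  rw [HPres.curv, hol_conj _ _ _ _ _ (P.rel_one _), hQ, one_mul]

theorem curv_translate {G : Type} [Group G] {Q Q' : H × P.R → FreeGroup P.S}
    (hQ : ∀ β, FreeGroup.lift P.gen (Q β) = β.1) (hQ' : ∀ β, FreeGroup.lift P.gen (Q' β) = β.1)
    (φ : H × P.S → G) (b : H) (β : H × P.R) :
    ∃ c : G, P.curv Q' (fun e => φ (b * e.1, e.2)) β = c * P.curv Q φ (b * β.1, β.2) * c⁻¹ := by
  rw [curv_eq hQ, curv_eq hQ', hol_translate, hol_translate]
  exact ⟨hol P.gen φ (b * 1) (Q' β) * (hol P.gen φ 1 (Q (b * β.1, β.2)))⁻¹, by group⟩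

end

variable {V : Type} {Γ : SimpleGraph V} (v₀ : V)

/-- The vertices of the scaled complex. -/
def pos (Γ : SimpleGraph V) (s : ℕ) (v : V) : H Γ :=
  ⟨(gen Γ v₀ ^ s)⁻¹ * gen Γ v₀ * gen Γ v ^ s * (gen Γ v₀)⁻¹, (mem_H Γ).2 (by simp)⟩

theorem pos_mul (s : ℕ) {u v : V} (h : Γ.Adj u v) :
    pos v₀ Γ s u * FreeGroup.lift (gen0 Γ v₀) (eW u v) ^ s = pos v₀ Γ s v := by
  apply Subtype.ext
  rw [Subgroup.coe_mul, Subgroup.coe_pow, coe_eW, conj_pow, (gen_comm h).inv_left.mul_pow]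
  simp only [pos]
  group

variable [LinearOrder V]

theorem ab_pos (s : ℕ) (v x : V) :
    ab Γ x (pos v₀ Γ s v) = (if v = x then (s : ℤ) else 0) - if v₀ = x then (s : ℤ) else 0 := by
  simp only [pos, ab_mul, ab_inv, ab_gen, ab_pow]
  split_ifs <;> ring

/-- The lattice points of a scaled triangle. -/
def lat (s : ℕ) (Δ : E3 Γ) (i j : ℕ) : H Γ :=
  pos v₀ Γ s Δ.1.1 * FreeGroup.lift (gen0 Γ v₀) Δ.a ^ i * FreeGroup.lift (gen0 Γ v₀) Δ.b ^ j

theorem ab_lat (s : ℕ) (Δ : E3 Γ) (i j : ℕ) (x : V) :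
    ab Γ x (lat v₀ s Δ i j) = (if Δ.1.1 = x then (s : ℤ) - i else 0) +
      (if Δ.1.2.1 = x then (i : ℤ) - j else 0) + (if Δ.1.2.2 = x then (j : ℤ) else 0) -
        if v₀ = x then (s : ℤ) else 0 := by
  simp only [lat, Subgroup.coe_mul, Subgroup.coe_pow, ab_mul, ab_pow, ab_pos, E3.a, E3.b, ab_eW]
  split_ifs <;> ring

theorem lat_mul (s : ℕ) (Δ : E3 Γ) (i j k l : ℕ) :
    lat v₀ s Δ i j * (FreeGroup.lift (gen0 Γ v₀) Δ.a ^ k * FreeGroup.lift (gen0 Γ v₀) Δ.b ^ l) =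
      lat v₀ s Δ (i + k) (j + l) := by
  have h := ((Δ.commute v₀).pow_pow k j).eq
  simp only [lat, pow_add, mul_assoc]
  rw [← mul_assoc (_ ^ j), ← h, mul_assoc]

theorem lat_mul_tri (s : ℕ) (Δ : E3 Γ) (i k x : ℕ) :
    lat v₀ s Δ i 0 * (FreeGroup.lift (gen0 Γ v₀) Δ.a ^ k *
      FreeGroup.lift (gen0 Γ v₀) (Δ.a * Δ.b) ^ x) = lat v₀ s Δ (i + k + x) x := by
  rw [map_mul, (Δ.commute v₀).mul_pow, ← mul_assoc (_ ^ k), ← pow_add, lat_mul, zero_add,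
    add_assoc]

theorem lat_mul_par (s : ℕ) (Δ : E3 Γ) (i y x : ℕ) :
    lat v₀ s Δ i 0 * (FreeGroup.lift (gen0 Γ v₀) Δ.b ^ y *
      FreeGroup.lift (gen0 Γ v₀) (Δ.a * Δ.b) ^ x) = lat v₀ s Δ (i + x) (y + x) := by
  rw [map_mul, (Δ.commute v₀).mul_pow, ← mul_assoc (_ ^ y),
    ← ((Δ.commute v₀).pow_pow x y).eq, mul_assoc, ← pow_add, lat_mul, zero_add]

/-- Two elements with a very different coordinate. -/
def Far (μ : ℕ) (h h' : H Γ) : Prop := ∃ x, (μ : ℤ) ≤ |ab Γ x h - ab Γ x h'|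

/-- An element with small coordinates. -/
def Small (R : ℕ) (k : H Γ) : Prop := ∀ x, |ab Γ x k| ≤ R

theorem Far.ne {μ R : ℕ} {h h' k k' : H Γ} (h1 : Far μ h h') (h2 : Small R k) (h3 : Small R k')
    (h4 : 2 * R < μ) : h * k ≠ h' * k' := by
  intro h5
  obtain ⟨x, hx⟩ := h1
  have h6 := congrArg (fun a : H Γ => ab Γ x a) h5
  simp only [Subgroup.coe_mul, ab_mul] at h6
  have a2 := abs_le.1 (h2 x)
  have a3 := abs_le.1 (h3 x)
  rcases le_abs.1 hx with h7 | h7 <;> omega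

theorem exists_small [Fintype V] (F : Finset (H Γ)) : ∃ R, ∀ k ∈ F, Small R k := by
  refine ⟨(F ×ˢ Finset.univ).sup fun p : H Γ × V => (ab Γ p.2 p.1).natAbs, fun k hk x => ?_⟩
  rw [← Int.natCast_natAbs, Nat.cast_le]
  exact Finset.le_sup (f := fun p : H Γ × V => (ab Γ p.2 p.1).natAbs) (b := (k, x)) (by simp [hk])

theorem Small.mono {R R' : ℕ} {k : H Γ} (h : Small R k) (h' : R ≤ R') : Small R' k :=
  fun x => (h x).trans (Nat.cast_le.2 h')

theorem far_of_ne {μ s i j : ℕ} (i' j' : ℕ) {Δ Δ' : E3 Γ} (h : Δ' ≠ Δ) (h1 : μ + i ≤ s)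
    (h2 : μ + j ≤ i) (h3 : μ ≤ j) : Far μ (lat v₀ s Δ' i' j') (lat v₀ s Δ i j) := by
  obtain ⟨⟨u, v, w⟩, a1, a2, a3⟩ := Δ
  obtain ⟨⟨u', v', w'⟩, b1, b2, b3⟩ := Δ'
  simp only at a1 a2 b1 b2
  have a4 := a1.trans a2
  by_cases c1 : u' ≠ u ∧ v' ≠ u ∧ w' ≠ u
  · refine ⟨u, ?_⟩
    simp only [ab_lat, if_neg c1.1, if_neg c1.2.1, if_neg c1.2.2, if_neg a1.ne', if_neg a4.ne',
      if_true]
    rw [le_abs]; omega
  by_cases c2 : u' ≠ v ∧ v' ≠ v ∧ w' ≠ v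
  · refine ⟨v, ?_⟩
    simp only [ab_lat, if_neg c2.1, if_neg c2.2.1, if_neg c2.2.2, if_neg a1.ne, if_neg a2.ne',
      if_true]
    rw [le_abs]; omega
  by_cases c3 : u' ≠ w ∧ v' ≠ w ∧ w' ≠ w
  · refine ⟨w, ?_⟩
    simp only [ab_lat, if_neg c3.1, if_neg c3.2.1, if_neg c3.2.2, if_neg a4.ne, if_neg a2.ne,
      if_true]
    rw [le_abs]; omega
  exfalso
  apply h
  simp only [not_and_or, not_not] at c1 c2 c3
  rcases c1 with c1 | c1 | c1 <;> rcases c2 with c2 | c2 | c2 <;> rcases c3 with c3 | c3 | c3 <;>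
    first
    | (exfalso; order)
    | (subst c1 c2 c3; rfl)

theorem far_same {μ s i j i' j' : ℕ} (Δ : E3 Γ)
    (h : μ + i ≤ i' ∨ μ + i' ≤ i ∨ μ + i' + j ≤ i + j' ∨ μ + j' ≤ j) :
    Far μ (lat v₀ s Δ i' j') (lat v₀ s Δ i j) := by
  obtain ⟨⟨u, v, w⟩, a1, a2, a3⟩ := Δ
  simp only at a1 a2
  have a4 := a1.trans a2
  rcases h with h | h | h | h
  · refine ⟨u, ?_⟩
    simp only [ab_lat, if_neg a1.ne', if_neg a4.ne', if_true]
    rw [le_abs]; omega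
  · refine ⟨u, ?_⟩
    simp only [ab_lat, if_neg a1.ne', if_neg a4.ne', if_true]
    rw [le_abs]; omega
  · refine ⟨v, ?_⟩
    simp only [ab_lat, if_neg a1.ne, if_neg a2.ne', if_true]
    rw [le_abs]; omega
  · refine ⟨w, ?_⟩
    simp only [ab_lat, if_neg a4.ne, if_neg a2.ne, if_true]
    rw [le_abs]; omega

end Geom

end Crest.Agent.R197
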