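import Crest.Agent.R197.Defs

/-!
# Row 197: fillings of triangles and parallelograms in a flat; statements of the local steps
-/

set_option autoImplicit false

noncomputable section

namespace Crest.Agent.R197

open Crest.Agent.Lib.Degree
open scoped Quaternion

section Fill
variable {H S G : Type} [Group H] [Group G] (gen : S → H)

/-- `w` is a product of conjugates of the cell `κ`, placed at the positions `Z`. -/
inductive Fill (κ : FreeGroup S) : FreeGroup S → Multiset H → Prop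
  | one : Fill κ 1 0
  | cell (u : FreeGroup S) : Fill κ (u * κ * u⁻¹) {FreeGroup.lift gen u}
  | mul {w w' : FreeGroup S} {Z Z' : Multiset H} :
      Fill κ w Z → Fill κ w' Z' → Fill κ (w * w') (Z + Z')

variable {gen} {κ w : FreeGroup S} {Z : Multiset H}

theorem Fill.conj (h : Fill gen κ w Z) (u : FreeGroup S) :
    Fill gen κ (u * w * u⁻¹) (Z.map (FreeGroup.lift gen u * ·)) := by
  induction h with
  | one => simpa using Fill.one
  | cell v =>
    have := Fill.cell (gen := gen) (κ := κ) (u * v)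
    simpa [mul_assoc] using this
  | mul _ _ h1 h2 =>
    have := h1.mul h2
    simpa [mul_assoc] using this

theorem Fill.null (h : Fill gen κ w Z) (hκ : FreeGroup.lift gen κ = 1) :
    FreeGroup.lift gen w = 1 := by
  induction h with
  | one => simp
  | cell v => simp [hκ]
  | mul _ _ h1 h2 => simp [h1, h2]

theorem Fill.flat (h : Fill gen κ w Z) (hκ : FreeGroup.lift gen κ = 1) (φ : H × S → G) (p : H)
    (hZ : ∀ z ∈ Z, hol gen φ (p * z) κ = 1) : hol gen φ p w = 1 := by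
  induction h with
  | one => simp
  | cell v => simp [hol_conj _ _ _ _ _ hκ, hZ]
  | mul h1 _ ih1 ih2 =>
    rw [hol_mul, h1.null hκ, mul_one, ih1 fun z hz => hZ z (Multiset.mem_add.2 (.inl hz)),
      ih2 fun z hz => hZ z (Multiset.mem_add.2 (.inr hz)), one_mul]

theorem Fill.chain_eq (h : Fill gen κ w Z) (hκ : FreeGroup.lift gen κ = 1) (p : H) :
    chain gen p w = (Z.map fun z => chain gen (p * z) κ).sum := by
  induction h with
  | one => simp
  | cell v => simp [chain_conj _ _ _ _ hκ]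
  | mul h1 _ ih1 ih2 => simp [chain_mul, h1.null hκ, ih1, ih2]

theorem Fill.map {S' : Type} {gen' : S' → H} (h : Fill gen κ w Z)
    (ω : FreeGroup S →* FreeGroup S')
    (hω : ∀ w, FreeGroup.lift gen' (ω w) = FreeGroup.lift gen w) : Fill gen' (ω κ) (ω w) Z := by
  induction h with
  | one => simpa using Fill.one
  | cell v => simpa [hω] using Fill.cell (gen := gen') (κ := ω κ) (ω v)
  | mul _ _ ih1 ih2 => simpa using ih1.mul ih2

/-- The unit cell. -/
def cellW (a b : FreeGroup S) : FreeGroup S := a * b * a⁻¹ * b⁻¹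

/-- The boundary of the triangle. -/
def triW (a b : FreeGroup S) (m : ℕ) : FreeGroup S := a ^ m * b ^ m * ((a * b) ^ m)⁻¹

/-- The boundary of the parallelogram. -/
def parW (a b : FreeGroup S) (m n : ℕ) : FreeGroup S :=
  (a * b) ^ m * b ^ n * ((a * b) ^ m)⁻¹ * (b ^ n)⁻¹

variable (gen) (a b : FreeGroup S)

theorem fill_row (m : ℕ) : Fill gen (cellW a b) (parW a b m 1)
    ((Multiset.range m).map fun x => FreeGroup.lift gen (a * b) ^ x) := by
  induction m with
  | zero => simpa [parW] using Fill.one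
  | succ m ih =>
    have := (Fill.cell (gen := gen) (κ := cellW a b) ((a * b) ^ m)).mul ih
    convert this using 1
    · simp only [parW, cellW, pow_succ]; group
    · simp [Multiset.range_succ]

theorem fill_par (m n : ℕ) : ∃ Z, Fill gen (cellW a b) (parW a b m n) Z ∧
    ∀ z ∈ Z, ∃ x < m, ∃ y < n,
      z = FreeGroup.lift gen b ^ y * FreeGroup.lift gen (a * b) ^ x := by
  induction n with
  | zero => exact ⟨0, by simpa [parW] using Fill.one, by simp⟩
  | succ n ih =>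
    obtain ⟨Z, h1, h2⟩ := ih
    refine ⟨_, ?_, fun z (hz : z ∈ Z + ((Multiset.range m).map
      fun x => FreeGroup.lift gen (a * b) ^ x).map (FreeGroup.lift gen (b ^ n) * ·)) => ?_⟩
    · convert h1.mul ((fill_row gen a b m).conj (b ^ n)) using 1
      simp only [parW, pow_succ]; group
    · rcases Multiset.mem_add.1 hz with hz | hz
      · obtain ⟨x, hx, y, hy, rfl⟩ := h2 z hz
        exact ⟨x, hx, y, by omega, rfl⟩
      · simp only [Multiset.mem_map, Multiset.mem_range] at hz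
        obtain ⟨_, ⟨x, hx, rfl⟩, rfl⟩ := hz
        exact ⟨x, hx, n, by omega, by simp⟩

/-- The cells of the triangle. -/
def triM : ℕ → Multiset (ℕ × ℕ)
  | 0 => 0
  | m + 1 => (triM m).map (fun p => (p.1 + 1, p.2)) + (Multiset.range m).map fun x => (1, x)

theorem mem_triM {m : ℕ} {p : ℕ × ℕ} : p ∈ triM m ↔ 1 ≤ p.1 ∧ p.1 + p.2 < m := by
  induction m generalizing p with
  | zero => simp [triM]
  | succ m ih =>
    obtain ⟨k, x⟩ := p
    simp only [triM, Multiset.mem_add, Multiset.mem_map, Multiset.mem_range, ih, Prod.mk.injEq]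
    constructor
    · rintro (⟨q, h, rfl, rfl⟩ | ⟨y, h, rfl, rfl⟩) <;> omega
    · rintro ⟨h1, h2⟩
      rcases h1.eq_or_lt with rfl | h1
      · exact .inr ⟨x, by omega, rfl, rfl⟩
      · exact .inl ⟨(k - 1, x), by simp only; omega, by simp only; omega, rfl⟩

theorem nodup_triM (m : ℕ) : (triM m).Nodup := by
  induction m with
  | zero => simp [triM]
  | succ m ih =>
    rw [triM, Multiset.nodup_add]
    refine ⟨ih.map fun p q h => ?_, (Multiset.nodup_range m).map fun x y h => by simpa using h, ?_⟩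
    · simp only [Prod.mk.injEq, add_left_inj] at h
      exact Prod.ext h.1 h.2
    · rw [Multiset.disjoint_left]
      intro p h1 h2
      simp only [Multiset.mem_map, mem_triM] at h1 h2
      obtain ⟨q, hq, rfl⟩ := h1
      obtain ⟨x, -, hx⟩ := h2
      simp only [Prod.mk.injEq] at hx
      omega

theorem fill_tri (m : ℕ) : Fill gen (cellW a b) (triW a b m)
    ((triM m).map fun p => FreeGroup.lift gen a ^ p.1 * FreeGroup.lift gen (a * b) ^ p.2) := by
  induction m with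
  | zero => simpa [triW, triM] using Fill.one
  | succ m ih =>
    convert (ih.conj a).mul ((fill_row gen a b m).conj a) using 1
    · simp only [triW, parW, pow_succ' a, pow_succ b, pow_succ' (a * b), pow_zero]
      generalize (a * b) ^ m = c
      group
    · simp [triM, pow_succ', mul_assoc]

end Fill

section
variable {V : Type} (Γ : SimpleGraph V)

/-- The move from `u` to `v` in the slab. -/
def eW (u v : V) : FreeGroup (Bool × V) := (FreeGroup.of (false, u))⁻¹ * FreeGroup.of (false, v)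

theorem eW_mul (u v w : V) : eW u v * eW v w = eW u w := by simp [eW, mul_assoc]

theorem coe_eW (v₀ u v : V) : ((FreeGroup.lift (gen0 Γ v₀) (eW u v) : H Γ) : A Γ) =
    gen Γ v₀ * ((gen Γ u)⁻¹ * gen Γ v) * (gen Γ v₀)⁻¹ := by
  simp [eW, gen0, mul_assoc]

variable [LinearOrder V]

theorem ab_eW (v₀ u v x : V) : ab Γ x (FreeGroup.lift (gen0 Γ v₀) (eW u v) : H Γ) =
    (if v = x then 1 else 0) - if u = x then 1 else 0 := by
  rw [coe_eW]
  simp only [ab_mul, ab_inv, ab_gen]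
  ring

variable {Γ}

/-- The first side of a triangle. -/
def E3.a (Δ : E3 Γ) : FreeGroup (Bool × V) := eW Δ.1.1 Δ.1.2.1

/-- The second side of a triangle. -/
def E3.b (Δ : E3 Γ) : FreeGroup (Bool × V) := eW Δ.1.2.1 Δ.1.2.2

theorem E3.commute (v₀ : V) (Δ : E3 Γ) :
    Commute (FreeGroup.lift (gen0 Γ v₀) Δ.a) (FreeGroup.lift (gen0 Γ v₀) Δ.b) := by
  obtain ⟨⟨u, v, w⟩, -, -, a1, a2, a3⟩ := Δ
  apply Subtype.ext
  have h : Commute ((gen Γ u)⁻¹ * gen Γ v) ((gen Γ v)⁻¹ * gen Γ w) :=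
    ((gen_comm a1).inv_inv.mul_right (gen_comm a3).inv_left).mul_left
      ((Commute.refl _).inv_right.mul_right (gen_comm a2))
  simp only [E3.a, E3.b, Subgroup.coe_mul, coe_eW]
  simp only [mul_assoc, inv_mul_cancel_left]
  simpa only [mul_assoc] using congrArg (fun x => gen Γ v₀ * (x * (gen Γ v₀)⁻¹)) h.eq

theorem E3.cell_null (v₀ : V) (Δ : E3 Γ) : FreeGroup.lift (gen0 Γ v₀) (cellW Δ.a Δ.b) = 1 := by
  simp only [cellW, map_mul, map_inv, (Δ.commute v₀).eq]
  group

/-- The three edges of a triangle. -/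
def E3.e1 (Δ : E3 Γ) : E2 Γ := ⟨(Δ.1.1, Δ.1.2.1), Δ.2.1, Δ.2.2.2.1⟩

@[inherit_doc E3.e1]
def E3.e2 (Δ : E3 Γ) : E2 Γ := ⟨(Δ.1.2.1, Δ.1.2.2), Δ.2.2.1, Δ.2.2.2.2.1⟩

@[inherit_doc E3.e1]
def E3.e3 (Δ : E3 Γ) : E2 Γ := ⟨(Δ.1.1, Δ.1.2.2), Δ.2.1.trans Δ.2.2.1, Δ.2.2.2.2.2⟩

end

/-- A finitely supported `2`-cochain that counts large triangles around its centre once. -/
def LocalStmt : Prop :=
  ∀ (V : Type) [Fintype V] [LinearOrder V] (Γ : SimpleGraph V) (v₀ : V),
    (P0 Γ v₀).Acyclic → ∀ P : HPres (H Γ), P.Asph →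
      ∀ ω : FreeGroup (Bool × V) →* FreeGroup P.S,
        (∀ w, FreeGroup.lift P.gen (ω w) = FreeGroup.lift (gen0 Γ v₀) w) → ∀ Δ : E3 Γ,
          ∃ (ε : H Γ × P.R →₀ ℤ) (R : ℕ), ∀ μ : ℕ, R ≤ μ → ∀ m : H Γ × P.R →₀ ℤ,
            P.d2 m = chain P.gen 1 (ω (triW Δ.a Δ.b (3 * μ))) →
              Finsupp.linearCombination ℤ (fun β => ε ((FreeGroup.lift (gen0 Γ v₀) Δ.a ^ μ *
                FreeGroup.lift (gen0 Γ v₀) (Δ.a * Δ.b) ^ μ)⁻¹ * β.1, β.2)) m = 1

/-- The path of almost flat connections. -/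
def PsiStmt : Prop :=
  ∀ (V : Type) [Fintype V] [LinearOrder V] (Γ : SimpleGraph V) [DecidableRel Γ.Adj]
    (D : LData V Γ) (η : ℝ), 0 < η →
      ∃ (n : ℕ) (ψ : ℝ → E2 Γ → S3) (Λ : ℝ → E3 Γ → ℕ → S3),
        (∀ e, Continuous fun s => ψ s e) ∧ (∀ Δ j, Continuous fun s => Λ s Δ j) ∧
        (∀ e, ψ 0 e = 1) ∧ (∀ Δ j, Λ 0 Δ j = 1) ∧
        (∀ e, ψ 1 e = D.θ e.1.1 e.1.2) ∧ (∀ Δ j, Λ 1 Δ j = D.θ Δ.1.1 Δ.1.2.2) ∧
        (∀ s Δ, Λ s Δ 0 = ψ s Δ.e1 * ψ s Δ.e2) ∧ (∀ s Δ, Λ s Δ (n + 1) = ψ s Δ.e3) ∧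
        ∀ s Δ, ∀ j ≤ n, ‖((Λ s Δ j * (Λ s Δ (j + 1))⁻¹ : S3) : ℍ[ℝ]) - 1‖ ≤ η

end Crest.Agent.R197
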