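import Crest.Agent.R197.Defs

/-!
# Row 197: the barycentric subdivision of the spine of the Poincaré sphere

The data were found by computer: the vertices are the orbits of the binary icosahedral group on
the tetrahedra (`0`-`4`), triangles (`5`-`14`) and edges (`15`-`20`) of the `600`-cell.
-/

set_option autoImplicit false

noncomputable section

namespace Crest.Agent.R197

open Crest.Agent.Lib.Degree
open scoped Quaternion

namespace LC

/-! ## The data -/

/-- The adjacency table. -/
def adjN : ℕ :=
  0x647f0354f81657c06e3e01cbf001fff0004b4000a7000668004cc006150014680114c00a52003230007fc580fc7207ec303fa441fa920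

/-- The table of the connection. -/
def thN : ℕ :=
  0x60600000000000000000050000000000000000000000202000000000000000000005000000000000000060062000000000000000001000000000000000000000330c0000000000000000b000c000000000000000c0000c00000000000000060006c0000000000000000700a4700070aa00000000110a000017000100000063939603300009900000021202010000000010000063336c030300000000000

/-- Four times the unit and its twelve neighbours among the icosians. -/
def qL : List ℍ[ℤ√5] :=
  [⟨⟨4,0⟩,⟨0,0⟩,⟨0,0⟩,⟨0,0⟩⟩, ⟨⟨1,1⟩,⟨-2,0⟩,⟨-1,1⟩,⟨0,0⟩⟩, ⟨⟨1,1⟩,⟨-2,0⟩,⟨1,-1⟩,⟨0,0⟩⟩,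
  ⟨⟨1,1⟩,⟨-1,1⟩,⟨0,0⟩,⟨-2,0⟩⟩, ⟨⟨1,1⟩,⟨-1,1⟩,⟨0,0⟩,⟨2,0⟩⟩, ⟨⟨1,1⟩,⟨0,0⟩,⟨-2,0⟩,⟨-1,1⟩⟩,
  ⟨⟨1,1⟩,⟨0,0⟩,⟨-2,0⟩,⟨1,-1⟩⟩, ⟨⟨1,1⟩,⟨0,0⟩,⟨2,0⟩,⟨-1,1⟩⟩, ⟨⟨1,1⟩,⟨0,0⟩,⟨2,0⟩,⟨1,-1⟩⟩,
  ⟨⟨1,1⟩,⟨1,-1⟩,⟨0,0⟩,⟨-2,0⟩⟩, ⟨⟨1,1⟩,⟨1,-1⟩,⟨0,0⟩,⟨2,0⟩⟩, ⟨⟨1,1⟩,⟨2,0⟩,⟨-1,1⟩,⟨0,0⟩⟩,
  ⟨⟨1,1⟩,⟨2,0⟩,⟨1,-1⟩,⟨0,0⟩⟩]

/-- The masks of the cliques. -/
def cl : List ℕ :=
  [32801, 65569, 1048609, 33025, 131329, 262401, 67585, 264193, 526337, 139265, 532481, 1056769,
  32802, 65570, 1048610, 33282, 131586, 524802, 69634, 135170, 266242, 278530, 540674, 1064962,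
  32836, 262212, 1048644, 32900, 65668, 524420, 69636, 135172, 266244, 139268, 532484, 1056772,
  32840, 262216, 1048648, 33288, 131592, 524808, 66568, 132104, 1049608, 67592, 264200, 526344,
  32912, 65680, 524432, 33040, 131344, 262416, 66576, 132112, 1049616, 278544, 540688, 1064976,
  33, 257, 2049, 8193, 32769, 65537, 131073, 262145, 524289, 1048577, 34, 514, 4098, 16386, 32770,
  65538, 131074, 262146, 524290, 1048578, 68, 132, 4100, 8196, 32772, 65540, 131076, 262148,
  524292, 1048580, 72, 520, 1032, 2056, 32776, 65544, 131080, 262152, 524296, 1048584, 144, 272,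
  1040, 16400, 32784, 65552, 131088, 262160, 524304, 1048592, 32800, 65568, 1048608, 32832,
  262208, 1048640, 32896, 65664, 524416, 33024, 131328, 262400, 33280, 131584, 524800, 66560,
  132096, 1049600, 67584, 264192, 526336, 69632, 135168, 266240, 139264, 532480, 1056768, 278528,
  540672, 1064960, 1, 2, 4, 8, 16, 32, 64, 128, 256, 512, 1024, 2048, 4096, 8192, 16384, 32768,
  65536, 131072, 262144, 524288, 1048576, 0]

/-- The contraction: the masks that occur with sign `+` and with sign `-`. -/
def sT : List (ℕ × List ℕ × List ℕ) :=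
  [(33, [32801], []),
   (257, [131329, 1056769, 139268], [139265]),
   (2049, [32801, 131329, 264193, 1056769, 1048610, 524802, 135170, 278530, 1048644, 266244,
   139268, 262216, 131592, 1049608, 526344, 262416, 132112, 1064976], [1048609, 262401, 139265,
   32802, 131586, 266242, 1064962, 262212, 135172, 1056772, 1048648, 524808, 132104, 264200,
   131344, 1049616, 278544]),
   (8193, [1056769], []),
   (65537, [32801, 131329, 1056769, 65570, 33282, 135170, 1048644, 32900, 69636, 139268, 32840,
   131592, 1049608, 65680, 33040, 132112], [65569, 33025, 139265, 32802, 131586, 69634, 32836,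
   65668, 135172, 1056772, 1048648, 33288, 132104, 32912, 131344, 66576]),
   (131073, [1056769, 139268], [139265]),
   (262145, [32801, 131329, 67585, 532481, 65570, 524802, 135170, 524420, 69636, 139268, 131592,
   66568, 526344, 65680, 262416, 132112], [65569, 262401, 526337, 139265, 32802, 131586, 69634,
   65668, 135172, 532484, 524808, 132104, 67592, 524432, 131344, 66576]),
   (524289, [32801, 131329, 264193, 1056769, 1048610, 524802, 135170, 278530, 1048644, 266244,
   139268, 262216, 131592, 1049608, 526344, 262416, 132112, 1064976], [1048609, 262401, 526337,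
   139265, 32802, 131586, 266242, 1064962, 262212, 135172, 1056772, 1048648, 524808, 132104,
   264200, 131344, 1049616, 278544]),
   (34, [32802], []),
   (514, [33282], []),
   (4098, [266242, 540674, 278544], [278530, 540688]),
   (16386, [540674], [540688]),
   (65538, [131329, 1056769, 33282, 135170, 1048644, 32900, 69636, 139268, 32840, 131592, 1049608,
   65680, 33040, 132112], [33025, 139265, 131586, 69634, 32836, 65668, 135172, 1056772, 1048648,
   33288, 132104, 32912, 131344, 66576]),
   (131074, [262401, 526337, 1056769, 33282, 266242, 540674, 262212, 32900, 135172, 532484, 32840,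
   524808, 264200, 524432, 33040, 278544], [33025, 264193, 532481, 524802, 135170, 278530, 32836,
   524420, 266244, 262216, 33288, 526344, 32912, 262416, 540688]),
   (262146, [540674, 278544], [278530, 540688]),
   (1048578, [1048609, 32802], [32801, 1048610]),
   (68, [1048644], [1056772, 1048648]),
   (132, [32801, 131329, 264193, 532481, 1048610, 524802, 135170, 278530, 1048644, 524420, 266244,
   139268, 262216, 131592, 1049608, 526344, 262416, 132112, 1064976], [1048609, 262401, 526337,
   139265, 32802, 131586, 266242, 1064962, 262212, 135172, 532484, 1056772, 1048648, 524808,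
   132104, 264200, 131344, 1049616, 278544]),
   (4100, [33025, 264193, 532481, 524802, 32836, 524420, 266244, 262216, 33288, 526344, 32912,
   262416], [262401, 526337, 1056769, 33282, 262212, 32900, 532484, 32840, 524808, 264200, 524432,
   33040]),
   (32772, [65569, 33025, 264193, 1048610, 69634, 278530, 1048644, 65668, 266244, 262216, 1049608,
   67592, 32912, 262416, 66576, 1064976], [1048609, 262401, 67585, 65570, 266242, 1064962, 262212,
   32900, 69636, 1056772, 1048648, 66568, 264200, 65680, 33040, 1049616, 278544]),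
   (65540, [131329, 264193, 532481, 524802, 135170, 278530, 1048644, 524420, 266244, 139268,
   262216, 131592, 1049608, 526344, 65680, 262416, 132112, 540688], [262401, 526337, 139265,
   131586, 266242, 540674, 262212, 65668, 135172, 532484, 1056772, 1048648, 524808, 132104,
   264200, 524432, 131344, 66576, 278544]),
   (262148, [33025, 264193, 532481, 524802, 32836, 524420, 262216, 33288, 526344, 32912, 262416],
   [262401, 526337, 1056769, 33282, 262212, 32900, 532484, 32840, 524808, 264200, 524432, 33040]),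
   (524292, [32801, 131329, 264193, 532481, 1048610, 524802, 135170, 278530, 1048644, 266244,
   139268, 262216, 131592, 1049608, 526344, 262416, 132112, 1064976], [1048609, 262401, 526337,
   139265, 32802, 131586, 266242, 1064962, 262212, 135172, 532484, 1056772, 1048648, 524808,
   132104, 264200, 131344, 1049616, 278544]),
   (1048580, [], [1056772]),
   (520, [65569, 33025, 264193, 1048610, 69634, 278530, 32836, 65668, 266244, 262216, 33288,
   1049608, 67592, 32912, 262416, 66576, 1064976], [1048609, 262401, 67585, 65570, 266242,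
   1064962, 262212, 32900, 69636, 32840, 66568, 264200, 65680, 33040, 1049616, 278544]),
   (1032, [1049608], []),
   (2056, [65569, 33025, 264193, 1048610, 524802, 69634, 278530, 32836, 65668, 266244, 262216,
   33288, 1049608, 67592, 526344, 32912, 262416, 66576, 1064976], [1048609, 262401, 67585, 65570,
   33282, 266242, 1064962, 262212, 32900, 69636, 32840, 524808, 66568, 264200, 65680, 33040,
   1049616, 278544]),
   (32776, [65569, 33025, 264193, 1048610, 69634, 278530, 32836, 65668, 266244, 262216, 1049608,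
   67592, 32912, 262416, 66576, 1064976], [1048609, 262401, 67585, 65570, 266242, 1064962, 262212,
   32900, 69636, 32840, 66568, 264200, 65680, 33040, 1049616, 278544]),
   (65544, [1049608], [66568]),
   (131080, [65569, 526337, 1056769, 1048610, 131586, 69634, 540674, 65668, 135172, 532484,
   524808, 1049608, 67592, 524432, 66576, 1064976], [1048609, 67585, 532481, 65570, 524802,
   135170, 1064962, 524420, 69636, 131592, 66568, 526344, 65680, 1049616, 540688]),
   (262152, [33025, 264193, 532481, 524802, 32836, 524420, 1056772, 1048648, 33288, 526344, 32912,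
   262416], [262401, 526337, 1056769, 33282, 1048644, 32900, 532484, 32840, 524808, 264200,
   524432, 33040]),
   (524296, [65569, 33025, 264193, 1048610, 524802, 69634, 278530, 32836, 65668, 266244, 262216,
   33288, 1049608, 67592, 32912, 262416, 66576, 1064976], [1048609, 262401, 67585, 65570, 33282,
   266242, 1064962, 262212, 32900, 69636, 32840, 524808, 66568, 264200, 65680, 33040, 1049616,
   278544]),
   (144, [524432], []),
   (272, [65569, 526337, 1056769, 32802, 131586, 69634, 65668, 135172, 532484, 524808, 132104,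
   67592, 524432, 131344, 66576], [32801, 67585, 532481, 65570, 524802, 135170, 524420, 69636,
   131592, 66568, 526344, 65680, 132112]),
   (1040, [1048609, 32802, 1064962, 1049616, 540688], [32801, 1048610, 540674, 1064976]),
   (32784, [65569, 33025, 526337, 139265, 32802, 131586, 69634, 65668, 135172, 532484, 524808,
   132104, 67592, 524432, 131344, 66576], [32801, 131329, 67585, 532481, 65570, 524802, 135170,
   524420, 69636, 139268, 131592, 66568, 526344, 65680, 33040, 132112]),
   (65552, [1048609, 32802, 1064962, 1049616, 540688], [32801, 1048610, 540674, 66576, 1064976]),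
   (131088, [65569, 526337, 1056769, 32802, 131586, 69634, 65668, 135172, 532484, 524808, 132104,
   67592, 524432, 66576], [32801, 67585, 532481, 65570, 524802, 135170, 524420, 69636, 131592,
   66568, 526344, 65680, 132112]),
   (1048592, [1048609, 32802, 1064962, 540688], [32801, 1048610, 540674, 1064976]),
   (65568, [131329, 1056769, 65570, 33282, 135170, 1048644, 32900, 69636, 139268, 32840, 131592,
   1049608, 65680, 33040, 132112], [33025, 139265, 32802, 131586, 69634, 32836, 65668, 135172,
   1056772, 1048648, 33288, 132104, 32912, 131344, 66576]),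
   (1048608, [1048609], [32801]),
   (32832, [65569, 33025, 264193, 1048610, 69634, 278530, 32836, 65668, 266244, 262216, 1049608,
   67592, 32912, 262416, 66576, 1064976], [1048609, 262401, 67585, 65570, 266242, 1064962, 262212,
   32900, 69636, 66568, 264200, 65680, 33040, 1049616, 278544]),
   (262208, [33025, 264193, 532481, 524802, 32836, 524420, 1056772, 262216, 1048648, 33288,
   526344, 32912, 262416], [262401, 526337, 1056769, 33282, 1048644, 32900, 532484, 32840, 524808,
   264200, 524432, 33040]),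
   (1048640, [1048648], []),
   (32896, [65569, 33025, 526337, 139265, 32802, 131586, 69634, 65668, 135172, 532484, 524808,
   132104, 67592, 32912, 131344, 66576], [32801, 131329, 67585, 532481, 65570, 524802, 135170,
   524420, 69636, 139268, 131592, 66568, 526344, 65680, 33040, 132112]),
   (65664, [1048609, 32802, 1064962, 65680, 1049616, 540688], [32801, 1048610, 540674, 524432,
   66576, 1064976]),
   (33024, [33025, 139265], [131329, 1056769, 139268]),
   (262400, [32801, 67585, 532481, 65570, 524802, 135170, 524420, 69636, 131592, 66568, 526344,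
   65680, 262416, 132112], [65569, 526337, 1056769, 32802, 131586, 69634, 65668, 135172, 532484,
   524808, 132104, 67592, 524432, 131344, 66576]),
   (131584, [262401, 526337, 1056769, 131586, 266242, 540674, 262212, 32900, 135172, 532484,
   32840, 524808, 264200, 524432, 33040, 278544], [33025, 264193, 532481, 524802, 135170, 278530,
   32836, 524420, 266244, 262216, 33288, 526344, 32912, 262416, 540688]),
   (524800, [524802], [33282]),
   (132096, [65569, 526337, 1056769, 1048610, 131586, 69634, 540674, 65668, 135172, 532484,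
   524808, 132104, 67592, 524432, 66576, 1064976], [1048609, 67585, 532481, 65570, 524802, 135170,
   1064962, 524420, 69636, 131592, 66568, 526344, 65680, 1049616, 540688]),
   (67584, [1048609, 262401, 67585, 65570, 33282, 266242, 1064962, 262212, 32900, 69636, 32840,
   524808, 264200, 65680, 33040, 1049616, 278544], [65569, 33025, 264193, 1048610, 524802, 69634,
   278530, 32836, 65668, 266244, 262216, 33288, 526344, 32912, 262416, 66576, 1064976]),
   (264192, [1048609, 67585, 532481, 65570, 266242, 1064962, 262212, 524420, 69636, 1056772,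
   1048648, 66568, 264200, 65680, 1049616, 278544], [65569, 526337, 1056769, 1048610, 69634,
   278530, 1048644, 65668, 266244, 532484, 262216, 1049608, 67592, 524432, 66576, 1064976]),
   (69632, [131329, 1056769, 33282, 135170, 278530, 1048644, 32900, 69636, 139268, 32840, 131592,
   1049608, 65680, 33040, 132112, 540688], [33025, 139265, 131586, 266242, 540674, 32836, 65668,
   135172, 1056772, 1048648, 33288, 132104, 32912, 131344, 66576, 278544]),
   (135168, [262401, 526337, 1056769, 33282, 262212, 32900, 135172, 532484, 32840, 524808, 264200,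
   524432, 33040], [33025, 264193, 532481, 524802, 32836, 524420, 266244, 262216, 33288, 526344,
   32912, 262416]),
   (139264, [139268], []),
   (532480, [32801, 131329, 264193, 532481, 1048610, 524802, 135170, 278530, 1048644, 266244,
   139268, 262216, 131592, 1049608, 526344, 262416, 132112, 1064976], [1048609, 262401, 526337,
   139265, 32802, 131586, 266242, 1064962, 262212, 135172, 1056772, 1048648, 524808, 132104,
   264200, 131344, 1049616, 278544]),
   (278528, [278544], []),
   (540672, [540688], []),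
   (1064960, [1048609, 32802, 1064962, 540688], [32801, 1048610, 540674]),
   (1, [], [1048577]),
   (2, [32769], [1048577, 32770]),
   (4, [], [1056768, 8196]),
   (8, [], [1048584]),
   (16, [32769, 524290], [1048577, 32770, 524304]),
   (32, [32769], [1048577, 32800]),
   (64, [72], [1048584]),
   (128, [32769, 524290], [1048577, 32770, 524416]),
   (256, [131076], [1056768, 8196, 131328]),
   (512, [32769], [1048577, 33280]),
   (1024, [], [1049600]),
   (2048, [32769, 524290], [1048577, 32770, 526336]),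
   (4096, [32769, 524290, 262160], [1048577, 32770, 524304, 266240]),
   (8192, [], [1056768]),
   (16384, [32769, 524290, 16400], [1048577, 32770, 524304]),
   (32768, [32769], [1048577]),
   (65536, [66560], [1049600]),
   (131072, [131076], [1056768, 8196]),
   (262144, [32769, 524290, 262160], [1048577, 32770, 524304]),
   (524288, [32769, 524290], [1048577, 32770]),
   (1048576, [], []),
   (0, [1048576], [])]

/-! ## The graph -/

/-- Adjacency. -/
def adjB (u v : Fin 21) : Bool := adjN.testBit (21 * u + v)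

/-- The graph. -/
def Γ : SimpleGraph (Fin 21) where
  Adj u v := adjB u v = true
  symm := ⟨by decide +kernel⟩
  loopless := ⟨by decide +kernel⟩

instance : DecidableRel Γ.Adj := fun u v => inferInstanceAs (Decidable (adjB u v = true))

theorem conn : Γ.Preconnected := by
  have h : ∀ v, ∃ w, (w = 15 ∨ Γ.Adj 15 w) ∧ (w = v ∨ Γ.Adj w v) := by decide +kernel
  have h' : ∀ v, Γ.Reachable 15 v := by
    intro v
    obtain ⟨w, h1, h2⟩ := h v
    refine SimpleGraph.Reachable.trans (v := w) ?_ ?_
    · rcases h1 with rfl | h1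
      exacts [.refl _, h1.reachable]
    · rcases h2 with rfl | h2
      exacts [.refl _, h2.reachable]
  exact fun u v => (h' u).symm.trans (h' v)

theorem colorable : Γ.Colorable 3 :=
  ⟨SimpleGraph.Coloring.mk (fun v => if v < 5 then 0 else if v < 15 then 1 else 2)
    (by decide +kernel)⟩

theorem card2 : Fintype.card (E2 Γ) = 80 := by decide +kernel

theorem card3 : Fintype.card (E3 Γ) = 60 := by decide +kernel

/-! ## Formal chains -/

/-- The value of a formal chain. -/
def ev {M : Type} [AddCommGroup M] (f : ℕ → M) (l : List (ℕ × ℤ)) : M :=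
  (l.map fun p => p.2 • f p.1).sum

/-- Add a term to a formal chain. -/
def ins (m : ℕ) (k : ℤ) : List (ℕ × ℤ) → List (ℕ × ℤ)
  | [] => [(m, k)]
  | p :: l => if m = p.1 then (p.1, k + p.2) :: l else p :: ins m k l

/-- Collect terms. -/
def nrm (l : List (ℕ × ℤ)) : List (ℕ × ℤ) := l.foldr (fun p => ins p.1 p.2) []

/-- Substitute formal chains. -/
def bnd (l : List (ℕ × ℤ)) (g : ℕ → List (ℕ × ℤ)) : List (ℕ × ℤ) :=
  l.flatMap fun p => (g p.1).map fun q => (q.1, p.2 * q.2)

section
variable {M : Type} [AddCommGroup M] (f : ℕ → M)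

@[simp] theorem ev_nil : ev f [] = 0 := rfl

@[simp] theorem ev_cons (p : ℕ × ℤ) (l : List (ℕ × ℤ)) : ev f (p :: l) = p.2 • f p.1 + ev f l := by
  simp [ev]

@[simp] theorem ev_append (l l' : List (ℕ × ℤ)) : ev f (l ++ l') = ev f l + ev f l' := by
  simp [ev]

theorem ev_ins (m : ℕ) (k : ℤ) (l : List (ℕ × ℤ)) : ev f (ins m k l) = k • f m + ev f l := by
  induction l with
  | nil => simp [ins]
  | cons p l ih =>
    rw [ins]
    split_ifs with h
    · subst h
      simp [add_smul, add_assoc]
    · simp [ih, add_left_comm]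

theorem ev_nrm (l : List (ℕ × ℤ)) : ev f (nrm l) = ev f l := by
  induction l with
  | nil => rfl
  | cons p l ih => rw [nrm, List.foldr_cons, ev_ins, ev_cons, ← ih, nrm]

theorem ev_eq_zero {l : List (ℕ × ℤ)} (h : ∀ p ∈ nrm l, p.2 = 0) : ev f l = 0 := by
  rw [← ev_nrm]
  exact List.sum_eq_zero fun x hx => by
    obtain ⟨p, hp, rfl⟩ := List.mem_map.1 hx
    rw [h p hp, zero_smul]

theorem ev_scale (k : ℤ) (l : List (ℕ × ℤ)) :
    ev f (l.map fun q => (q.1, k * q.2)) = k • ev f l := by
  induction l with
  | nil => simp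
  | cons p l ih => simp [ih, mul_smul]

theorem map_ev (φ : M →ₗ[ℤ] M) (g : ℕ → List (ℕ × ℤ)) (l : List (ℕ × ℤ))
    (h : ∀ p ∈ l, φ (f p.1) = ev f (g p.1)) : φ (ev f l) = ev f (bnd l g) := by
  induction l with
  | nil => simp [bnd]
  | cons p l ih =>
    rw [ev_cons, map_add, map_smul, ih fun q hq => h q (List.mem_cons_of_mem _ hq),
      h p List.mem_cons_self, bnd, bnd, List.flatMap_cons, ev_append, ev_scale]

end

/-! ## Acyclicity -/

/-- The set with a given mask. -/
def dec (m : ℕ) : Finset (Fin 21) := Finset.univ.filter fun v => m.testBit v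

/-- The mask of a set. -/
def code (σ : Finset (Fin 21)) : ℕ := ∑ v ∈ σ, 2 ^ (v : ℕ)

/-- The basic chain of a mask. -/
def E (m : ℕ) : Clq Γ →₀ ℤ :=
  if h : Γ.IsClique (dec m : Set (Fin 21)) then Finsupp.single ⟨dec m, h⟩ 1 else 0

/-- The formal boundary. -/
def bdN (m : ℕ) : List (ℕ × ℤ) :=
  ((List.finRange 21).filter fun v : Fin 21 => decide (m.testBit v = true)).map fun v : Fin 21 =>
    (m ^^^ 2 ^ (v : ℕ), sgn (dec m) v)

/-- The formal boundary, computed faster. -/
def bdGo (m : ℕ) : List ℕ → ℤ → List (ℕ × ℤ)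
  | [], _ => []
  | v :: l, ε => bif m.testBit v then (m ^^^ 2 ^ v, ε) :: bdGo m l (-ε) else bdGo m l ε

/-- The formal boundary, computed faster. -/
def bdF (m : ℕ) : List (ℕ × ℤ) :=
  bdGo m [0, 1, 2, 3, 4, 5, 6, 7, 8, 9, 10, 11, 12, 13, 14, 15, 16, 17, 18, 19, 20] 1

/-- The formal contraction. -/
def sL (m : ℕ) : List (ℕ × ℤ) :=
  match sT.lookup m with
  | none => []
  | some p => p.1.map (fun t => (t, 1)) ++ p.2.map fun t => (t, -1)

/-- The contraction. -/
def s : (Clq Γ →₀ ℤ) →ₗ[ℤ] (Clq Γ →₀ ℤ) :=
  Finsupp.linearCombination ℤ fun σ => ev E (sL (code σ.1))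

theorem cl_clique : ∀ m ∈ cl, Γ.IsClique (dec m : Set (Fin 21)) := by decide +kernel

theorem cl_code : ∀ m ∈ cl, code (dec m) = m := by decide +kernel

theorem cl_bd : ∀ m ∈ cl, bdN m = bdF m := by decide +kernel

theorem cl_mem : ∀ m ∈ cl, (∀ p ∈ sL m, p.1 ∈ cl) ∧ ∀ p ∈ bdF m, p.1 ∈ cl := by decide +kernel

theorem cl_chk : ∀ m ∈ cl, ∀ p ∈ nrm ((m, -1) :: (bnd (sL m) bdF ++ bnd (bdF m) sL)),
    p.2 = 0 := by decide +kernel

theorem mem_cl : ∀ a b, a = b ∨ Γ.Adj a b → ∀ c, a = c ∨ Γ.Adj a c → b = c ∨ Γ.Adj b c →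
    2 ^ (a : ℕ) ||| 2 ^ (b : ℕ) ||| 2 ^ (c : ℕ) ∈ cl := by decide +kernel

theorem dec_erase {m : ℕ} {v : Fin 21} (hv : m.testBit v = true) :
    (dec m).erase v = dec (m ^^^ 2 ^ (v : ℕ)) := by
  ext w
  by_cases h : w = v
  · subst h
    simp [dec, hv]
  · have : ¬ (v : ℕ) = w := fun e => h (Fin.ext e.symm)
    simp [dec, h, this]

theorem bd_E {m : ℕ} (hm : m ∈ cl) : bdL Γ (E m) = ev E (bdF m) := by
  have h := cl_clique m hm
  rw [← cl_bd m hm, E, dif_pos h, bdL, Finsupp.linearCombination_single, one_smul, ev, bdN,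
    List.map_map]
  refine Eq.trans (Finset.sum_congr rfl fun v hv => ?_)
    (rfl : ∑ v ∈ dec m, sgn (dec m) v • E (m ^^^ 2 ^ (v : ℕ)) = _)
  have e := dec_erase (Finset.mem_filter.1 hv).2
  rw [E, dif_pos (e ▸ (Clq.erase ⟨dec m, h⟩ v).2)]
  exact congrArg (fun σ => sgn (dec m) v • Finsupp.single σ (1 : ℤ)) (Subtype.ext e)

theorem s_E {m : ℕ} (hm : m ∈ cl) : s (E m) = ev E (sL m) := by
  rw [E, dif_pos (cl_clique m hm), s, Finsupp.linearCombination_single, one_smul, cl_code m hm]

theorem exists_mask (σ : Clq Γ) : ∃ m ∈ cl, dec m = σ.1 := by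
  obtain ⟨σ, hσ⟩ := σ
  have h3 : ∀ a b c : Fin 21, σ = {a, b, c} → ∃ m ∈ cl, dec m = σ := by
    rintro a b c rfl
    have h : ∀ x ∈ ({a, b, c} : Finset (Fin 21)), ∀ y ∈ ({a, b, c} : Finset (Fin 21)),
        x = y ∨ Γ.Adj x y := fun x hx y hy => (eq_or_ne x y).imp_right fun e => hσ hx hy e
    refine ⟨_, mem_cl a b (h a (by simp) b (by simp)) c (h a (by simp) c (by simp))
      (h b (by simp) c (by simp)), ?_⟩
    ext w
    simp only [dec, Nat.testBit_or, Nat.testBit_two_pow, Finset.mem_filter, Finset.mem_univ,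
      true_and, Bool.or_eq_true, decide_eq_true_eq, Finset.mem_insert, Finset.mem_singleton,
      Fin.ext_iff]
    omega
  have hc := hσ.card_le_of_colorable colorable
  show ∃ m ∈ cl, dec m = σ
  interval_cases h : σ.card
  · rw [Finset.card_eq_zero.1 h]
    exact ⟨0, by decide +kernel, by simp [dec]⟩
  · obtain ⟨a, rfl⟩ := Finset.card_eq_one.1 h
    exact h3 a a a (by simp)
  · obtain ⟨a, b, -, rfl⟩ := Finset.card_eq_two.1 h
    exact h3 a b b (by simp)
  · obtain ⟨a, b, c, -, -, -, rfl⟩ := Finset.card_eq_three.1 h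
    exact h3 a b c rfl

theorem contraction (y : Clq Γ →₀ ℤ) : bdL Γ (s y) + s (bdL Γ y) = y := by
  induction y using Finsupp.induction_linear with
  | zero => simp
  | add a b ha hb => rw [map_add, map_add, map_add, map_add, add_add_add_comm, ha, hb]
  | single σ k =>
    obtain ⟨m, hm, e⟩ := exists_mask σ
    have e1 : Finsupp.single σ k = k • E m := by
      rw [E, dif_pos (cl_clique m hm), Finsupp.smul_single, smul_eq_mul, mul_one]
      exact congrArg (fun σ => Finsupp.single σ k) (Subtype.ext e.symm)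
    have h := ev_eq_zero E (cl_chk m hm)
    rw [ev_cons, ev_append, ← map_ev E (bdL Γ) bdF _ fun p hp => bd_E ((cl_mem m hm).1 p hp),
      ← map_ev E s sL _ fun p hp => s_E ((cl_mem m hm).2 p hp), ← s_E hm, ← bd_E hm,
      neg_one_smul, neg_add_eq_zero] at h
    rw [e1, map_smul, map_smul, map_smul, map_smul, ← smul_add, ← h]

theorem acyc : LAcyclic Γ := fun y hy =>
  ⟨s y, by simpa [hy] using contraction y⟩

/-! ## The connection -/

instance : DecidableEq ℍ[ℤ√5] := fun _ _ => decidable_of_iff' _ QuaternionAlgebra.ext_iff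

/-- Four times the connection. -/
def q (u v : Fin 21) : ℍ[ℤ√5] := qL.getD (thN >>> (4 * (21 * (u : ℕ) + (v : ℕ))) % 16) 4

theorem q_norm : ∀ u v, q u v * star (q u v) = 16 ∧ star (q u v) * q u v = 16 := by
  decide +kernel

theorem q_re : ∀ u v, (q u v).re = 4 ∨ (q u v).re = ⟨1, 1⟩ := by decide +kernel

theorem q_flat : ∀ u v, u < v → Γ.Adj u v → ∀ w, v < w → Γ.Adj v w → Γ.Adj u w →
    q u v * q v w = 4 * q u w := by decide +kernel

/-- The real embedding. -/
def ρ : ℤ√5 →+* ℝ := Zsqrtd.toReal (by norm_num)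

/-- The real embedding on quaternions. -/
def toR : ℍ[ℤ√5] →+* ℍ[ℝ] where
  toFun x := ⟨ρ x.re, ρ x.imI, ρ x.imJ, ρ x.imK⟩
  map_one' := by ext <;> simp
  map_mul' x y := by ext <;> simp
  map_zero' := by ext <;> simp
  map_add' x y := by ext <;> simp

theorem toR_star (x : ℍ[ℤ√5]) : toR (star x) = star (toR x) := by
  ext <;> simp [toR]

theorem toR_ofNat (n : ℕ) [n.AtLeastTwo] (x : ℍ[ℤ√5]) :
    toR (OfNat.ofNat n * x) = (OfNat.ofNat n : ℝ) • toR x := by
  rw [map_mul, map_ofNat, Algebra.smul_def, map_ofNat]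

theorem toR_16 : toR 16 = (16 : ℝ) • 1 := by
  rw [map_ofNat, Algebra.smul_def, map_ofNat, mul_one]

/-- The connection. -/
def θ (u v : Fin 21) : S3 := ⟨(4⁻¹ : ℝ) • toR (q u v), by
  rw [Unitary.mem_iff, star_smul, smul_mul_smul_comm, smul_mul_smul_comm, ← toR_star, ← map_mul,
    ← map_mul, (q_norm u v).1, (q_norm u v).2, toR_16, smul_smul, smul_smul]
  norm_num⟩

theorem θ_re (u v : Fin 21) : (θ u v : ℍ[ℝ]).re = 4⁻¹ * ρ (q u v).re := rfl

theorem ρ_phi : ρ ⟨1, 1⟩ = 1 + √5 := by simp [ρ]

theorem re_ge (u v : Fin 21) : 4 / 5 ≤ (θ u v : ℍ[ℝ]).re := by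
  rw [θ_re]
  rcases q_re u v with h | h <;> rw [h]
  · rw [map_ofNat]; norm_num
  · have : (11 / 5 : ℝ) ≤ √5 := Real.le_sqrt_of_sq_le (by norm_num)
    rw [ρ_phi]
    linarith

theorem flat (u v w : Fin 21) (h1 : u < v) (h2 : v < w) (h3 : Γ.Adj u v) (h4 : Γ.Adj v w)
    (h5 : Γ.Adj u w) : θ u v * θ v w = θ u w := by
  apply Subtype.ext
  change ((4⁻¹ : ℝ) • toR (q u v)) * ((4⁻¹ : ℝ) • toR (q v w)) = (4⁻¹ : ℝ) • toR (q u w)
  rw [smul_mul_smul_comm, ← map_mul, q_flat u v h1 h3 w h2 h4 h5, toR_ofNat, smul_smul]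
  norm_num

theorem θ_eq_one {u v : Fin 21} (h : q u v = 4 * 1) : θ u v = 1 := by
  apply Subtype.ext
  change (4⁻¹ : ℝ) • toR (q u v) = 1
  rw [h, toR_ofNat, smul_smul, map_one]
  norm_num

theorem ne : ¬ ∃ γ : Fin 21 → S3, ∀ u v, u < v → Γ.Adj u v → θ u v = (γ u)⁻¹ * γ v := by
  rintro ⟨γ, h⟩
  have h1 := h 1 17 (by decide) (by decide +kernel)
  have h2 := h 4 17 (by decide) (by decide +kernel)
  have h3 := h 1 15 (by decide) (by decide +kernel)
  have h4 := h 4 15 (by decide) (by decide +kernel)
  rw [θ_eq_one (by decide +kernel), eq_inv_mul_iff_mul_eq, mul_one] at h1 h2 h3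
  rw [h2, ← h1, h3, inv_mul_cancel] at h4
  have h5 := θ_re 4 15
  rw [h4, show (q 4 15).re = ⟨1, 1⟩ by decide +kernel, ρ_phi] at h5
  have h6 : √5 < (3 : ℝ) := Real.sqrt_lt' (by norm_num) |>.2 (by norm_num)
  change (1 : ℝ) = _ at h5
  linarith

end LC

/-- The barycentric subdivision of the spine of the Poincaré sphere. -/
theorem lStmt : LStmt :=
  ⟨LC.Γ, inferInstance, ⟨{
    conn := LC.conn
    dim := LC.colorable.cliqueFree (by norm_num)
    acyc := LC.acyc
    card := by rw [LC.card2, LC.card3, Fintype.card_fin]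
    tri := ⟨(0, 5, 15), by decide +kernel⟩
    θ := LC.θ
    re := fun u v _ _ => LC.re_ge u v
    flat := LC.flat
    ne := LC.ne }⟩⟩

end Crest.Agent.R197
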