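import Crest.Agent.R197.GeomDefs

/-! Row 197: the finitely supported `2`-cochain that counts large triangles once. -/

set_option autoImplicit false

noncomputable section

namespace Crest.Agent.R197

namespace Local

section
variable {H S : Type} [Group H] (gen : S → H)

theorem exists_bound_finset {α : Type} (s : Finset α) (f : α → ℤ) :
    ∃ M : ℤ, 0 ≤ M ∧ ∀ e ∈ s, |f e| ≤ M :=
  ⟨∑ e ∈ s, |f e|, Finset.sum_nonneg fun _ _ => abs_nonneg _,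
    fun _ he => Finset.single_le_sum (f := fun e => |f e|) (fun _ _ => abs_nonneg _) he⟩

/-- A character that kills `w` is bounded along the powers of `w`. -/
theorem exists_bound (f : H → ℤ) (hf : ∀ x y, f (x * y) = f x + f y) (w : FreeGroup S)
    (hw : f (FreeGroup.lift gen w) = 0) :
    ∃ M : ℤ, 0 ≤ M ∧ ∀ (m : ℕ) (h : H), ∀ e ∈ (chain gen h (w ^ m)).support,
      |f e.1 - f h| ≤ M := by
  classical
  obtain ⟨M, hM0, hM⟩ := exists_bound_finset (chain gen 1 w).support fun e => f e.1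
  refine ⟨M, hM0, fun m => ?_⟩
  induction m with
  | zero => simp
  | succ m ih =>
    rintro h ⟨x, s⟩ he
    rw [pow_succ', chain_mul] at he
    rcases Finset.mem_union.1 (Finsupp.support_add he) with he | he
    · have h1 : chain gen h w = tr h (chain gen 1 w) := by rw [tr_chain, mul_one]
      rw [h1, Finsupp.mem_support_iff, tr_apply] at he
      have h2 := hM _ (Finsupp.mem_support_iff.2 he)
      have h3 : f x = f h + f (h⁻¹ * x) := by rw [← hf, mul_inv_cancel_left]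
      simp only at h2 ⊢
      rw [h3, add_sub_cancel_left]
      exact h2
    · have := ih _ _ he
      rwa [hf, hw, add_zero] at this

theorem chain_tri (a b : FreeGroup S)
    (hab : Commute (FreeGroup.lift gen a) (FreeGroup.lift gen b)) (m : ℕ) :
    chain gen 1 (triW a b m) = chain gen 1 (a ^ m) +
      chain gen (FreeGroup.lift gen a ^ m) (b ^ m) - chain gen 1 ((a * b) ^ m) := by
  have h1 : FreeGroup.lift gen (a ^ m * b ^ m) * (FreeGroup.lift gen ((a * b) ^ m))⁻¹ = 1 := by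
    simp only [map_mul, map_pow, hab.mul_pow, mul_inv_cancel]
  rw [triW, chain_mul, chain_inv, chain_mul, one_mul, one_mul, h1, map_pow, sub_eq_add_neg]

end

variable {V : Type} [LinearOrder V] {Γ : SimpleGraph V} (v₀ : V) (Δ : E3 Γ)

/-- The position of the face `e2` in the filling of the unit cell. -/
def k1 : H Γ := FreeGroup.lift (gen0 Γ v₀) (FreeGroup.of (false, Δ.1.2.1))⁻¹

/-- The filling of the unit cell. -/
def κ2 : H Γ × (E2 Γ ⊕ Bool) →₀ ℤ :=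
  - Finsupp.single (FreeGroup.lift (gen0 Γ v₀) (FreeGroup.of (false, Δ.1.1))⁻¹, .inl Δ.e3) 1 +
    Finsupp.single (FreeGroup.lift (gen0 Γ v₀) (FreeGroup.of (true, Δ.1.2.2) *
      (FreeGroup.of (true, Δ.1.2.1))⁻¹ * (FreeGroup.of (false, Δ.1.1))⁻¹), .inl Δ.e1) 1 +
    Finsupp.single (k1 v₀ Δ, .inl Δ.e2) 1

theorem cell_eq : cellW Δ.a Δ.b =
    ((FreeGroup.of (false, Δ.1.1))⁻¹ * rel0 Γ v₀ (.inl Δ.e3) *
      (FreeGroup.of (false, Δ.1.1))⁻¹⁻¹)⁻¹ *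
    ((FreeGroup.of (true, Δ.1.2.2) * (FreeGroup.of (true, Δ.1.2.1))⁻¹ *
      (FreeGroup.of (false, Δ.1.1))⁻¹) * rel0 Γ v₀ (.inl Δ.e1) *
      (FreeGroup.of (true, Δ.1.2.2) * (FreeGroup.of (true, Δ.1.2.1))⁻¹ *
        (FreeGroup.of (false, Δ.1.1))⁻¹)⁻¹) *
    ((FreeGroup.of (false, Δ.1.2.1))⁻¹ * rel0 Γ v₀ (.inl Δ.e2) *
      (FreeGroup.of (false, Δ.1.2.1))⁻¹⁻¹) := by
  simp only [cellW, E3.a, E3.b, eW, rel0, E3.e1, E3.e2, E3.e3]
  group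

theorem rel_null (r : E2 Γ ⊕ Bool) : FreeGroup.lift (gen0 Γ v₀) (rel0 Γ v₀ r) = 1 :=
  (P0 Γ v₀).rel_one r

theorem d2_single (h : H Γ) (r : E2 Γ ⊕ Bool) :
    (P0 Γ v₀).d2 (Finsupp.single (h, r) 1) = chain (gen0 Γ v₀) h (rel0 Γ v₀ r) := by
  have := (P0 Γ v₀).d2_single h r 1
  rw [one_smul] at this
  exact this

theorem chain_three {H S : Type} [Group H] (gen : S → H) (u1 u2 u3 r1 r2 r3 : FreeGroup S)
    (h1 : FreeGroup.lift gen r1 = 1) (h2 : FreeGroup.lift gen r2 = 1)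
    (h3 : FreeGroup.lift gen r3 = 1) :
    chain gen 1 ((u1 * r1 * u1⁻¹)⁻¹ * (u2 * r2 * u2⁻¹) * (u3 * r3 * u3⁻¹)) =
      - chain gen (FreeGroup.lift gen u1) r1 + chain gen (FreeGroup.lift gen u2) r2 +
        chain gen (FreeGroup.lift gen u3) r3 := by
  have e1 : FreeGroup.lift gen (u1 * r1 * u1⁻¹) = 1 := by simp [h1]
  have e2 : FreeGroup.lift gen (u1 * r1 * u1⁻¹)⁻¹ = 1 := by simp [h1]
  have e3 : FreeGroup.lift gen ((u1 * r1 * u1⁻¹)⁻¹ * (u2 * r2 * u2⁻¹)) = 1 := by simp [h1, h2]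
  rw [chain_mul, chain_mul, chain_inv, e1, e2, e3, chain_conj _ _ _ _ h1, chain_conj _ _ _ _ h2,
    chain_conj _ _ _ _ h3]
  simp only [inv_one, mul_one, one_mul]

theorem d2_κ2 : (P0 Γ v₀).d2 (κ2 v₀ Δ) = chain (gen0 Γ v₀) 1 (cellW Δ.a Δ.b) := by
  have h2 : (P0 Γ v₀).d2 (κ2 v₀ Δ) =
      - (P0 Γ v₀).d2 (Finsupp.single (FreeGroup.lift (gen0 Γ v₀)
        (FreeGroup.of (false, Δ.1.1))⁻¹, .inl Δ.e3) 1) +
      (P0 Γ v₀).d2 (Finsupp.single (FreeGroup.lift (gen0 Γ v₀) (FreeGroup.of (true, Δ.1.2.2) *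
        (FreeGroup.of (true, Δ.1.2.1))⁻¹ * (FreeGroup.of (false, Δ.1.1))⁻¹), .inl Δ.e1) 1) +
      (P0 Γ v₀).d2 (Finsupp.single (k1 v₀ Δ, .inl Δ.e2) 1) := by
    rw [← map_neg, ← map_add, ← map_add]
    rfl
  rw [h2, d2_single, d2_single, d2_single, cell_eq v₀ Δ]
  exact (chain_three _ _ _ _ _ _ _ (rel_null v₀ _) (rel_null v₀ _) (rel_null v₀ _)).symm

open Classical in
theorem κ2_apply (k : H Γ) : κ2 v₀ Δ (k, .inl Δ.e2) = if k = k1 v₀ Δ then 1 else 0 := by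
  have h1 : Δ.1.1 ≠ Δ.1.2.1 := Δ.2.1.ne
  have h3 : Δ.e3 ≠ Δ.e2 := fun h => h1 (congrArg (fun e : E2 Γ => e.1.1) h)
  have h4 : Δ.e1 ≠ Δ.e2 := fun h => h1 (congrArg (fun e : E2 Γ => e.1.1) h)
  simp only [κ2, Finsupp.add_apply, Finsupp.neg_apply, Finsupp.single_apply, Prod.mk.injEq,
    Sum.inl.injEq, h3, h4, and_false, if_false, and_true, neg_zero, zero_add]
  exact if_congr eq_comm rfl rfl

/-- The position of a cell. -/
def pos (p : ℕ × ℕ) : H Γ :=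
  FreeGroup.lift (gen0 Γ v₀) Δ.a ^ p.1 * FreeGroup.lift (gen0 Γ v₀) (Δ.a * Δ.b) ^ p.2

theorem a_mul_b : Δ.a * Δ.b = eW Δ.1.1 Δ.1.2.2 := eW_mul _ _ _

theorem ab_a (x : V) : ab Γ x (FreeGroup.lift (gen0 Γ v₀) Δ.a : H Γ) =
    (if Δ.1.2.1 = x then 1 else 0) - if Δ.1.1 = x then 1 else 0 := ab_eW Γ v₀ _ _ x

theorem ab_b (x : V) : ab Γ x (FreeGroup.lift (gen0 Γ v₀) Δ.b : H Γ) =
    (if Δ.1.2.2 = x then 1 else 0) - if Δ.1.2.1 = x then 1 else 0 := ab_eW Γ v₀ _ _ x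

theorem ab_c (x : V) : ab Γ x (FreeGroup.lift (gen0 Γ v₀) (Δ.a * Δ.b) : H Γ) =
    (if Δ.1.2.2 = x then 1 else 0) - if Δ.1.1 = x then 1 else 0 := by
  rw [a_mul_b]; exact ab_eW Γ v₀ _ _ x

theorem ab_pos (p : ℕ × ℕ) : ab Γ Δ.1.1 (pos v₀ Δ p : H Γ) = -(p.1 + p.2 : ℤ) ∧
    ab Γ Δ.1.2.1 (pos v₀ Δ p : H Γ) = p.1 ∧ ab Γ Δ.1.2.2 (pos v₀ Δ p : H Γ) = p.2 := by
  have h1 : Δ.1.1 ≠ Δ.1.2.1 := Δ.2.1.ne
  have h2 : Δ.1.2.1 ≠ Δ.1.2.2 := Δ.2.2.1.ne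
  have h3 : Δ.1.1 ≠ Δ.1.2.2 := (Δ.2.1.trans Δ.2.2.1).ne
  simp only [pos, Subgroup.coe_mul, Subgroup.coe_pow, ab_mul, ab_pow, ab_a, ab_c, h1, h2, h3,
    h1.symm, h2.symm, h3.symm, if_true, if_false]
  refine ⟨?_, ?_, ?_⟩ <;> ring

theorem pos_inj : Function.Injective (pos v₀ Δ) := fun p q h => by
  have h1 := ab_pos v₀ Δ p
  have h2 := ab_pos v₀ Δ q
  rw [h] at h1
  exact Prod.ext (by omega) (by omega)

/-- The filling of the triangle. -/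
def fillT (m : ℕ) : H Γ × (E2 Γ ⊕ Bool) →₀ ℤ :=
  ((triM m).map fun p => tr (pos v₀ Δ p) (κ2 v₀ Δ)).sum

theorem d2_fillT (m : ℕ) :
    (P0 Γ v₀).d2 (fillT v₀ Δ m) = chain (gen0 Γ v₀) 1 (triW Δ.a Δ.b m) := by
  rw [(fill_tri (gen0 Γ v₀) Δ.a Δ.b m).chain_eq (Δ.cell_null v₀), Multiset.map_map]
  have h1 := map_multiset_sum (P0 Γ v₀).d2 ((triM m).map fun p => tr (pos v₀ Δ p) (κ2 v₀ Δ))
  rw [Multiset.map_map] at h1
  refine h1.trans (congrArg Multiset.sum (Multiset.map_congr rfl fun p _ => ?_))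
  have h2 := (P0 Γ v₀).d2_tr (pos v₀ Δ p) (κ2 v₀ Δ)
  rw [d2_κ2] at h2
  refine h2.trans ?_
  have h3 := tr_chain (gen0 Γ v₀) (pos v₀ Δ p) 1 (cellW Δ.a Δ.b)
  refine h3.trans ?_
  simp only [mul_one, Function.comp_apply, one_mul, pos]

theorem fillT_apply (m : ℕ) (q : ℕ × ℕ) (hq : q ∈ triM m) :
    fillT v₀ Δ m (pos v₀ Δ q * k1 v₀ Δ, .inl Δ.e2) = 1 := by
  classical
  have h1 := map_multiset_sum (Finsupp.applyAddHom (M := ℤ)
    ((pos v₀ Δ q * k1 v₀ Δ, .inl Δ.e2) : H Γ × (E2 Γ ⊕ Bool)))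
    ((triM m).map fun p => tr (pos v₀ Δ p) (κ2 v₀ Δ))
  rw [Multiset.map_map] at h1
  refine h1.trans ?_
  have h2 : ∀ p : ℕ × ℕ, ((Finsupp.applyAddHom (M := ℤ)
      ((pos v₀ Δ q * k1 v₀ Δ, .inl Δ.e2) : H Γ × (E2 Γ ⊕ Bool))) ∘
        fun p => tr (pos v₀ Δ p) (κ2 v₀ Δ)) p = if p = q then 1 else 0 := fun p => by
    simp only [Function.comp_apply, Finsupp.applyAddHom_apply, tr_apply, κ2_apply]
    refine if_congr ?_ rfl rfl
    rw [← mul_assoc, mul_eq_right, inv_mul_eq_one]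
    exact (pos_inj v₀ Δ).eq_iff
  rw [Multiset.map_congr rfl fun p _ => h2 p]
  exact (Finset.sum_ite_eq' (⟨triM m, nodup_triM m⟩ : Finset (ℕ × ℕ)) q fun _ => (1 : ℤ)).trans
    (if_pos hq)

end Local

open Local in
theorem localStmt (h : TransferStmt) : LocalStmt := by
  classical
  intro V _ _ Γ v₀ hP₀ P hP ω hω Δ
  have f1 : Finite (P0 Γ v₀).S := inferInstanceAs (Finite (Bool × V))
  have f2 : Finite (P0 Γ v₀).R := inferInstanceAs (Finite (E2 Γ ⊕ Bool))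
  have hω' : ∀ s : Bool × V, FreeGroup.lift P.gen (ω (FreeGroup.of s)) = gen0 Γ v₀ s :=
    fun s => by rw [hω, FreeGroup.lift_apply_of]
  obtain ⟨ε0, B, hε⟩ := h (H Γ) (P0 Γ v₀) P hP₀ hP ω hω' (.inl Δ.e2)
  have h1 : Δ.1.1 ≠ Δ.1.2.1 := Δ.2.1.ne
  have h2 : Δ.1.2.1 ≠ Δ.1.2.2 := Δ.2.2.1.ne
  have h3 : Δ.1.1 ≠ Δ.1.2.2 := (Δ.2.1.trans Δ.2.2.1).ne
  have hf : ∀ (x : V) (y z : H Γ), ab Γ x (y * z : H Γ) = ab Γ x y + ab Γ x z := fun x y z => by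
    rw [Subgroup.coe_mul, ab_mul]
  obtain ⟨Ma, ha0, ha⟩ := exists_bound (gen0 Γ v₀) (fun y => ab Γ Δ.1.2.2 y) (hf _) Δ.a
    (by simp only [ab_a, h2, h3, if_false, sub_zero])
  obtain ⟨Mb, hb0, hb⟩ := exists_bound (gen0 Γ v₀) (fun y => ab Γ Δ.1.1 y) (hf _) Δ.b
    (by simp only [ab_b, h1.symm, h3.symm, if_false, sub_zero])
  obtain ⟨Mc, hc0, hc⟩ := exists_bound (gen0 Γ v₀) (fun y => ab Γ Δ.1.2.1 y) (hf _) (Δ.a * Δ.b)
    (by simp only [ab_c, h1, h2.symm, if_false, sub_zero])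
  obtain ⟨Na, hNa0, hNa⟩ := exists_bound_finset B fun y => ab Γ Δ.1.2.2 (k1 v₀ Δ * y : H Γ)
  obtain ⟨Nb, hNb0, hNb⟩ := exists_bound_finset B fun y => ab Γ Δ.1.1 (k1 v₀ Δ * y : H Γ)
  obtain ⟨Nc, hNc0, hNc⟩ := exists_bound_finset B fun y => ab Γ Δ.1.2.1 (k1 v₀ Δ * y : H Γ)
  refine ⟨tr (k1 v₀ Δ) ε0, (Ma + Mb + Mc + Na + Nb + Nc + 1).toNat, fun μ hμ m hm => ?_⟩
  have hμ' : Ma + Mb + Mc + Na + Nb + Nc + 1 ≤ μ := Int.toNat_le.1 hμ
  have hT := d2_fillT v₀ Δ (3 * μ)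
  have key := hε (fillT v₀ Δ (3 * μ)) m (pos v₀ Δ (μ, μ) * k1 v₀ Δ)
    (by rw [hT, hm]; exact (push_chain P.gen (gen0 Γ v₀) ω hω' 1 _).symm) ?_
  · have hq : (μ, μ) ∈ triM (3 * μ) := mem_triM.2 ⟨by simp only; omega, by simp only; omega⟩
    rw [← key.trans (fillT_apply v₀ Δ _ _ hq)]
    congr 2
    funext β
    rw [tr_apply, mul_inv_rev (pos v₀ Δ (μ, μ)), mul_assoc]
    rfl
  · rw [hT]
    rintro ⟨x, s⟩ he hB
    have hx : ∀ y : V, ab Γ y (k1 v₀ Δ * ((pos v₀ Δ (μ, μ) * k1 v₀ Δ)⁻¹ * x) : H Γ) =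
        ab Γ y x - ab Γ y (pos v₀ Δ (μ, μ) : H Γ) := fun y => by
      simp only [Subgroup.coe_mul, Subgroup.coe_inv, ab_mul, ab_inv]
      ring
    obtain ⟨p1, p2, p3⟩ := ab_pos v₀ Δ (μ, μ)
    have b1 := hNa _ hB
    have b2 := hNb _ hB
    have b3 := hNc _ hB
    simp only [hx, p1, p2, p3] at b1 b2 b3
    have he' : (x, s) ∈ (chain (gen0 Γ v₀) 1 (triW Δ.a Δ.b (3 * μ))).support := he
    rw [chain_tri _ _ _ (Δ.commute v₀)] at he'
    rcases Finset.mem_union.1 (Finsupp.support_sub he') with he' | he'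
    · rcases Finset.mem_union.1 (Finsupp.support_add he') with he' | he'
      · have := ha _ _ _ he'
        simp only [Subgroup.coe_one, ab_one, sub_zero] at this
        rw [abs_le] at this b1
        omega
      · have := hb _ _ _ he'
        simp only [Subgroup.coe_pow, ab_pow, ab_a, h1.symm, if_true, if_false] at this
        rw [abs_le] at this b2
        push_cast at this
        omega
    · have := hc _ _ _ he'
      simp only [Subgroup.coe_one, ab_one, sub_zero] at this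
      rw [abs_le] at this b3
      omega

end Crest.Agent.R197
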