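import Crest.Agent.R197.GeomDefs

/-!
# Row 197: the path of almost flat connections
-/

set_option autoImplicit false

noncomputable section

namespace Crest.Agent.R197

open Crest.Agent.Lib.Degree
open scoped Quaternion

namespace Psi

/-- The point at parameter `t` on the chord from `p` to `q`. -/
def chord (t : ℝ) (p q : ℍ[ℝ]) : ℍ[ℝ] := (1 - t) • p + t • q

theorem chord_zero (p q : ℍ[ℝ]) : chord 0 p q = p := by simp [chord]

theorem chord_one (p q : ℍ[ℝ]) : chord 1 p q = q := by simp [chord]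

theorem chord_self (t : ℝ) (p : ℍ[ℝ]) : chord t p p = p := by
  rw [chord, ← add_smul]; simp

theorem le_re_chord {t c : ℝ} {p q : ℍ[ℝ]} (h0 : 0 ≤ t) (h1 : t ≤ 1) (hp : c ≤ p.re)
    (hq : c ≤ q.re) : c ≤ (chord t p q).re := by
  have : (chord t p q).re = (1 - t) * p.re + t * q.re := by simp [chord]
  rw [this]
  nlinarith [mul_le_mul_of_nonneg_left hp (sub_nonneg.2 h1), mul_le_mul_of_nonneg_left hq h0]

theorem norm_chord_le {t : ℝ} (p q : S3) (h0 : 0 ≤ t) (h1 : t ≤ 1) :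
    ‖chord t (p : ℍ[ℝ]) q‖ ≤ 1 := by
  refine (norm_add_le _ _).trans ?_
  rw [norm_smul, norm_smul, S3.norm_coe, S3.norm_coe, Real.norm_of_nonneg (sub_nonneg.2 h1),
    Real.norm_of_nonneg h0]
  linarith

theorem norm_chord_sub (t t' : ℝ) (p q : S3) :
    ‖chord t (p : ℍ[ℝ]) q - chord t' p q‖ ≤ 2 * |t - t'| := by
  have : chord t (p : ℍ[ℝ]) q - chord t' p q = (t - t') • ((q : ℍ[ℝ]) - p) := by
    simp only [chord, sub_smul, smul_sub, one_smul]; abel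
  rw [this, norm_smul, Real.norm_eq_abs, mul_comm]
  have h := norm_sub_le (q : ℍ[ℝ]) p
  rw [S3.norm_coe, S3.norm_coe] at h
  exact mul_le_mul_of_nonneg_right (by linarith) (abs_nonneg _)

theorem normSq_eq (q : ℍ[ℝ]) : ‖q‖ ^ 2 = q.re ^ 2 + q.imI ^ 2 + q.imJ ^ 2 + q.imK ^ 2 := by
  rw [← Quaternion.normSq_def', Quaternion.normSq_eq_norm_mul_self, sq]

theorem re_le_norm (q : ℍ[ℝ]) : q.re ≤ ‖q‖ := by
  refine le_trans (le_abs_self _) (abs_le_of_sq_le_sq' ?_ (norm_nonneg _) |> abs_le.2)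
  rw [normSq_eq]
  nlinarith [sq_nonneg q.imI, sq_nonneg q.imJ, sq_nonneg q.imK]

theorem ne_zero_of_re {c : ℝ} {x : ℍ[ℝ]} (hc : 0 < c) (hx : c ≤ x.re) : x ≠ 0 := by
  rintro rfl
  simp at hx
  linarith

theorem le_re_nz {c : ℝ} {x : ℍ[ℝ]} (hc : 0 < c) (hx : c ≤ x.re) (h1 : ‖x‖ ≤ 1) :
    c ≤ (nz x : ℍ[ℝ]).re := by
  have h0 := ne_zero_of_re hc hx
  have hp : 0 < ‖x‖ := norm_pos_iff.2 h0
  have : (nz x : ℍ[ℝ]).re = ‖x‖⁻¹ * x.re := by rw [coe_nz h0]; simp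
  rw [this]
  have h2 : 1 ≤ ‖x‖⁻¹ := (one_le_inv₀ hp).2 h1
  nlinarith

theorem le_re_mul {p q : S3} (hp : 4 / 5 ≤ (p : ℍ[ℝ]).re) (hq : 4 / 5 ≤ (q : ℍ[ℝ]).re) :
    1 / 4 ≤ ((p * q : S3) : ℍ[ℝ]).re := by
  have h1 := normSq_eq (p : ℍ[ℝ])
  have h2 := normSq_eq (q : ℍ[ℝ])
  rw [S3.norm_coe] at h1 h2
  have : ((p * q : S3) : ℍ[ℝ]).re = (p : ℍ[ℝ]).re * (q : ℍ[ℝ]).re -
      (p : ℍ[ℝ]).imI * (q : ℍ[ℝ]).imI - (p : ℍ[ℝ]).imJ * (q : ℍ[ℝ]).imJ -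
      (p : ℍ[ℝ]).imK * (q : ℍ[ℝ]).imK := by
    rw [Submonoid.coe_mul, Quaternion.re_mul]
  rw [this]
  nlinarith [sq_nonneg ((p : ℍ[ℝ]).imI - (q : ℍ[ℝ]).imI),
    sq_nonneg ((p : ℍ[ℝ]).imJ - (q : ℍ[ℝ]).imJ), sq_nonneg ((p : ℍ[ℝ]).imK - (q : ℍ[ℝ]).imK),
    mul_le_mul hp hq (by norm_num) (by linarith)]

theorem norm_nz_sub {x y : ℍ[ℝ]} (hx : x ≠ 0) (hy : y ≠ 0) :
    ‖(nz x : ℍ[ℝ]) - nz y‖ ≤ 2 * ‖x - y‖ / ‖x‖ := by
  have hp : 0 < ‖x‖ := norm_pos_iff.2 hx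
  have hq : 0 < ‖y‖ := norm_pos_iff.2 hy
  have h1 : (nz x : ℍ[ℝ]) - nz y = ‖x‖⁻¹ • ((x - y) + (‖y‖ - ‖x‖) • (nz y : ℍ[ℝ])) := by
    rw [coe_nz hx, coe_nz hy, smul_smul, smul_add, smul_sub, smul_smul, sub_add, ← sub_smul]
    congr 2
    field_simp
    ring
  rw [h1, norm_smul, norm_inv, norm_norm, div_eq_inv_mul]
  refine mul_le_mul_of_nonneg_left ((norm_add_le _ _).trans ?_) (inv_nonneg.2 hp.le)
  rw [norm_smul, S3.norm_coe, mul_one, Real.norm_eq_abs, abs_sub_comm]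
  linarith [abs_norm_sub_norm_le x y]

theorem norm_mul_inv_sub (p q : S3) :
    ‖((p * q⁻¹ : S3) : ℍ[ℝ]) - 1‖ = ‖(p : ℍ[ℝ]) - q‖ := by
  have h : ((p * q⁻¹ : S3) : ℍ[ℝ]) - 1 = ((p : ℍ[ℝ]) - q) * ((q⁻¹ : S3) : ℍ[ℝ]) := by
    rw [sub_mul, ← Submonoid.coe_mul, ← Submonoid.coe_mul, mul_inv_cancel]
    rfl
  rw [h, norm_mul, S3.norm_coe, mul_one]

theorem continuous_nz {f : ℝ → ℍ[ℝ]} (hf : Continuous f) (h0 : ∀ s, f s ≠ 0) :
    Continuous fun s => nz (f s) := by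
  refine continuous_induced_rng.2 ?_
  have : (Subtype.val ∘ fun s => nz (f s)) = fun s => ‖f s‖⁻¹ • f s :=
    funext fun s => coe_nz (h0 s)
  rw [this]
  exact (hf.norm.inv₀ fun s => norm_ne_zero_iff.2 (h0 s)).smul hf

/-- The clamp to `[0, 1]`. -/
def cl (s : ℝ) : ℝ := max 0 (min 1 s)

theorem cl_nonneg (s : ℝ) : 0 ≤ cl s := le_max_left _ _

theorem cl_le (s : ℝ) : cl s ≤ 1 := max_le zero_le_one (min_le_left _ _)

theorem continuous_cl : Continuous cl := continuous_const.max (continuous_const.min continuous_id)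

theorem abs_cl_sub (s t : ℝ) : |cl s - cl t| ≤ |s - t| := by
  refine (abs_max_sub_max_le_max _ _ _ _).trans (max_le (by simp) ?_)
  exact (abs_min_sub_min_le_max _ _ _ _).trans (max_le (by simp) le_rfl)

/-- The path from `1` to `θ`. -/
def path (θ : S3) (s : ℝ) : S3 := nz (chord (cl s) ((1 : S3) : ℍ[ℝ]) θ)

theorem re_path_aux {θ : S3} (h : 4 / 5 ≤ (θ : ℍ[ℝ]).re) (s : ℝ) :
    4 / 5 ≤ (chord (cl s) ((1 : S3) : ℍ[ℝ]) θ).re :=
  le_re_chord (cl_nonneg s) (cl_le s) (by norm_num) h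

theorem re_path {θ : S3} (h : 4 / 5 ≤ (θ : ℍ[ℝ]).re) (s : ℝ) :
    4 / 5 ≤ (path θ s : ℍ[ℝ]).re :=
  le_re_nz (by norm_num) (re_path_aux h s) (norm_chord_le _ _ (cl_nonneg s) (cl_le s))

theorem continuous_path {θ : S3} (h : 4 / 5 ≤ (θ : ℍ[ℝ]).re) : Continuous (path θ) := by
  refine continuous_nz ?_ fun s => ne_zero_of_re (by norm_num) (re_path_aux h s)
  exact ((continuous_const.sub continuous_cl).smul continuous_const).add
    (continuous_cl.smul continuous_const)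

theorem path_zero (θ : S3) : path θ 0 = 1 := by
  have : cl 0 = 0 := by simp [cl]
  rw [path, this, chord_zero, nz_coe]

theorem path_one (θ : S3) : path θ 1 = θ := by
  have : cl 1 = 1 := by simp [cl]
  rw [path, this, chord_one, nz_coe]

end Psi

open Psi in
theorem psiStmt : PsiStmt := by
  intro V _ _ Γ _ D η hη
  obtain ⟨n, hn⟩ := exists_nat_gt (16 / η)
  have hN : (0 : ℝ) < n + 1 := by positivity
  have hθ : ∀ e : E2 Γ, 4 / 5 ≤ (D.θ e.1.1 e.1.2 : ℍ[ℝ]).re := fun e => D.re _ _ e.2.1 e.2.2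
  set ψ : ℝ → E2 Γ → S3 := fun s e => path (D.θ e.1.1 e.1.2) s with hψ
  have hψc : ∀ e, Continuous fun s => ψ s e := fun e => continuous_path (hθ e)
  have hψr : ∀ s e, 4 / 5 ≤ (ψ s e : ℍ[ℝ]).re := fun s e => re_path (hθ e) s
  set X : ℝ → E3 Γ → ℕ → ℍ[ℝ] := fun s Δ j =>
    chord (cl (j / (n + 1))) ((ψ s Δ.e1 * ψ s Δ.e2 : S3) : ℍ[ℝ]) (ψ s Δ.e3) with hX
  have hXr : ∀ s Δ j, 1 / 4 ≤ (X s Δ j).re := fun s Δ j =>
    le_re_chord (cl_nonneg _) (cl_le _) (le_re_mul (hψr _ _) (hψr _ _))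
      (le_trans (by norm_num) (hψr _ _))
  have hX0 : ∀ s Δ j, X s Δ j ≠ 0 := fun s Δ j => ne_zero_of_re (by norm_num) (hXr s Δ j)
  refine ⟨n, ψ, fun s Δ j => nz (X s Δ j), hψc, fun Δ j => ?_, fun e => path_zero _,
    fun Δ j => ?_, fun e => path_one _, fun Δ j => ?_, fun s Δ => ?_, fun s Δ => ?_,
    fun s Δ j _ => ?_⟩
  · refine continuous_nz ?_ fun s => hX0 s Δ j
    exact ((continuous_subtype_val.comp ((hψc _).mul (hψc _))).const_smul (_ : ℝ)).add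
      ((continuous_subtype_val.comp (hψc _)).const_smul (_ : ℝ))
  · simp only [hX, hψ, path_zero, mul_one, chord_self, nz_coe]
  · have := D.flat _ _ _ Δ.2.1 Δ.2.2.1 Δ.2.2.2.1 Δ.2.2.2.2.1 Δ.2.2.2.2.2
    simp only [hX, hψ, path_one, E3.e1, E3.e2, E3.e3, this, chord_self, nz_coe]
  · have : cl (((0 : ℕ) : ℝ) / (n + 1)) = 0 := by simp [cl]
    simp only [hX, this, chord_zero, nz_coe]
  · have : cl (((n + 1 : ℕ) : ℝ) / (n + 1)) = 1 := by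
      rw [Nat.cast_succ, div_self hN.ne']; simp [cl]
    simp only [hX, this, chord_one, nz_coe]
  · rw [norm_mul_inv_sub]
    refine (norm_nz_sub (hX0 _ _ _) (hX0 _ _ _)).trans ?_
    have h1 : 1 / 4 ≤ ‖X s Δ j‖ := (hXr s Δ j).trans (re_le_norm _)
    have h2 : ‖X s Δ j - X s Δ (j + 1)‖ ≤ 2 * (1 / (n + 1)) := by
      refine (norm_chord_sub _ _ _ _).trans (mul_le_mul_of_nonneg_left
        ((abs_cl_sub _ _).trans (le_of_eq ?_)) (by norm_num))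
      rw [abs_sub_comm, Nat.cast_succ, ← sub_div, add_sub_cancel_left, abs_of_pos (by positivity)]
    have h3 : 16 * (1 / ((n : ℝ) + 1)) ≤ η := by
      rw [mul_one_div, div_le_iff₀ hN]
      rw [div_lt_iff₀ hη] at hn
      nlinarith
    rw [div_le_iff₀ (by linarith)]
    nlinarith

end Crest.Agent.R197
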