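import Crest.Agent.R197.Defs

/-!
# Row 197: the cube complex in apex coordinates
-/

set_option autoImplicit false
set_option linter.unusedSectionVars false

noncomputable section

namespace Crest.Agent.R197.SlabAux

open Finsupp

variable {V : Type} {Γ : SimpleGraph V}

/-- The product of the generators of a clique. -/
def gp (τ : Clq Γ) : A Γ := τ.1.noncommProd (gen Γ) fun _ ha _ hb hab => gen_comm (τ.2 ha hb hab)

theorem commute_gp {τ σ : Clq Γ} (h : τ.1 ⊆ σ.1) {v : V} (hv : v ∈ σ.1) :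
    Commute (gen Γ v) (gp τ) :=
  Finset.noncommProd_commute _ _ _ _ fun w hw => by
    rcases eq_or_ne v w with rfl | hvw
    · exact Commute.refl _
    · exact gen_comm (σ.2 hv (h hw) hvw)

theorem ht_gp (τ : Clq Γ) : ht Γ (gp τ) = τ.1.card := by
  rw [ht, gp, Finset.map_noncommProd, Finset.noncommProd_eq_pow_card _ _ _ (Multiplicative.ofAdd 1)
    fun v _ => by simp [htHom]]
  simp

variable [LinearOrder V]

theorem gp_erase {τ : Clq Γ} {v : V} (hv : v ∈ τ.1) : gp (τ.erase v) * gen Γ v = gp τ :=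
  Finset.noncommProd_erase_mul _ hv _ _ _

/-- The negative directions. -/
def neg (ε : V → Bool) (σ : Clq Γ) : Clq Γ :=
  ⟨σ.1.filter (ε · = false), σ.2.subset (Finset.coe_subset.2 (Finset.filter_subset _ _))⟩

theorem neg_subset (ε : V → Bool) (σ : Clq Γ) : (neg ε σ).1 ⊆ σ.1 := Finset.filter_subset _ _

theorem mem_neg {ε : V → Bool} {σ : Clq Γ} {v : V} : v ∈ (neg ε σ).1 ↔ v ∈ σ.1 ∧ ε v = false :=
  Finset.mem_filter

theorem neg_congr {ε ε' : V → Bool} {σ : Clq Γ} (h : ∀ v ∈ σ.1, ε v = ε' v) :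
    neg ε σ = neg ε' σ :=
  Subtype.ext (Finset.filter_congr fun v hv => by rw [h v hv])

theorem neg_erase (ε : V → Bool) (σ : Clq Γ) (v : V) : neg ε (σ.erase v) = (neg ε σ).erase v :=
  Subtype.ext (Finset.filter_erase _ _ _)

theorem erase_of_notMem {σ : Clq Γ} {v : V} (hv : v ∉ σ.1) : σ.erase v = σ :=
  Subtype.ext (Finset.erase_eq_of_notMem hv)

/-- The cube with apex `t`, directions `σ` and signs `ε`. -/
def cell (t : A Γ) (ε : V → Bool) (σ : Clq Γ) : Cube Γ := (t * (gp (neg ε σ))⁻¹, σ)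

/-- Its orientation. -/
def ori (ε : V → Bool) (σ : Clq Γ) : ℤ := (-1) ^ (neg ε σ).1.card

/-- The oriented cube. -/
def cube (t : A Γ) (ε : V → Bool) (σ : Clq Γ) : Cube Γ →₀ ℤ := single (cell t ε σ) (ori ε σ)

theorem ori_mul_self (ε : V → Bool) (σ : Clq Γ) : ori ε σ * ori ε σ = 1 := by
  rw [ori, ← mul_pow]; simp

theorem cube_congr (t : A Γ) {ε ε' : V → Bool} {σ : Clq Γ} (h : ∀ v ∈ σ.1, ε v = ε' v) :
    cube t ε σ = cube t ε' σ := by
  rw [cube, cube, cell, cell, ori, ori, neg_congr h]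

theorem dC_single (c : Cube Γ) (k : ℤ) : dC Γ (single c k) = k • ∑ v ∈ c.2.1, sgn c.2.1 v •
    (single (c.1 * gen Γ v, c.2.erase v) (1 : ℤ) - single (c.1, c.2.erase v) 1) := by
  simp only [dC, linearCombination_single]

theorem bdL_single (σ : Clq Γ) (k : ℤ) :
    bdL Γ (single σ k) = k • ∑ v ∈ σ.1, sgn σ.1 v • single (σ.erase v) (1 : ℤ) := by
  simp only [bdL, linearCombination_single]

theorem dC_cube (t : A Γ) (ε : V → Bool) (σ : Clq Γ) : dC Γ (cube t ε σ) =
    ∑ v ∈ σ.1, sgn σ.1 v • (cube (t * lt Γ (v, ε v)) ε (σ.erase v) - cube t ε (σ.erase v)) := by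
  rw [cube, dC_single, Finset.smul_sum]
  refine Finset.sum_congr rfl fun v hv => ?_
  rw [smul_comm]
  congr 1
  simp only [cube, cell, ori, neg_erase, smul_sub, smul_single, smul_eq_mul, mul_one]
  cases h : ε v
  · have hv' : v ∈ (neg ε σ).1 := mem_neg.2 ⟨hv, h⟩
    have h1 := gp_erase hv'
    have h2 := (commute_gp (τ := (neg ε σ).erase v)
      ((Finset.erase_subset v _).trans (neg_subset ε σ)) hv).eq
    have h3 : (-1 : ℤ) ^ (neg ε σ).1.card = -(-1) ^ ((neg ε σ).erase v).1.card := by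
      rw [← Finset.card_erase_add_one hv', pow_succ, mul_neg_one]
      rfl
    have h4 : t * (gp (neg ε σ))⁻¹ * gen Γ v = t * (gp ((neg ε σ).erase v))⁻¹ := by
      rw [← h1, ← h2]; group
    have h5 : t * lt Γ (v, false) * (gp ((neg ε σ).erase v))⁻¹ = t * (gp (neg ε σ))⁻¹ := by
      rw [← h1]; simp [lt, mul_assoc]
    rw [h3, h4, h5, single_neg, single_neg]
    abel
  · have hv' : v ∉ (neg ε σ).1 := fun h' => by simp [mem_neg, h] at h'
    rw [erase_of_notMem hv', mul_assoc, ← (commute_gp (neg_subset ε σ) hv).inv_right.eq,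
      ← mul_assoc]
    rfl

theorem sgn_erase {σ : Finset V} {v w : V} (hv : v ∈ σ) :
    sgn (σ.erase v) w = if v < w then -sgn σ w else sgn σ w := by
  rw [sgn, sgn, Finset.filter_erase]
  split_ifs with h
  · rw [← Finset.card_erase_add_one (s := σ.filter (· < w)) (a := v) (by simp [hv, h]), pow_succ]
    simp
  · rw [Finset.erase_eq_of_notMem (by simp [h])]

theorem dC_dC (y : Cube Γ →₀ ℤ) : dC Γ (dC Γ y) = 0 := by
  induction y using Finsupp.induction_linear with
  | zero => simp
  | add a b ha hb => simp [ha, hb]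
  | single c k =>
    obtain ⟨a, σ⟩ := c
    let f : V → V → (Cube Γ →₀ ℤ) := fun v w => (sgn σ.1 v * sgn (σ.1.erase v) w) •
      (single (a * gen Γ v * gen Γ w, (σ.erase v).erase w) (1 : ℤ) -
        single (a * gen Γ v, (σ.erase v).erase w) 1 -
        (single (a * gen Γ w, (σ.erase v).erase w) 1 - single (a, (σ.erase v).erase w) 1))
    have h1 : ∑ v ∈ σ.1, ∑ w ∈ σ.1.erase v, f v w = -∑ v ∈ σ.1, ∑ w ∈ σ.1.erase v, f v w := by
      conv_rhs => rw [Finset.sum_comm' (t' := σ.1) (s' := fun w => σ.1.erase w)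
        (by simp +contextual [eq_comm, and_left_comm, ← and_assoc])]
      simp only [← Finset.sum_neg_distrib]
      refine Finset.sum_congr rfl fun v hv => Finset.sum_congr rfl fun w hw => ?_
      obtain ⟨hwv, hw⟩ := Finset.mem_erase.1 hw
      have h2 : (σ.erase w).erase v = (σ.erase v).erase w := Subtype.ext Finset.erase_right_comm
      have h3 : a * gen Γ w * gen Γ v = a * gen Γ v * gen Γ w := by
        rw [mul_assoc, mul_assoc, (gen_comm (σ.2 hw hv hwv)).eq]
      simp only [f, h2, h3, sgn_erase hv, sgn_erase hw, ← neg_smul]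
      congr 1
      · rcases hwv.lt_or_gt with h | h <;> simp [h, h.not_gt, mul_comm]
      · abel
    have h2 : ∑ v ∈ σ.1, ∑ w ∈ σ.1.erase v, f v w = 0 := by
      ext c
      have := DFunLike.congr_fun h1 c
      rw [Finsupp.neg_apply] at this
      rw [Finsupp.zero_apply]
      omega
    rw [dC_single, map_smul, map_sum, ← smul_zero k, ← h2]
    congr 1
    refine Finset.sum_congr rfl fun v _ => ?_
    rw [map_smul, map_sub, dC_single, dC_single, one_smul, one_smul, ← Finset.sum_sub_distrib,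
      Finset.smul_sum]
    refine Finset.sum_congr rfl fun w _ => ?_
    rw [← smul_sub, smul_smul]
    rfl

theorem filter_dC (n : ℕ) (y : Cube Γ →₀ ℤ) :
    (dC Γ y).filter (fun c => c.2.1.card = n) = dC Γ (y.filter fun c => c.2.1.card = n + 1) := by
  induction y using Finsupp.induction_linear with
  | zero => simp [filter_zero]
  | add a b ha hb => simp [filter_add, ha, hb]
  | single c k =>
    have key : ∀ v ∈ c.2.1, (c.2.erase v).1.card = n ↔ c.2.1.card = n + 1 := fun v hv => by
      rw [← Finset.card_erase_add_one hv, Nat.add_right_cancel_iff]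
      rfl
    have pos : ∀ (m : ℕ) (c : Cube Γ) (k : ℤ), c.2.1.card = m →
        (single c k).filter (fun c => c.2.1.card = m) = single c k := fun m c k h =>
      filter_single_of_pos (fun c : Cube Γ => c.2.1.card = m) h
    have neg : ∀ (m : ℕ) (c : Cube Γ) (k : ℤ), c.2.1.card ≠ m →
        (single c k).filter (fun c => c.2.1.card = m) = 0 := fun m c k h =>
      filter_single_of_neg (fun c : Cube Γ => c.2.1.card = m) h
    by_cases h : c.2.1.card = n + 1
    · rw [pos _ _ _ h, dC_single, filter_smul, filter_sum]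
      congr 1
      refine Finset.sum_congr rfl fun v hv => ?_
      rw [filter_smul, filter_sub, pos _ _ _ ((key v hv).2 h), pos _ _ _ ((key v hv).2 h)]
    · rw [neg _ _ _ h, dC_single, filter_smul, filter_sum, map_zero, Finset.sum_eq_zero, smul_zero]
      intro v hv
      rw [filter_smul, filter_sub, neg _ _ _ (mt (key v hv).1 h), neg _ _ _ (mt (key v hv).1 h),
        sub_zero, smul_zero]

/-- Projection to one degree. -/
theorem exists_card {n : ℕ} {S : Set (Cube Γ)} {w z : Cube Γ →₀ ℤ} (hw : w ∈ supported ℤ ℤ S)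
    (hz : z ∈ supported ℤ ℤ {c : Cube Γ | c.2.1.card = n})
    (h : z - dC Γ w ∈ supported ℤ ℤ {c : Cube Γ | c.2.1.card ≠ n}) :
    ∃ y ∈ supported ℤ ℤ {c ∈ S | c.2.1.card = n + 1}, dC Γ y = z := by
  rw [mem_supported'] at hw hz h
  refine ⟨w.filter fun c => c.2.1.card = n + 1, (mem_supported' _ _).2 fun c hc => ?_, ?_⟩
  · rw [filter_apply]
    split_ifs with h1
    exacts [hw c fun h2 => hc ⟨h2, h1⟩, rfl]
  · rw [← filter_dC]
    ext c
    rw [filter_apply]
    split_ifs with h1
    · exact (sub_eq_zero.1 (h c fun h2 => h2 h1)).symm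
    · exact (hz c h1).symm

end Crest.Agent.R197.SlabAux
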