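import Crest.Agent.R197.SlabA

/-!
# Row 197: a Morse lemma for the cube complex
-/

set_option autoImplicit false
set_option linter.unusedSectionVars false

noncomputable section

namespace Crest.Agent.R197.SlabAux

open Finsupp

theorem map_mem {α M : Type} [AddCommGroup M] {s : Set α} (f : (α →₀ ℤ) →ₗ[ℤ] M)
    {T : Submodule ℤ M} (h : ∀ a ∈ s, f (single a 1) ∈ T) {x : α →₀ ℤ}
    (hx : x ∈ supported ℤ ℤ s) : f x ∈ T := by
  rw [supported_eq_span_single] at hx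
  exact (Submodule.span_le (p := T.comap f)).2 (by rintro _ ⟨a, ha, rfl⟩; exact h a ha) hx

theorem map_eq {α M : Type} [AddCommGroup M] {s : Set α} (f g : (α →₀ ℤ) →ₗ[ℤ] M)
    (h : ∀ a ∈ s, f (single a 1) = g (single a 1)) {x : α →₀ ℤ}
    (hx : x ∈ supported ℤ ℤ s) : f x = g x :=
  sub_eq_zero.1 (map_mem (f - g) (T := ⊥) (fun a ha => sub_eq_zero.2 (h a ha)) hx)

variable {V : Type} [LinearOrder V]

/-- A Morse function: every cube under consideration has a unique apex. -/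
structure Morse (Γ : SimpleGraph V) where
  ε : A Γ → V → Bool
  lev : A Γ → ℕ
  Al : A Γ → Set (Clq Γ)
  inj : ∀ t t' σ, σ ∈ Al t → σ ∈ Al t' → cell t (ε t) σ = cell t' (ε t') σ → t = t'
  down : ∀ t, ∀ σ ∈ Al t, ∀ v, σ.erase v ∈ Al t
  low : ∀ t, ∀ σ ∈ Al t, ∀ v ∈ σ.1, σ.erase v ∈ Al (t * lt Γ (v, ε t v)) ∧
    lev (t * lt Γ (v, ε t v)) ≤ lev t - 1 ∧ ∀ w ∈ (σ.erase v).1, ε (t * lt Γ (v, ε t v)) w = ε t w
  link : ∀ t, lev t ≠ 0 → ∀ y ∈ supported ℤ ℤ (Al t), bdL Γ y = 0 →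
    ∃ w ∈ supported ℤ ℤ (Al t), bdL Γ w = y

variable {Γ : SimpleGraph V}

/-- The boundary in the links. -/
def bdB : (Cube Γ →₀ ℤ) →ₗ[ℤ] (Cube Γ →₀ ℤ) :=
  linearCombination ℤ fun p => ∑ v ∈ p.2.1, sgn p.2.1 v • single (p.1, p.2.erase v) 1

theorem curry_bdB (x : Cube Γ →₀ ℤ) (t : A Γ) : (bdB x).curry t = bdL Γ (x.curry t) := by
  refine DFunLike.congr_fun (?_ : (lapply t ∘ₗ (curryLinearEquiv ℤ).toLinearMap) ∘ₗ bdB =
    bdL Γ ∘ₗ lapply t ∘ₗ (curryLinearEquiv ℤ).toLinearMap) x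
  refine lhom_ext fun p k => ?_
  simp only [LinearMap.comp_apply, bdB, linearCombination_single, map_smul, map_sum]
  classical
  by_cases h : p.1 = t <;> simp [h, bdL_single]

namespace Morse

variable (M : Morse Γ)

/-- Apex coordinates of level at most `n`. -/
def P (n : ℕ) : Set (Cube Γ) := {p | p.2 ∈ M.Al p.1 ∧ M.lev p.1 ≤ n}

/-- Cubes of level at most `n`. -/
def S (n : ℕ) : Set (Cube Γ) := {c | ∃ t, c.2 ∈ M.Al t ∧ M.lev t ≤ n ∧ cell t (M.ε t) c.2 = c}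

/-- From apex coordinates to cubes. -/
def Φ : (Cube Γ →₀ ℤ) →ₗ[ℤ] (Cube Γ →₀ ℤ) := linearCombination ℤ fun p => cube p.1 (M.ε p.1) p.2

/-- The level decreasing part of the boundary. -/
def N : (Cube Γ →₀ ℤ) →ₗ[ℤ] (Cube Γ →₀ ℤ) :=
  linearCombination ℤ fun p => ∑ v ∈ p.2.1, sgn p.2.1 v •
    single (p.1 * lt Γ (v, M.ε p.1 v), p.2.erase v) 1

variable {M} {n : ℕ} {x : Cube Γ →₀ ℤ}

theorem dC_Φ (hx : x ∈ supported ℤ ℤ (M.P n)) : dC Γ (M.Φ x) = M.Φ (M.N x - bdB x) := by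
  have := map_eq (dC Γ ∘ₗ M.Φ) (M.Φ ∘ₗ (M.N - bdB)) (fun p hp => ?_) hx
  · rwa [LinearMap.comp_apply, LinearMap.comp_apply, LinearMap.sub_apply] at this
  simp only [LinearMap.comp_apply, LinearMap.sub_apply, Φ, N, bdB, linearCombination_single,
    one_smul, map_sub, map_sum, map_smul, dC_cube, smul_sub, Finset.sum_sub_distrib]
  congr 1
  exact Finset.sum_congr rfl fun v hv => by rw [cube_congr _ (M.low _ _ hp.1 v hv).2.2]

theorem N_mem (hx : x ∈ supported ℤ ℤ (M.P (n + 1))) : M.N x ∈ supported ℤ ℤ (M.P n) := by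
  refine map_mem M.N (fun p hp => ?_) hx
  rw [N, linearCombination_single, one_smul]
  refine Submodule.sum_mem _ fun v hv => Submodule.smul_mem _ _ (single_mem_supported _ _ ?_)
  exact ⟨(M.low _ _ hp.1 v hv).1, (M.low _ _ hp.1 v hv).2.1.trans (Nat.sub_le_of_le_add hp.2)⟩

theorem bdB_mem (hx : x ∈ supported ℤ ℤ (M.P n)) : bdB x ∈ supported ℤ ℤ (M.P n) := by
  refine map_mem bdB (fun p hp => ?_) hx
  rw [bdB, linearCombination_single, one_smul]
  exact Submodule.sum_mem _ fun v _ => Submodule.smul_mem _ _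
    (single_mem_supported _ _ ⟨M.down _ _ hp.1 v, hp.2⟩)

theorem Φ_mem (hx : x ∈ supported ℤ ℤ (M.P n)) : M.Φ x ∈ supported ℤ ℤ (M.S n) := by
  refine map_mem M.Φ (fun p hp => ?_) hx
  rw [Φ, linearCombination_single, one_smul]
  exact single_mem_supported _ _ ⟨p.1, hp.1, hp.2, rfl⟩

theorem Φ_apply (hx : x ∈ supported ℤ ℤ (M.P n)) {t : A Γ} {σ : Clq Γ} (h : σ ∈ M.Al t) :
    M.Φ x (cell t (M.ε t) σ) = ori (M.ε t) σ * x (t, σ) := by
  refine map_eq (lapply (cell t (M.ε t) σ) ∘ₗ M.Φ) (ori (M.ε t) σ • lapply (t, σ))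
    (fun p hp => ?_) hx
  simp only [LinearMap.comp_apply, Φ, linearCombination_single, one_smul, lapply_apply,
    LinearMap.smul_apply, smul_eq_mul, cube]
  rcases eq_or_ne p (t, σ) with rfl | hne
  · simp
  · rw [single_eq_of_ne' hne, mul_zero, single_eq_of_ne' fun h' => hne ?_]
    obtain ⟨t', σ'⟩ := p
    obtain rfl : σ' = σ := congrArg Prod.snd h'
    exact Prod.ext (M.inj _ _ _ hp.1 h h') rfl

theorem P_mono {m : ℕ} (h : n ≤ m) : supported ℤ ℤ (M.P n) ≤ supported ℤ ℤ (M.P m) :=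
  supported_mono fun _ hp => ⟨hp.1, hp.2.trans h⟩

theorem step (hx : x ∈ supported ℤ ℤ (M.P (n + 1))) (hd : dC Γ (M.Φ x) ∈ supported ℤ ℤ (M.S 0)) :
    ∃ W ∈ supported ℤ ℤ (M.P (n + 1)), x - bdB W ∈ supported ℤ ℤ (M.P n) := by
  have h1 := sub_mem (P_mono n.le_succ (N_mem hx)) (bdB_mem hx)
  have h2 : ∀ t, ∃ w ∈ supported ℤ ℤ (M.Al t), (M.lev t = n + 1 → bdL Γ w = x.curry t) ∧
      (M.lev t ≠ n + 1 ∨ x.curry t = 0 → w = 0) := fun t => by
    by_cases h : M.lev t ≠ n + 1 ∨ x.curry t = 0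
    · exact ⟨0, zero_mem _, fun h' => by simp [h.resolve_left (not_not.2 h')], fun _ => rfl⟩
    have ht : M.lev t = n + 1 := not_not.1 (not_or.1 h).1
    obtain ⟨w, hw, hw'⟩ := M.link t (by omega) (x.curry t)
      ((mem_supported' _ _).2 fun σ hσ => (mem_supported' _ _).1 hx _ fun h => hσ h.1) (by
        rw [← curry_bdB]
        ext σ
        by_cases hσ : σ ∈ M.Al t
        · have h3 := Φ_apply h1 hσ
          rw [← dC_Φ hx, (mem_supported' _ _).1 hd _ (by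
            rintro ⟨t', h4, h5, h6⟩
            rw [M.inj _ _ _ h4 hσ h6] at h5
            omega), Finsupp.sub_apply, (mem_supported' _ _).1 (N_mem hx) _ (fun h => by
              have := h.2
              dsimp only at this
              omega)] at h3
          simpa [ori] using h3
        · exact (mem_supported' _ _).1 (bdB_mem hx) _ fun h => hσ h.1)
    exact ⟨w, hw, fun _ => hw', fun h' => absurd h' h⟩
  choose w hw hw' hw'' using h2
  have h3 : (onFinset x.curry.support w fun t ht => mem_support_iff.2 fun h =>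
      ht (hw'' t (Or.inr h))).uncurry ∈ supported ℤ ℤ (M.P (n + 1)) := by
    refine (mem_supported' _ _).2 fun p hp => ?_
    by_cases h : M.lev p.1 = n + 1
    · exact (mem_supported' _ _).1 (hw p.1) _ fun h' => hp ⟨h', h.le⟩
    · exact DFunLike.congr_fun (hw'' p.1 (Or.inl h)) p.2
  refine ⟨_, h3, (mem_supported' _ _).2 fun p hp => ?_⟩
  by_cases h : M.lev p.1 = n + 1
  · rw [Finsupp.sub_apply, sub_eq_zero, ← Prod.mk.eta (p := p), ← curry_apply, ← curry_apply,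
      curry_bdB, curry_uncurry, onFinset_apply, hw' _ h]
  · exact (mem_supported' _ _).1 (sub_mem hx (bdB_mem h3)) _ fun h' =>
      hp ⟨h'.1, by have := h'.2; omega⟩

theorem reduce_aux (hx : x ∈ supported ℤ ℤ (M.P n)) (hd : dC Γ (M.Φ x) ∈ supported ℤ ℤ (M.S 0)) :
    ∃ w, M.Φ x - dC Γ w ∈ supported ℤ ℤ (M.S 0) := by
  induction n generalizing x with
  | zero => exact ⟨0, by simpa using Φ_mem hx⟩
  | succ n ih =>
    obtain ⟨W, hW, hW'⟩ := step hx hd
    have h1 : M.Φ (x - bdB W + M.N W) = M.Φ x + dC Γ (M.Φ W) := by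
      rw [dC_Φ hW, ← map_add]
      congr 1
      abel
    obtain ⟨w, hw⟩ := ih (add_mem hW' (N_mem hW)) (by rwa [h1, map_add, dC_dC, add_zero])
    exact ⟨w - M.Φ W, by rw [h1] at hw; convert hw using 1; rw [map_sub]; abel⟩

/-- The Morse lemma. -/
theorem reduce (M : Morse Γ) {y : Cube Γ →₀ ℤ}
    (hy : y ∈ supported ℤ ℤ {c | ∃ t, c.2 ∈ M.Al t ∧ cell t (M.ε t) c.2 = c})
    (hd : dC Γ y ∈ supported ℤ ℤ (M.S 0)) : ∃ w, y - dC Γ w ∈ supported ℤ ℤ (M.S 0) := by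
  obtain ⟨x, hx, rfl⟩ : y ∈ (supported ℤ ℤ {p | p.2 ∈ M.Al p.1}).map M.Φ := by
    refine map_mem LinearMap.id (fun c hc => ?_) hy
    obtain ⟨t, h1, h2⟩ := hc
    exact ⟨single (t, c.2) (ori (M.ε t) c.2), single_mem_supported _ _ h1, by
      simp [Φ, cube, ori_mul_self, h2]⟩
  exact reduce_aux (n := x.support.sup fun p => M.lev p.1)
    (fun p hp => ⟨hx hp, Finset.le_sup (f := fun p : Cube Γ => M.lev p.1) hp⟩) hd

end Morse

end Crest.Agent.R197.SlabAux
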