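import Crest.Agent.R197.Defs

/-!
# Row 197: from a two-dimensional CW complex to a presentation; definitions and steps

* `Graph`, `Cx`: one- and two-dimensional cell structures in a convenient form;
* `Graph.EP`: the homotopy class of an edge path;
* `Pot`, `Pot.Dev`, `Pot.IsHol`: flat connections given by local potentials and their holonomy;
* `GPres`: a presentation with several vertices.
-/

set_option autoImplicit false

noncomputable section

namespace Crest.Agent.R197

open unitInterval _root_.Topology Set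

/-- Homotopy classes of paths. -/
abbrev PQ {Z : Type} [TopologicalSpace Z] (x y : Z) : Type := Path.Homotopic.Quotient x y

/-- A one-dimensional cell structure. -/
structure Graph (Z : Type) [TopologicalSpace Z] where
  V : Type
  E : Type
  o : E → V
  t : E → V
  vtx : V → Z
  edge : ∀ e, Path (vtx (o e)) (vtx (t e))
  vtx_inj : Function.Injective vtx
  edge_inj : ∀ e e' (r r' : I), 0 < r → r < 1 → edge e r = edge e' r' → e = e' ∧ r = r'
  edge_ne : ∀ e (r : I) v, 0 < r → r < 1 → edge e r ≠ vtx v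
  cover : ∀ z, (∃ v, z = vtx v) ∨ ∃ e r, z = edge e r
  closed : ∀ B : Set Z, (∀ e, IsClosed (edge e ⁻¹' B)) → IsClosed B

/-- `EP v w v' ξ`: the word `w` is an edge path from `v` to `v'` with homotopy class `ξ`. -/
inductive Graph.EP {Z : Type} [TopologicalSpace Z] (K : Graph Z) :
    ∀ (v : K.V) (_ : List (K.E × Bool)) (v' : K.V), PQ (K.vtx v) (K.vtx v') → Prop
  | nil (v : K.V) : Graph.EP K v [] v (.refl _)
  | pos (e : K.E) (w : List (K.E × Bool)) (v : K.V) (ξ : PQ (K.vtx (K.t e)) (K.vtx v)) :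
      Graph.EP K (K.t e) w v ξ →
        Graph.EP K (K.o e) ((e, true) :: w) v ((Path.Homotopic.Quotient.mk (K.edge e)).trans ξ)
  | neg (e : K.E) (w : List (K.E × Bool)) (v : K.V) (ξ : PQ (K.vtx (K.o e)) (K.vtx v)) :
      Graph.EP K (K.o e) w v ξ →
        Graph.EP K (K.t e) ((e, false) :: w) v
          ((Path.Homotopic.Quotient.mk (K.edge e)).symm.trans ξ)

theorem Graph.EP.isPath {Z : Type} [TopologicalSpace Z] {K : Graph Z} {v v' : K.V}
    {w : List (K.E × Bool)} {ξ : PQ (K.vtx v) (K.vtx v')} (h : K.EP v w v' ξ) :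
    IsPath K.o K.t v w v' := by
  induction h with
  | nil v => exact .nil v
  | pos e w v ξ _ ih => exact .pos e w v ih
  | neg e w v ξ _ ih => exact .neg e w v ih

theorem IsPath.exists_EP {Z : Type} [TopologicalSpace Z] {K : Graph Z} {v v' : K.V}
    {w : List (K.E × Bool)} (h : IsPath K.o K.t v w v') : ∃ ξ, K.EP v w v' ξ := by
  induction h with
  | nil v => exact ⟨_, .nil v⟩
  | pos e w v _ ih => exact ⟨_, .pos e w v _ ih.choose_spec⟩
  | neg e w v _ ih => exact ⟨_, .neg e w v _ ih.choose_spec⟩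

/-- The closed unit disc. -/
abbrev Disc : Type := Metric.closedBall (0 : ℂ) 1

/-- The centre of the disc. -/
def ctr : Disc := ⟨0, by simp⟩

/-- The boundary circle. -/
def inc : C(Circle, Disc) := ⟨fun z => ⟨z, by simp⟩, by fun_prop⟩

/-- The standard loop on the circle. -/
def circ : Path (1 : Circle) 1 where
  toFun s := Circle.exp (2 * Real.pi * s)
  continuous_toFun := by fun_prop
  source' := by simp
  target' := by simp

/-- A two-dimensional cell structure. -/
structure Cx (X : Type) [TopologicalSpace X] where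
  Z : Type
  [top : TopologicalSpace Z]
  G : Graph Z
  ι : C(Z, X)
  ι_inj : Function.Injective ι
  F : Type
  face : F → C(Disc, X)
  att : F → C(Circle, Z)
  face_inc : ∀ f z, face f (inc z) = ι (att f z)
  face_inj : ∀ f f' (z z' : Disc), ‖(z : ℂ)‖ < 1 → face f z = face f' z' → f = f' ∧ z = z'
  face_ne : ∀ f (z : Disc) y, ‖(z : ℂ)‖ < 1 → face f z ≠ ι y
  cover : ∀ x, (∃ y, x = ι y) ∨ ∃ f z, x = face f z
  closed : ∀ B : Set X, IsClosed (ι ⁻¹' B) → (∀ f, IsClosed (face f ⁻¹' B)) → IsClosed B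

attribute [instance] Cx.top

/-- The attaching loop of a face. -/
def Cx.loop {X : Type} [TopologicalSpace X] (K : Cx X) (f : K.F) : PQ (K.att f 1) (K.att f 1) :=
  (Path.Homotopic.Quotient.mk circ).map (K.att f)

/-- The element of the fundamental group given by an edge. -/
def Cx.lab {X : Type} [TopologicalSpace X] (K : Cx X) (x : X)
    (τ : ∀ v, PQ x (K.ι (K.G.vtx v))) (e : K.G.E) : (FundamentalGroup X x)ᵐᵒᵖ :=
  MulOpposite.op (FundamentalGroup.fromPath ((τ (K.G.o e)).trans
    (((Path.Homotopic.Quotient.mk (K.G.edge e)).map K.ι).trans (τ (K.G.t e)).symm)))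

/-- A flat connection, given by germs of potentials. -/
structure Pot (Z : Type) [TopologicalSpace Z] (G : Type) [Group G] where
  u : Z → Z → G
  self : ∀ z, u z z = 1
  loc : ∀ z, ∀ᶠ y in 𝓝 z, ∀ᶠ y' in 𝓝 y, u z y' = u z y * u y y'

namespace Pot
variable {Z G : Type} [TopologicalSpace Z] [Group G] (p : Pot Z G)

/-- `c` is a development of the connection along `γ`. -/
def Dev {T : Type} [TopologicalSpace T] (γ : T → Z) (c : T → G) : Prop :=
  ∀ t, ∀ᶠ t' in 𝓝 t, c t' = c t * p.u (γ t) (γ t')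

/-- `h` is the holonomy of the connection. -/
structure IsHol (h : ∀ {x y : Z}, PQ x y → G) : Prop where
  trans : ∀ {x y z : Z} (ξ : PQ x y) (ζ : PQ y z), h (ξ.trans ζ) = h ξ * h ζ
  ex : ∀ {x y : Z} (γ : Path x y), ∃ c : I → G, p.Dev γ c
  eq : ∀ {x y : Z} (γ : Path x y) (c : I → G), p.Dev γ c →
    c 1 = c 0 * h (Path.Homotopic.Quotient.mk γ)

end Pot

/-- A presentation with several vertices. -/
structure GPres (D : Type) [Group D] where
  V : Type
  E : Type
  F : Type
  o : E → V
  t : E → V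
  v0 : V
  lab : E → D
  base : F → V
  bd : F → List (E × Bool)
  bd_path : ∀ f, IsPath o t (base f) (bd f) (base f)
  conn : ∀ v, ∃ w, IsPath o t v0 w v
  surj : ∀ d, ∃ w, IsPath o t v0 w v0 ∧ FreeGroup.lift lab (FreeGroup.mk w) = d
  rel_one : ∀ f, FreeGroup.lift lab (FreeGroup.mk (bd f)) = 1
  ker : ∀ (G : Type) [Group G] (lam : E → G),
    (∀ f, FreeGroup.lift lam (FreeGroup.mk (bd f)) = 1) → ∀ w, IsPath o t v0 w v0 →
      FreeGroup.lift lab (FreeGroup.mk w) = 1 → FreeGroup.lift lam (FreeGroup.mk w) = 1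
  inj : ∀ y : D × F →₀ ℤ,
    Finsupp.linearCombination ℤ (fun β => chain lab β.1 (FreeGroup.mk (bd β.2))) y = 0 → y = 0

/-! ## The steps -/

/-- Mathlib's CW complexes of dimension at most two give a `Cx`. -/
def ExtractStmt : Prop :=
  ∀ (X : Type) [TopologicalSpace X] [T2Space X] [CWComplex (univ : Set X)],
    (∀ n : ℕ, 2 < n → IsEmpty (RelCWComplex.cell (univ : Set X) n)) → Nonempty (Cx X)

/-- A class of paths closed under composition and containing the small paths is everything. -/
def GenStmt : Prop :=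
  ∀ (Z : Type) [TopologicalSpace Z] (Good : ∀ {x y : Z}, PQ x y → Prop),
    (∀ {x y z : Z} (ξ : PQ x y) (ζ : PQ y z), Good ξ → Good ζ → Good (ξ.trans ζ)) →
    (∀ z : Z, ∃ U ∈ 𝓝 z, ∀ {x y : Z} (γ : Path x y), (∀ s, γ s ∈ U) →
      Good (Path.Homotopic.Quotient.mk γ)) →
    ∀ {x y : Z} (ξ : PQ x y), Good ξ

/-- Existence of the holonomy. -/
def PotStmt : Prop :=
  ∀ (Z G : Type) [TopologicalSpace Z] [Group G] (p : Pot Z G),
    ∃ h : ∀ {x y : Z}, PQ x y → G, p.IsHol h

/-- Paths between vertices of a graph are homotopic to edge paths. -/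
def GraphGenStmt : Prop :=
  ∀ (Z : Type) [TopologicalSpace Z] (K : Graph Z) (v v' : K.V) (ξ : PQ (K.vtx v) (K.vtx v')),
    ∃ w, K.EP v w v' ξ

/-- A flat connection on a graph with given values on the edges. -/
def GraphPotStmt : Prop :=
  ∀ (Z G : Type) [TopologicalSpace Z] [Group G] (K : Graph Z) (lam : K.E → G),
    ∃ p : Pot Z G, ∀ e, ∃ c : I → G, p.Dev (K.edge e) c ∧ c 0 = 1 ∧ c 1 = lam e

/-- Paths can be pushed into the `1`-skeleton. -/
def SurjStmt : Prop :=
  ∀ (X : Type) [TopologicalSpace X] (K : Cx X) (z z' : K.Z) (ξ : PQ (K.ι z) (K.ι z')),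
    ∃ ξ₁ : PQ z z', ξ₁.map K.ι = ξ

/-- A flat connection without holonomy along the attaching loops extends over the faces. -/
def ExtendStmt : Prop :=
  ∀ (X G : Type) [TopologicalSpace X] [Group G] (K : Cx X) (p : Pot K.Z G),
    (∀ f, ∃ c : I → G, p.Dev (fun s => K.att f (circ s)) c ∧ c 1 = c 0) →
      ∃ p' : Pot X G, ∀ z z', p'.u (K.ι z) (K.ι z') = p.u z z'

/-- Winding numbers around the centre of an open disc in a contractible space. -/
def WindStmt : Prop :=
  ∀ (E : Type) [TopologicalSpace E] [T2Space E] [ContractibleSpace E] (φ : C(Disc, E)),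
    (∀ z w : Disc, ‖(z : ℂ)‖ < 1 → φ z = φ w → z = w) →
    IsOpen (φ '' {z | ‖(z : ℂ)‖ < 1}) →
      ∃ (M : Type) (_ : AddCommGroup M) (Δ : C(I, E) → M),
        (∀ {x y z : E} (γ : Path x y) (γ' : Path y z), (∀ s, γ s ≠ φ ctr) → (∀ s, γ' s ≠ φ ctr) →
          Δ (γ.trans γ') = Δ γ + Δ γ') ∧
        (∀ (γ γ' : C(I, E)) (F : γ.HomotopyRel γ' {0, 1}), (∀ q, F q ≠ φ ctr) → Δ γ = Δ γ') ∧
        ∀ n : ℤ, n • Δ (φ.comp (inc.comp circ.toContinuousMap)) = 0 → n = 0

/-- The universal cover has no `2`-cycles. -/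
def InjStmt : Prop :=
  ∀ (X : Type) [TopologicalSpace X] [T2Space X] (K : Cx X),
    Crest.Topology.HasContractibleCover X → ∀ (x : X) (τ : ∀ v, PQ x (K.ι (K.G.vtx v)))
      (base : K.F → K.G.V) (bd : K.F → List (K.G.E × Bool))
      (c : ∀ f, PQ (K.G.vtx (base f)) (K.att f 1)),
      (∀ f, K.G.EP (base f) (bd f) (base f) ((c f).trans ((K.loop f).trans (c f).symm))) →
        ∀ y : (FundamentalGroup X x)ᵐᵒᵖ × K.F →₀ ℤ,
          Finsupp.linearCombination ℤ
            (fun β => chain (K.lab x τ) β.1 (FreeGroup.mk (bd β.2))) y = 0 → y = 0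

/-- The presentation read off from the cells. -/
def GPresStmt : Prop :=
  ∀ (X : Type) [TopologicalSpace X] [T2Space X] (_ : Cx X),
    Crest.Topology.HasContractibleCover X → ∀ x : X, Nonempty (GPres (FundamentalGroup X x)ᵐᵒᵖ)

/-- Collapsing a spanning tree. -/
def TreeStmt : Prop :=
  ∀ (D : Type) [Group D] (_ : GPres D), ∃ P : HPres D, P.Asph

/-- Transport of a presentation along an isomorphism. -/
theorem HPres.Asph.transport {D G : Type} [Group D] [Group G] {P : HPres D} (hP : P.Asph)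
    (e : D ≃* G) : ∃ P' : HPres G, P'.Asph := by
  have h1 : ∀ w, FreeGroup.lift (fun s => e (P.gen s)) w = e (FreeGroup.lift P.gen w) := fun w =>
    (DFunLike.congr_fun (FreeGroup.ext_hom (e.toMonoidHom.comp (FreeGroup.lift P.gen))
      (FreeGroup.lift fun s => e (P.gen s)) (by simp)) w).symm
  let P' : HPres G := ⟨P.S, P.R, fun s => e (P.gen s), P.rel, fun r => by
    rw [h1, P.rel_one, map_one]⟩
  have h2 : ∀ w h, chain P'.gen (e h) w =
      Finsupp.mapDomain (fun x : D × P.S => (e x.1, x.2)) (chain P.gen h w) := by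
    intro w
    induction w using FreeGroup.induction_on with
    | C1 => simp
    | of s => simp
    | inv_of s ih =>
      intro h
      simp only [chain_inv, FreeGroup.lift_apply_of, chain_of]
      rw [← Finsupp.single_neg, ← Finsupp.single_neg, Finsupp.mapDomain_single]
      simp [P']
    | mul a b ha hb =>
      intro h
      rw [chain_mul, chain_mul, Finsupp.mapDomain_add, ha, ← hb, map_mul, ← h1]
  refine ⟨P', fun g => ?_, fun w hw => hP.ker w (e.injective (by rw [← h1, map_one]; exact hw)),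
    ?_⟩
  · obtain ⟨w, hw⟩ := hP.surj (e.symm g)
    exact ⟨w, (h1 w).trans (by rw [hw]; simp)⟩
  · have h3 : ∀ y : D × P.R →₀ ℤ,
        P'.d2 (Finsupp.mapDomain (fun x : D × P.R => (e x.1, x.2)) y) =
          Finsupp.mapDomain (fun x : D × P.S => (e x.1, x.2)) (P.d2 y) := by
      intro y
      induction y using Finsupp.induction_linear with
      | zero => simp
      | add a b ha hb => simp [Finsupp.mapDomain_add, ha, hb]
      | single β k =>
        obtain ⟨h, r⟩ := β
        rw [Finsupp.mapDomain_single, P.d2_single, Finsupp.mapDomain_smul, ← h2]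
        exact P'.d2_single _ _ _
    rw [injective_iff_map_eq_zero]
    intro y hy
    obtain ⟨y, rfl⟩ := Finsupp.mapDomain_surjective (M := ℤ)
      (f := fun x : D × P.R => (e x.1, x.2)) (e.surjective.prodMap Function.surjective_id) y
    rw [h3] at hy
    have h4 : P.d2 y = 0 := Finsupp.mapDomain_injective
      (e.injective.prodMap Function.injective_id) (hy.trans Finsupp.mapDomain_zero.symm)
    rw [hP.inj (h4.trans (map_zero _).symm), Finsupp.mapDomain_zero]

theorem presStmt (h1 : ExtractStmt) (h2 : GPresStmt) (h3 : TreeStmt) : PresStmt := by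
  rintro G _ ⟨X, _, _, _, hd, hc, x, ⟨e⟩⟩
  obtain ⟨K⟩ := h1 X hd
  obtain ⟨Q⟩ := h2 X K hc x
  obtain ⟨P, hP⟩ := h3 _ Q
  exact hP.transport ((MulEquiv.inv' _).symm.trans e)

end Crest.Agent.R197
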